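import Mathlib

/-!
# P209: elementary inequalities
-/

namespace Vale.Agent.P209

/-- there is `P ≥ 1` with `(1 + 1 / P) ^ n (1 - ε) ≤ 1 - ε / 2` -/
theorem exists_P (n : ℕ) (ε : ℝ) (hε : 0 < ε) (hε1 : ε < 1) :
    ∃ P : ℕ, 1 ≤ P ∧ (1 + 1 / (P : ℝ)) ^ n * (1 - ε) ≤ 1 - ε / 2 := by
  have h1 : 0 < 1 - ε := by linarith
  have hc : (1 + 0 : ℝ) ^ n < (1 - ε / 2) / (1 - ε) := by
    rw [add_zero, one_pow, lt_div_iff₀ h1]
    linarith
  have ht : Filter.Tendsto (fun P : ℕ => (1 + 1 / (P : ℝ)) ^ n) Filter.atTop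
      (nhds ((1 + 0 : ℝ) ^ n)) :=
    (tendsto_const_nhds.add tendsto_one_div_atTop_nhds_zero_nat).pow n
  have hev := (ht.eventually (gt_mem_nhds hc)).and (Filter.eventually_ge_atTop 1)
  obtain ⟨P, hP1, hP2⟩ := hev.exists
  exact ⟨P, hP2, ((lt_div_iff₀ h1).1 hP1).le⟩

/-- `R ^ n - a ^ n ≥ (R - a) R ^ (n - 1)`, written without subtraction in the exponent -/
theorem pow_sub_pow_ge (n : ℕ) (R a : ℝ) (ha : 0 ≤ a) (haR : a ≤ R) :
    (R - a) * R ^ n ≤ R ^ (n + 1) - a ^ (n + 1) := by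
  have h1 : a ^ n ≤ R ^ n := pow_le_pow_left₀ ha haR n
  have h2 : a * a ^ n ≤ a * R ^ n := mul_le_mul_of_nonneg_left h1 ha
  rw [pow_succ' R n, pow_succ' a n]
  linarith

/-- `(a + t) ^ n - a ^ n ≤ n t R ^ (n - 1)` if `a + t ≤ R` -/
theorem add_pow_sub_pow_le (n : ℕ) (R a t : ℝ) (ha : 0 ≤ a) (ht : 0 ≤ t) (haR : a + t ≤ R) :
    (a + t) ^ (n + 1) - a ^ (n + 1) ≤ (n + 1) * t * R ^ n := by
  have hR : 0 ≤ R := by linarith
  induction n with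
  | zero => simp
  | succ n ih =>
    have hY : 0 ≤ ((n : ℝ) + 1) * t * R ^ n := by positivity
    have h1 : (a + t) * ((a + t) ^ (n + 1) - a ^ (n + 1)) ≤ R * (((n : ℝ) + 1) * t * R ^ n) :=
      calc (a + t) * ((a + t) ^ (n + 1) - a ^ (n + 1))
          ≤ (a + t) * (((n : ℝ) + 1) * t * R ^ n) :=
            mul_le_mul_of_nonneg_left ih (by linarith)
        _ ≤ R * (((n : ℝ) + 1) * t * R ^ n) := mul_le_mul_of_nonneg_right haR hY
    have h2 : a ^ (n + 1) ≤ R ^ (n + 1) := pow_le_pow_left₀ ha (by linarith) _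
    have h3 : t * a ^ (n + 1) ≤ t * R ^ (n + 1) := mul_le_mul_of_nonneg_left h2 ht
    have e1 : (a + t) ^ (n + 1 + 1) - a ^ (n + 1 + 1)
        = (a + t) * ((a + t) ^ (n + 1) - a ^ (n + 1)) + t * a ^ (n + 1) := by ring
    have e2 : (((n + 1 : ℕ) : ℝ) + 1) * t * R ^ (n + 1)
        = R * (((n : ℝ) + 1) * t * R ^ n) + t * R ^ (n + 1) := by
      push_cast
      ring
    rw [e1, e2]
    linarith

end Vale.Agent.P209
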