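import Vale.Agent.P209.Toric.Quant
import Vale.Agent.P209.Toric.AsympAux

/-!
# P209: consequences of the quantitative theorem
-/

namespace Vale.Agent.P209

open scoped ContDiff Topology

/-- choice of the two integers `L`, `M` -/
theorem exists_LM (R a c : ℝ) (ha : 0 ≤ a) (haR : a < R) (hc : 0 < c) (hc1 : c ≤ 1) :
    ∃ L M : ℕ, 1 ≤ L ∧ M ≤ L ∧ (L : ℝ) * a < M * R ∧ R / L ≤ c * (R - a) ∧
      (L : ℝ) * (c * (R - a)) ≤ 2 * R ∧ (M : ℝ) * R / L ≤ a + R / L := by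
  have hR : 0 < R := lt_of_le_of_lt ha haR
  have hw : 0 < R - a := by linarith
  have hcw : 0 < c * (R - a) := mul_pos hc hw
  have hcwR : c * (R - a) ≤ R := by nlinarith
  have hq1 : 1 ≤ R / (c * (R - a)) := by
    rw [le_div_iff₀ hcw]; linarith
  obtain ⟨L, hL⟩ : ∃ L : ℕ, L = ⌈R / (c * (R - a))⌉₊ := ⟨_, rfl⟩
  have hLge : R / (c * (R - a)) ≤ (L : ℝ) := by rw [hL]; exact Nat.le_ceil _
  have hLlt : (L : ℝ) < R / (c * (R - a)) + 1 := by
    rw [hL]; exact Nat.ceil_lt_add_one (by linarith)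
  have hL1r : (1 : ℝ) ≤ (L : ℝ) := le_trans hq1 hLge
  have hL1 : 1 ≤ L := by exact_mod_cast hL1r
  have hLpos : (0 : ℝ) < (L : ℝ) := by linarith
  obtain ⟨F, hF⟩ : ∃ F : ℕ, F = ⌊a * L / R⌋₊ := ⟨_, rfl⟩
  have hx0 : 0 ≤ a * L / R := by positivity
  have hFle : (F : ℝ) ≤ a * L / R := by rw [hF]; exact Nat.floor_le hx0
  have hFlt : a * L / R < (F : ℝ) + 1 := by rw [hF]; exact Nat.lt_floor_add_one _
  have hxL : a * L / R < (L : ℝ) := by
    rw [div_lt_iff₀ hR]; nlinarith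
  have hFL : F < L := by
    have : (F : ℝ) < (L : ℝ) := lt_of_le_of_lt hFle hxL
    exact_mod_cast this
  refine ⟨L, F + 1, hL1, hFL, ?_, ?_, ?_, ?_⟩
  · rw [div_lt_iff₀ hR] at hFlt
    push_cast
    linarith
  · rw [div_le_iff₀ hLpos]
    rw [div_le_iff₀ hcw] at hLge
    linarith
  · have h2 : (L : ℝ) ≤ 2 * (R / (c * (R - a))) := by linarith
    calc (L : ℝ) * (c * (R - a)) ≤ 2 * (R / (c * (R - a))) * (c * (R - a)) :=
          mul_le_mul_of_nonneg_right h2 hcw.le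
      _ = 2 * R := by field_simp
  · have h3 : (F : ℝ) * R ≤ a * L := by
      rw [le_div_iff₀ hR] at hFle; exact hFle
    have h4 : a + R / L = (a * L + R) / L := by field_simp
    rw [h4]
    apply div_le_div_of_nonneg_right _ hLpos.le
    push_cast
    linarith

/-- the arithmetic core, exponent `m + 1` -/
theorem hvol_core (m P L M : ℕ) (hP : 1 ≤ P) (hL : 1 ≤ L) (R a c ε S : ℝ) (ha : 0 ≤ a)
    (haR : a < R) (hc : 0 < c) (hc1 : c ≤ 1)
    (hcε : ((P : ℝ) + ((m + 1 : ℕ) : ℝ)) * c = ε / 2)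
    (hPε : (1 + 1 / (P : ℝ)) ^ (m + 1) * (1 - ε) ≤ 1 - ε / 2)
    (hRL : R / L ≤ c * (R - a)) (hM : (M : ℝ) * R / L ≤ a + R / L)
    (hS : S ≤ (1 - ε) * (R ^ (m + 1) - a ^ (m + 1))) :
    (1 + 1 / (P : ℝ)) ^ (m + 1) * S + ((P : ℝ) - 1) * (R / L) ^ (m + 1)
      ≤ R ^ (m + 1) - (M * R / L) ^ (m + 1) := by
  have hR : 0 < R := lt_of_le_of_lt ha haR
  have hw : 0 < R - a := by linarith
  have hLpos : (0 : ℝ) < (L : ℝ) := by exact_mod_cast hL
  have hL1r : (1 : ℝ) ≤ (L : ℝ) := by exact_mod_cast hL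
  have hP1r : (1 : ℝ) ≤ (P : ℝ) := by exact_mod_cast hP
  obtain ⟨t, ht⟩ : ∃ t : ℝ, t = R / L := ⟨_, rfl⟩
  rw [← ht] at hRL hM ⊢
  have ht0 : 0 ≤ t := by rw [ht]; positivity
  have htR : t ≤ R := by rw [ht]; exact div_le_self hR.le hL1r
  have hatR : a + t ≤ R := by nlinarith
  obtain ⟨V, hV⟩ : ∃ V : ℝ, V = R ^ (m + 1) - a ^ (m + 1) := ⟨_, rfl⟩
  have hVge : (R - a) * R ^ m ≤ V := by rw [hV]; exact pow_sub_pow_ge m R a ha haR.le
  have hRm : 0 < R ^ m := pow_pos hR m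
  have hVpos : 0 < V := lt_of_lt_of_le (mul_pos hw hRm) hVge
  -- the three estimates
  have hM0 : 0 ≤ (M : ℝ) * R / L := by positivity
  have e1 : ((M : ℝ) * R / L) ^ (m + 1) ≤ a ^ (m + 1) + ((m : ℝ) + 1) * c * V := by
    have h1 : ((M : ℝ) * R / L) ^ (m + 1) ≤ (a + t) ^ (m + 1) := pow_le_pow_left₀ hM0 hM _
    have h2 := add_pow_sub_pow_le m R a t ha ht0 hatR
    have h3 : ((m : ℝ) + 1) * t * R ^ m ≤ ((m : ℝ) + 1) * c * V := by
      have h4 : t * R ^ m ≤ c * V := by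
        calc t * R ^ m ≤ c * (R - a) * R ^ m := mul_le_mul_of_nonneg_right hRL hRm.le
          _ = c * ((R - a) * R ^ m) := by ring
          _ ≤ c * V := mul_le_mul_of_nonneg_left hVge hc.le
      have hm : (0 : ℝ) ≤ (m : ℝ) + 1 := by positivity
      calc ((m : ℝ) + 1) * t * R ^ m = ((m : ℝ) + 1) * (t * R ^ m) := by ring
        _ ≤ ((m : ℝ) + 1) * (c * V) := mul_le_mul_of_nonneg_left h4 hm
        _ = ((m : ℝ) + 1) * c * V := by ring
    linarith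
  have e2 : ((P : ℝ) - 1) * t ^ (m + 1) ≤ ((P : ℝ) - 1) * (c * V) := by
    apply mul_le_mul_of_nonneg_left _ (by linarith)
    calc t ^ (m + 1) = t * t ^ m := by ring
      _ ≤ t * R ^ m := mul_le_mul_of_nonneg_left (pow_le_pow_left₀ ht0 htR m) ht0
      _ ≤ c * (R - a) * R ^ m := mul_le_mul_of_nonneg_right hRL hRm.le
      _ = c * ((R - a) * R ^ m) := by ring
      _ ≤ c * V := mul_le_mul_of_nonneg_left hVge hc.le
  have e3 : (1 + 1 / (P : ℝ)) ^ (m + 1) * S ≤ (1 - ε / 2) * V := by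
    have hpos : 0 ≤ (1 + 1 / (P : ℝ)) ^ (m + 1) := by positivity
    calc (1 + 1 / (P : ℝ)) ^ (m + 1) * S
        ≤ (1 + 1 / (P : ℝ)) ^ (m + 1) * ((1 - ε) * V) := by
          rw [hV]; exact mul_le_mul_of_nonneg_left hS hpos
      _ = ((1 + 1 / (P : ℝ)) ^ (m + 1) * (1 - ε)) * V := by ring
      _ ≤ (1 - ε / 2) * V := mul_le_mul_of_nonneg_right hPε hVpos.le
  have e4 : ((P : ℝ) + ((m : ℝ) + 1)) * c * V = ε / 2 * V := by
    rw [← hcε]; push_cast; ring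
  have e5 : 0 ≤ c * V := (mul_pos hc hVpos).le
  have hRV : R ^ (m + 1) = V + a ^ (m + 1) := by rw [hV]; ring
  rw [hRV]
  nlinarith

/-- Asymptotic form: one ball of arbitrary capacity `a < R` together with small balls filling all but
a fraction `ε` of the remaining volume.

Proof. If `ε ≥ 1` the volume hypothesis forces `κ` to be empty (any `δ` works; then the index type
`Unit ⊕ κ` is a subsingleton, `packsI_of_subsingleton`). Let `ε < 1`, `P` from `exists_P`,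
`c = ε / (2 (P + n))`, `δ = c / (4 P)`. Given `R, a`, put `w = R - a`, `V = R ^ n - a ^ n ≥ w R ^ (n-1)`,
`L = ⌈R / (c w)⌉₊` (so `R / L ≤ c w` and, as `R / (c w) ≥ 1`, `L ≤ 2 R / (c w)`, that is
`R / L ≥ c w / 2`), `M = ⌊a L / R⌋₊ + 1` (so `L a < M R`, `M ≤ L`, `M R / L ≤ a + R / L ≤ R`).
Apply `packsI_quant_big`: `L P r x ≤ L P δ w = L c w / 4 ≤ R / 2 < R`;
`R ^ n - (M R / L) ^ n ≥ V - n (R / L) R ^ (n-1) ≥ V - n c V`;
`(P - 1) (R / L) ^ n ≤ (P - 1) c w R ^ (n-1) ≤ (P - 1) c V`;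
`(1 + 1 / P) ^ n ∑ r x ^ n ≤ (1 - ε / 2) V`; and `(P - 1) c + n c ≤ ε / 2`. -/
theorem exists_delta (n : ℕ) (hn : 1 ≤ n) (ε : ℝ) (hε : 0 < ε) :
    ∃ δ : ℝ, 0 < δ ∧ ∀ (κ : Type) [Fintype κ] (R a : ℝ) (r : κ → ℝ), 0 ≤ a → a < R →
      (∀ x, 0 < r x) → (∀ x, r x ≤ δ * (R - a)) →
      ∑ x, r x ^ n ≤ (1 - ε) * (R ^ n - a ^ n) →
      PacksI n (Sum.elim (fun _ : Unit => a) r) R := by
  obtain ⟨m, rfl⟩ : ∃ m, n = m + 1 := ⟨n - 1, by omega⟩
  by_cases hε1 : ε < 1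
  · obtain ⟨P, hP, hPε⟩ := exists_P (m + 1) ε hε hε1
    have hP1r : (1 : ℝ) ≤ (P : ℝ) := by exact_mod_cast hP
    have hm0 : (0 : ℝ) ≤ (m : ℝ) := Nat.cast_nonneg m
    have hden : (0 : ℝ) < (P : ℝ) + ((m + 1 : ℕ) : ℝ) := by push_cast; linarith
    obtain ⟨c, hcdef⟩ : ∃ c : ℝ, c = ε / (2 * ((P : ℝ) + ((m + 1 : ℕ) : ℝ))) := ⟨_, rfl⟩
    have hc : 0 < c := by rw [hcdef]; positivity
    have hcε : ((P : ℝ) + ((m + 1 : ℕ) : ℝ)) * c = ε / 2 := by
      rw [hcdef]; field_simp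
    have hc1 : c ≤ 1 := by
      have h2 : (2 : ℝ) ≤ (P : ℝ) + ((m + 1 : ℕ) : ℝ) := by push_cast; linarith
      nlinarith
    refine ⟨c / (4 * P), by positivity, ?_⟩
    intro κ _ R a r ha haR hr hsm hvol
    have hR : 0 < R := lt_of_le_of_lt ha haR
    have hw : 0 < R - a := by linarith
    obtain ⟨L, M, hL, hML, hLa, hRL, hL2, hM⟩ := exists_LM R a c ha haR hc hc1
    refine packsI_quant_big (m + 1) P L M hn hP hL hML R a hR hLa r hr ?_ ?_
    · intro x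
      have hLP : (0 : ℝ) ≤ ((L * P : ℕ) : ℝ) := Nat.cast_nonneg _
      have h1 : ((L * P : ℕ) : ℝ) * r x ≤ ((L * P : ℕ) : ℝ) * (c / (4 * P) * (R - a)) :=
        mul_le_mul_of_nonneg_left (hsm x) hLP
      have h2 : ((L * P : ℕ) : ℝ) * (c / (4 * P) * (R - a)) = (L : ℝ) * (c * (R - a)) / 4 := by
        push_cast
        field_simp
      linarith
    · exact hvol_core m P L M hP hL R a c ε _ ha haR hc hc1 hcε hPε hRL hM hvol
  · refine ⟨1, one_pos, ?_⟩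
    intro κ _ R a r ha haR hr _ hvol
    have hV : 0 ≤ R ^ (m + 1) - a ^ (m + 1) := by
      have := pow_le_pow_left₀ ha haR.le (m + 1)
      linarith
    have hle : ∑ x, r x ^ (m + 1) ≤ 0 := by
      have : (1 - ε) * (R ^ (m + 1) - a ^ (m + 1)) ≤ 0 :=
        mul_nonpos_of_nonpos_of_nonneg (by linarith) hV
      linarith
    have hemp : IsEmpty κ := by
      by_contra hne
      rw [not_isEmpty_iff] at hne
      have : 0 < ∑ x, r x ^ (m + 1) :=
        Finset.sum_pos (fun x _ => pow_pos (hr x) _) Finset.univ_nonempty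
      linarith
    have : Subsingleton (Unit ⊕ κ) := by
      constructor
      intro x y
      rcases x with x | x
      · rcases y with y | y
        · rfl
        · exact (hemp.false y).elim
      · exact (hemp.false x).elim
    apply packsI_of_subsingleton
    intro i
    rcases i with i | i
    · exact haR
    · exact (hemp.false i).elim

end Vale.Agent.P209
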