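import Mathlib

/-!
# P209: choice of the mesh and of the integer parameters
-/

namespace Vale.Agent.P209

/-- Put `σ = R - b₁ - b₂ > 0`, `η = min (σ / 3) μ₀`, `ρ' = max (b₂ + η) μ₀`, `s = ⌈ρ' / μ₀⌉₊ ≥ 1`,
`μ = ρ' / s` (then `μ ≤ μ₀`, and `s < ρ' / μ₀ + 1 ≤ 2 ρ' / μ₀` gives `μ₀ / 2 < μ`),
`a' = max (b₁ + η) ρ'`, `p = ⌊(a' - ρ') / μ⌋₊`, `sh = a' - ρ' - p μ ∈ [0, μ)`,
`L = ⌊(R - sh) / μ⌋₊`. Then `sh + (p + s) μ = a' > b₁`, `(p + s) μ ≤ a' ≤ b₁ + μ₀ < b₁ + 2 μ`,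
`sh + (p + 2 s) μ = a' + ρ' < R` (four cases; use `2 η < σ`, `b₂ ≤ b₁`, `4 μ₀ ≤ R - b₁`), hence
`p + 2 s ≤ L`; `sh + L μ ≤ R < sh + (L + 1) μ < (L + 2) μ`. -/
theorem exists_params (R b₁ b₂ μ₀ : ℝ) (hb₂ : 0 ≤ b₂) (hb : b₂ ≤ b₁) (hsum : b₁ + b₂ < R)
    (hμ₀ : 0 < μ₀) (hμ₀' : 4 * μ₀ ≤ R - b₁) :
    ∃ (μ sh : ℝ) (p s L : ℕ), μ₀ / 2 < μ ∧ μ ≤ μ₀ ∧ 0 ≤ sh ∧ 1 ≤ s ∧ b₂ < (s : ℝ) * μ ∧
      b₁ < sh + ((p + s : ℕ) : ℝ) * μ ∧ ((p + s : ℕ) : ℝ) * μ ≤ b₁ + 2 * μ ∧ p + 2 * s ≤ L ∧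
      sh + (L : ℝ) * μ ≤ R ∧ R - 2 * μ < (L : ℝ) * μ := by
  have hb₁ : 0 ≤ b₁ := le_trans hb₂ hb
  set σ : ℝ := R - b₁ - b₂ with hσ
  have hσ0 : 0 < σ := by rw [hσ]; linarith
  set η : ℝ := min (σ / 3) μ₀ with hη
  have hη0 : 0 < η := lt_min (by linarith) hμ₀
  have hη1 : η ≤ σ / 3 := min_le_left _ _
  have hη2 : η ≤ μ₀ := min_le_right _ _
  set ρ' : ℝ := max (b₂ + η) μ₀ with hρ'
  have hρ1 : b₂ + η ≤ ρ' := le_max_left _ _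
  have hρ2 : μ₀ ≤ ρ' := le_max_right _ _
  have hρ0 : 0 < ρ' := lt_of_lt_of_le hμ₀ hρ2
  set s : ℕ := ⌈ρ' / μ₀⌉₊ with hs
  have hq0 : 0 < ρ' / μ₀ := div_pos hρ0 hμ₀
  have hs1 : 1 ≤ s := Nat.ceil_pos.mpr hq0
  have hsr : (0 : ℝ) < (s : ℝ) := by exact_mod_cast hs1
  have hs2 : ρ' / μ₀ ≤ (s : ℝ) := Nat.le_ceil _
  have hs3 : (s : ℝ) < ρ' / μ₀ + 1 := Nat.ceil_lt_add_one hq0.le
  set μ : ℝ := ρ' / s with hμ
  have hμ0 : 0 < μ := div_pos hρ0 hsr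
  have hsμ : (s : ℝ) * μ = ρ' := by
    rw [hμ]
    field_simp
  have hμle : μ ≤ μ₀ := by
    rw [hμ, div_le_iff₀ hsr]
    rw [div_le_iff₀ hμ₀] at hs2
    linarith
  have hμgt : μ₀ / 2 < μ := by
    rw [hμ, lt_div_iff₀ hsr]
    have h1 : 1 ≤ ρ' / μ₀ := by
      rw [le_div_iff₀ hμ₀]
      linarith
    have h2 : (s : ℝ) < 2 * (ρ' / μ₀) := by linarith
    have h3 : (s : ℝ) * μ₀ < 2 * (ρ' / μ₀) * μ₀ := mul_lt_mul_of_pos_right h2 hμ₀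
    have h4 : 2 * (ρ' / μ₀) * μ₀ = 2 * ρ' := by
      field_simp
    nlinarith
  set a' : ℝ := max (b₁ + η) ρ' with ha'
  have ha1 : b₁ + η ≤ a' := le_max_left _ _
  have ha2 : ρ' ≤ a' := le_max_right _ _
  have hρle : ρ' ≤ b₁ + μ₀ := max_le (by linarith) (by linarith)
  have ha3 : a' ≤ b₁ + μ₀ := max_le (by linarith) hρle
  have hρlt1 : ρ' < R - b₁ - η := max_lt (by rw [hσ] at hη1; linarith) (by linarith)
  have hρlt2 : ρ' < R / 2 := max_lt (by rw [hσ] at hη1; linarith) (by linarith)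
  have htop : a' + ρ' < R := by
    have : a' < R - ρ' := max_lt (by linarith) (by linarith)
    linarith
  set t : ℝ := (a' - ρ') / μ with ht
  have ht0 : 0 ≤ t := div_nonneg (by linarith) hμ0.le
  have htμ : t * μ = a' - ρ' := by
    rw [ht]
    field_simp
  set p : ℕ := ⌊t⌋₊ with hp
  have hp1 : (p : ℝ) ≤ t := Nat.floor_le ht0
  have hp2 : t < (p : ℝ) + 1 := Nat.lt_floor_add_one t
  set sh : ℝ := a' - ρ' - p * μ with hsh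
  have hsh0 : 0 ≤ sh := by
    have : (p : ℝ) * μ ≤ t * μ := mul_le_mul_of_nonneg_right hp1 hμ0.le
    rw [hsh]
    linarith
  have hsh1 : sh < μ := by
    have : t * μ < ((p : ℝ) + 1) * μ := mul_lt_mul_of_pos_right hp2 hμ0
    rw [hsh]
    linarith
  have hps : sh + ((p + s : ℕ) : ℝ) * μ = a' := by
    push_cast
    rw [hsh]
    linarith
  set u : ℝ := (R - sh) / μ with hu
  have hshR : sh < R := by
    rw [hsh]
    have : 0 ≤ (p : ℝ) * μ := by positivity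
    linarith
  have hu0 : 0 ≤ u := div_nonneg (by linarith) hμ0.le
  have huμ : u * μ = R - sh := by
    rw [hu]
    field_simp
  set L : ℕ := ⌊u⌋₊ with hL
  have hL1 : (L : ℝ) ≤ u := Nat.floor_le hu0
  have hL2 : u < (L : ℝ) + 1 := Nat.lt_floor_add_one u
  refine ⟨μ, sh, p, s, L, hμgt, hμle, hsh0, hs1, by rw [hsμ]; linarith, by rw [hps]; linarith,
    ?_, ?_, ?_, ?_⟩
  · linarith
  · apply Nat.le_floor
    rw [hu, le_div_iff₀ hμ0]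
    push_cast
    have h1 : ((p : ℝ) + 2 * (s : ℝ)) * μ = (a' - sh) + ρ' := by
      have := hps
      push_cast at this
      linarith
    linarith
  · have : (L : ℝ) * μ ≤ u * μ := mul_le_mul_of_nonneg_right hL1 hμ0.le
    linarith
  · have : u * μ < ((L : ℝ) + 1) * μ := mul_lt_mul_of_pos_right hL2 hμ0
    linarith

end Vale.Agent.P209
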