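import Vale.Agent.P209.Toric.AsympAux

/-!
# P209: volume estimates
-/

namespace Vale.Agent.P209

private theorem pow_add_le' (a b : ℝ) (hb : 0 ≤ b) (hab : b ≤ a) (n : ℕ) :
    a ^ n + (2 ^ n - 1) * b ^ n ≤ (a + b) ^ n := by
  induction n with
  | zero => simp
  | succ n ih =>
    have ha : 0 ≤ a := le_trans hb hab
    have h1 : b ^ n ≤ a ^ n := pow_le_pow_left₀ hb hab n
    have h2 : 0 ≤ b ^ n := pow_nonneg hb n
    have h3 : (1 : ℝ) ≤ 2 ^ n := one_le_pow₀ (by norm_num)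
    have h4 : (a ^ n + (2 ^ n - 1) * b ^ n) * (a + b) ≤ (a + b) ^ n * (a + b) :=
      mul_le_mul_of_nonneg_right ih (by linarith)
    have h5 : b ^ n * b ≤ a ^ n * b := mul_le_mul_of_nonneg_right h1 hb
    have h6 : b ^ n * b ≤ b ^ n * a := mul_le_mul_of_nonneg_left hab h2
    have h7 : (2 ^ n - 1) * (b ^ n * b) ≤ (2 ^ n - 1) * (b ^ n * a) :=
      mul_le_mul_of_nonneg_left h6 (by linarith)
    rw [pow_succ (a + b), pow_succ a, pow_succ b, pow_succ 2]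
    nlinarith

/-- `b₁ ^ n + (2 ^ n - 1) b₂ ^ n ≤ (b₁ + b₂) ^ n` for `0 ≤ b₂ ≤ b₁` (induction on `n`); apply it with
`b₂` the largest `b j` (if `β` is empty the claim is `b₁ ^ n < R ^ n`). -/
theorem vol_pos (n : ℕ) (hn : 1 ≤ n) {β : Type} [Fintype β] (hβ : Fintype.card β + 1 ≤ 2 ^ n)
    (R b₁ : ℝ) (b : β → ℝ) (hb₁ : 0 < b₁) (hb₁R : b₁ < R) (hb : ∀ j, 0 < b j)
    (hle : ∀ j, b j ≤ b₁) (hsum : ∀ j, b₁ + b j < R) :
    b₁ ^ n + ∑ j, b j ^ n < R ^ n := by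
  have hn0 : n ≠ 0 := by omega
  by_cases hne : (Finset.univ : Finset β).Nonempty
  · obtain ⟨j0, _, hmax⟩ := Finset.exists_max_image Finset.univ b hne
    have h1 : ∑ j, b j ^ n ≤ ∑ _j : β, b j0 ^ n :=
      Finset.sum_le_sum (fun j _ => pow_le_pow_left₀ (hb j).le (hmax j (Finset.mem_univ _)) n)
    rw [Finset.sum_const, Finset.card_univ, nsmul_eq_mul] at h1
    have h2 : (Fintype.card β : ℝ) ≤ 2 ^ n - 1 := by
      have : (Fintype.card β : ℝ) + 1 ≤ 2 ^ n := by exact_mod_cast hβ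
      linarith
    have h3 : (Fintype.card β : ℝ) * b j0 ^ n ≤ (2 ^ n - 1) * b j0 ^ n :=
      mul_le_mul_of_nonneg_right h2 (pow_nonneg (hb j0).le n)
    have h4 := pow_add_le' b₁ (b j0) (hb j0).le (hle j0) n
    have h5 : (b₁ + b j0) ^ n < R ^ n :=
      pow_lt_pow_left₀ (hsum j0) (by linarith [hb j0]) hn0
    linarith
  · rw [Finset.not_nonempty_iff_eq_empty] at hne
    rw [hne, Finset.sum_empty, add_zero]
    exact pow_lt_pow_left₀ hb₁R hb₁.le hn0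

/-- Each of the three roundings costs at most `(n + 1) * (2 μ or μ) * R ^ n`
(`add_pow_sub_pow_le`): `(L μ) ^ (n+1) ≥ (R - 2 μ) ^ (n+1) ≥ R ^ (n+1) - 2 (n+1) μ R ^ n`,
`(q μ) ^ (n+1) ≤ (b₁ + 2 μ) ^ (n+1) ≤ b₁ ^ (n+1) + 2 (n+1) μ R ^ n`,
`(m₀ j μ) ^ (n+1) ≤ (b j + μ) ^ (n+1) ≤ b j ^ (n+1) + (n+1) μ R ^ n`. -/
theorem vol_estimate (n : ℕ) {β : Type} [Fintype β] (R b₁ μ : ℝ) (b : β → ℝ) (q L : ℕ)
    (m₀ : β → ℕ) (hμ : 0 < μ) (hb₁ : 0 ≤ b₁) (hb : ∀ j, 0 ≤ b j) (h1 : b₁ + 2 * μ ≤ R)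
    (h2 : ∀ j, b j + μ ≤ R) (hq : (q : ℝ) * μ ≤ b₁ + 2 * μ)
    (hm : ∀ j, (m₀ j : ℝ) * μ ≤ b j + μ) (hL : R - 2 * μ < (L : ℝ) * μ) :
    R ^ (n + 1) - b₁ ^ (n + 1) - ∑ j, b j ^ (n + 1)
        - (4 + (Fintype.card β : ℝ)) * ((n : ℝ) + 1) * μ * R ^ n
      ≤ (L : ℝ) ^ (n + 1) * μ ^ (n + 1) - (q : ℝ) ^ (n + 1) * μ ^ (n + 1)
        - (∑ j, (m₀ j : ℝ) ^ (n + 1)) * μ ^ (n + 1) := by
  have hR2 : 0 ≤ R - 2 * μ := by linarith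
  have e1 := add_pow_sub_pow_le n R (R - 2 * μ) (2 * μ) hR2 (by linarith) (by linarith)
  have e1' : (R - 2 * μ + 2 * μ) = R := by ring
  rw [e1'] at e1
  have e2 : (R - 2 * μ) ^ (n + 1) ≤ ((L : ℝ) * μ) ^ (n + 1) := pow_le_pow_left₀ hR2 hL.le _
  have e3 := add_pow_sub_pow_le n R b₁ (2 * μ) hb₁ (by linarith) h1
  have e4 : ((q : ℝ) * μ) ^ (n + 1) ≤ (b₁ + 2 * μ) ^ (n + 1) :=
    pow_le_pow_left₀ (by positivity) hq _
  have e5 : ∑ j, ((m₀ j : ℝ) * μ) ^ (n + 1)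
      ≤ ∑ j, (b j ^ (n + 1) + ((n : ℝ) + 1) * μ * R ^ n) := by
    apply Finset.sum_le_sum
    intro j _
    have f1 := add_pow_sub_pow_le n R (b j) μ (hb j) hμ.le (h2 j)
    have f2 : ((m₀ j : ℝ) * μ) ^ (n + 1) ≤ (b j + μ) ^ (n + 1) :=
      pow_le_pow_left₀ (by positivity) (hm j) _
    linarith
  rw [Finset.sum_add_distrib, Finset.sum_const, Finset.card_univ, nsmul_eq_mul] at e5
  have e6 : ∑ j, ((m₀ j : ℝ) * μ) ^ (n + 1) = (∑ j, (m₀ j : ℝ) ^ (n + 1)) * μ ^ (n + 1) := by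
    rw [Finset.sum_mul]
    apply Finset.sum_congr rfl
    intro j _
    rw [mul_pow]
  rw [e6] at e5
  rw [mul_pow] at e2 e4
  nlinarith

end Vale.Agent.P209
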