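import Vale.Agent.P209.Toric.QuantMulti
import Vale.Agent.P209.Toric.Params
import Vale.Agent.P209.Toric.VolEst

/-!
# P209: up to `2 ^ n` balls of arbitrary sizes and small balls filling almost all the remaining volume
-/

namespace Vale.Agent.P209

open scoped ContDiff Topology

/-- a common upper bound `b₂` of the `b j` with the properties of a largest one -/
private theorem exists_b2 {β : Type} [Fintype β] (R b₁ : ℝ) (b : β → ℝ) (hb₁ : 0 < b₁)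
    (hb₁R : b₁ < R) (hb : ∀ j, 0 < b j) (hle : ∀ j, b j ≤ b₁) (hsum : ∀ j, b₁ + b j < R) :
    ∃ b₂ : ℝ, 0 ≤ b₂ ∧ b₂ ≤ b₁ ∧ b₁ + b₂ < R ∧ ∀ j, b j ≤ b₂ := by
  rcases isEmpty_or_nonempty β with h | h
  · exact ⟨0, le_refl _, hb₁.le, by linarith, fun j => (h.false j).elim⟩
  · obtain ⟨j0, hj0⟩ := Finite.exists_max b
    exact ⟨b j0, (hb j0).le, hle j0, hsum j0, hj0⟩

/-- the arithmetic core of `exists_delta_multi`, exponent `m + 1` -/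
private theorem hvol_core_multi (m P : ℕ) (hP : 1 ≤ P) {β : Type} [Fintype β]
    (hβ : Fintype.card β + 1 ≤ 2 ^ (m + 1)) (R μ μ₀ c ε V S W K : ℝ)
    (hR : 0 < R) (hμ : 0 < μ) (hμμ₀ : μ ≤ μ₀) (hμR : μ ≤ R) (hc : 0 < c) (hV : 0 < V)
    (hμ₀ : μ₀ * R ^ m = c * V)
    (hK : K = (4 + (2 : ℝ) ^ (m + 1)) * ((m : ℝ) + 1))
    (hcε : ((P : ℝ) + K) * c = ε / 2)
    (hPε : (1 + 1 / (P : ℝ)) ^ (m + 1) * (1 - ε) ≤ 1 - ε / 2)
    (hS : S ≤ (1 - ε) * V)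
    (hW : V - (4 + (Fintype.card β : ℝ)) * ((m : ℝ) + 1) * μ * R ^ m ≤ W) :
    (1 + 1 / (P : ℝ)) ^ (m + 1) * S + ((P : ℝ) - 1) * μ ^ (m + 1) ≤ W := by
  have hP1r : (1 : ℝ) ≤ (P : ℝ) := by exact_mod_cast hP
  have hRm : 0 < R ^ m := pow_pos hR m
  have hm0 : (0 : ℝ) ≤ (m : ℝ) := Nat.cast_nonneg m
  have hμRm : μ * R ^ m ≤ c * V := by
    rw [← hμ₀]; exact mul_le_mul_of_nonneg_right hμμ₀ hRm.le
  have e2 : ((P : ℝ) - 1) * μ ^ (m + 1) ≤ ((P : ℝ) - 1) * (c * V) := by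
    apply mul_le_mul_of_nonneg_left _ (by linarith)
    calc μ ^ (m + 1) = μ * μ ^ m := by ring
      _ ≤ μ * R ^ m := mul_le_mul_of_nonneg_left (pow_le_pow_left₀ hμ.le hμR m) hμ.le
      _ ≤ c * V := hμRm
  have e3 : (1 + 1 / (P : ℝ)) ^ (m + 1) * S ≤ (1 - ε / 2) * V := by
    have hpos : 0 ≤ (1 + 1 / (P : ℝ)) ^ (m + 1) := by positivity
    calc (1 + 1 / (P : ℝ)) ^ (m + 1) * S
        ≤ (1 + 1 / (P : ℝ)) ^ (m + 1) * ((1 - ε) * V) := mul_le_mul_of_nonneg_left hS hpos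
      _ = ((1 + 1 / (P : ℝ)) ^ (m + 1) * (1 - ε)) * V := by ring
      _ ≤ (1 - ε / 2) * V := mul_le_mul_of_nonneg_right hPε hV.le
  have hcard : (Fintype.card β : ℝ) ≤ (2 : ℝ) ^ (m + 1) := by
    have h1 : Fintype.card β ≤ 2 ^ (m + 1) := by omega
    exact_mod_cast h1
  have e4 : (4 + (Fintype.card β : ℝ)) * ((m : ℝ) + 1) * μ * R ^ m ≤ K * (c * V) := by
    have h1 : (4 + (Fintype.card β : ℝ)) * ((m : ℝ) + 1) ≤ K := by
      rw [hK]; exact mul_le_mul_of_nonneg_right (by linarith) (by linarith)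
    have h0 : 0 ≤ (4 + (Fintype.card β : ℝ)) * ((m : ℝ) + 1) := by positivity
    have hK0 : 0 ≤ K := le_trans h0 h1
    calc (4 + (Fintype.card β : ℝ)) * ((m : ℝ) + 1) * μ * R ^ m
        = (4 + (Fintype.card β : ℝ)) * ((m : ℝ) + 1) * (μ * R ^ m) := by ring
      _ ≤ K * (μ * R ^ m) := mul_le_mul_of_nonneg_right h1 (mul_pos hμ hRm).le
      _ ≤ K * (c * V) := mul_le_mul_of_nonneg_left hμRm hK0
  have e5 : ((P : ℝ) + K) * c * V = ε / 2 * V := by rw [hcε]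
  have e6 : 0 ≤ c * V := (mul_pos hc hV).le
  nlinarith

/-- Asymptotic form. `b₁` is a largest ball.

Proof. Replacing `ε` by `min ε (1 / 2)` we may assume `ε < 1` (the volume hypothesis only gets weaker,
as `V := R ^ n - b₁ ^ n - ∑ b j ^ n > 0` by `vol_pos`). Let `P` be given by `exists_P`,
`K = (4 + 2 ^ n) n`, `c = ε / (2 (P + K))`, `δ = c / (4 P)`. Given the data put
`μ₀ = c V / R ^ (n-1)`. As `V ≤ R ^ n - b₁ ^ n ≤ n (R - b₁) R ^ (n-1)` (`add_pow_sub_pow_le`) and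
`c ≤ 1 / (4 n)`, `4 μ₀ ≤ R - b₁`. Let `b₂` be the largest `b j` (`0` if `β` is empty) and take
`μ, sh, p, s, L` from `exists_params R b₁ b₂ μ₀`; put `m₀ j = ⌊b j / μ⌋₊ + 1`, so
`b j < m₀ j μ ≤ b j + μ` and `m₀ j ≤ s` (because `b j ≤ b₂ < s μ`). Apply `packsI_quant_multi`:
* `P r x < μ`: `r x ≤ δ V / R ^ (n-1) = (δ / c) μ₀ < (2 δ / c) μ = μ / (2 P)`;
* `hvol`: by `vol_estimate` the right side is `≥ V - (4 + card β) n μ R ^ (n-1) ≥ V - K c V`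
  (`μ ≤ μ₀`); the left side is `≤ (1 - ε / 2) V + (P - 1) μ ^ n` and
  `μ ^ n ≤ μ R ^ (n-1) ≤ c V`; finally `(P - 1 + K) c ≤ ε / 2`. -/
theorem exists_delta_multi (n : ℕ) (hn : 1 ≤ n) (ε : ℝ) (hε : 0 < ε) :
    ∃ δ : ℝ, 0 < δ ∧ ∀ (β κ : Type) [Fintype β] [Fintype κ] (R b₁ : ℝ) (b : β → ℝ) (r : κ → ℝ),
      Fintype.card β + 1 ≤ 2 ^ n → 0 < b₁ → b₁ < R → (∀ j, 0 < b j) → (∀ j, b j ≤ b₁) →
      (∀ j, b₁ + b j < R) → (∀ x, 0 < r x) →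
      (∀ x, r x * R ^ (n - 1) ≤ δ * (R ^ n - b₁ ^ n - ∑ j, b j ^ n)) →
      ∑ x, r x ^ n ≤ (1 - ε) * (R ^ n - b₁ ^ n - ∑ j, b j ^ n) →
      PacksI n (Sum.elim (Sum.elim (fun _ : Unit => b₁) b) r) R := by
  obtain ⟨m, rfl⟩ : ∃ m, n = m + 1 := ⟨n - 1, by omega⟩
  obtain ⟨ε', hε'def⟩ : ∃ ε' : ℝ, ε' = min ε (1 / 2) := ⟨_, rfl⟩
  have hε'0 : 0 < ε' := by rw [hε'def]; exact lt_min hε (by norm_num)
  have hε'le : ε' ≤ ε := by rw [hε'def]; exact min_le_left _ _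
  have hε'half : ε' ≤ 1 / 2 := by rw [hε'def]; exact min_le_right _ _
  have hε'1 : ε' < 1 := by linarith
  obtain ⟨P, hP, hPε⟩ := exists_P (m + 1) ε' hε'0 hε'1
  have hP1r : (1 : ℝ) ≤ (P : ℝ) := by exact_mod_cast hP
  have hm0 : (0 : ℝ) ≤ (m : ℝ) := Nat.cast_nonneg m
  obtain ⟨K, hK⟩ : ∃ K : ℝ, K = (4 + (2 : ℝ) ^ (m + 1)) * ((m : ℝ) + 1) := ⟨_, rfl⟩
  have hKge : (m : ℝ) + 1 ≤ K := by
    have h2 : (0 : ℝ) ≤ (2 : ℝ) ^ (m + 1) := by positivity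
    rw [hK]; nlinarith
  have hden : (0 : ℝ) < (P : ℝ) + K := by linarith
  obtain ⟨c, hcdef⟩ : ∃ c : ℝ, c = ε' / (2 * ((P : ℝ) + K)) := ⟨_, rfl⟩
  have hc : 0 < c := by rw [hcdef]; positivity
  have hcε : ((P : ℝ) + K) * c = ε' / 2 := by
    rw [hcdef]; field_simp
  have hc4 : 4 * c * ((m : ℝ) + 1) ≤ 1 := by
    have h1 : ((m : ℝ) + 1) * c ≤ ((P : ℝ) + K) * c :=
      mul_le_mul_of_nonneg_right (by linarith) hc.le
    nlinarith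
  refine ⟨c / (4 * P), by positivity, ?_⟩
  intro β κ _ _ R b₁ b r hβ hb₁ hb₁R hb hle hsum hr hsm hvol
  have hR : 0 < R := lt_trans hb₁ hb₁R
  have hRm : 0 < R ^ m := pow_pos hR m
  obtain ⟨V, hVdef⟩ : ∃ V : ℝ, V = R ^ (m + 1) - b₁ ^ (m + 1) - ∑ j, b j ^ (m + 1) := ⟨_, rfl⟩
  rw [← hVdef] at hvol
  have hV : 0 < V := by
    have := vol_pos (m + 1) hn hβ R b₁ b hb₁ hb₁R hb hle hsum
    rw [hVdef]; linarith
  have hsm' : ∀ x, r x * R ^ m ≤ c / (4 * P) * V := by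
    intro x
    have := hsm x
    rw [← hVdef] at this
    simpa using this
  have hvol' : ∑ x, r x ^ (m + 1) ≤ (1 - ε') * V :=
    le_trans hvol (mul_le_mul_of_nonneg_right (by linarith) hV.le)
  obtain ⟨μ₀, hμ₀def⟩ : ∃ μ₀ : ℝ, μ₀ = c * V / R ^ m := ⟨_, rfl⟩
  have hμ₀ : 0 < μ₀ := by rw [hμ₀def]; positivity
  have hμ₀R : μ₀ * R ^ m = c * V := by rw [hμ₀def]; field_simp
  have hVle : V ≤ ((m : ℝ) + 1) * (R - b₁) * R ^ m := by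
    have h1 := add_pow_sub_pow_le m R b₁ (R - b₁) hb₁.le (by linarith) (by linarith)
    have h2 : b₁ + (R - b₁) = R := by ring
    rw [h2] at h1
    have h3 : 0 ≤ ∑ j, b j ^ (m + 1) := Finset.sum_nonneg (fun j _ => (pow_pos (hb j) _).le)
    rw [hVdef]; linarith
  have h4μ₀ : 4 * μ₀ ≤ R - b₁ := by
    have h1 : 4 * μ₀ * R ^ m ≤ (R - b₁) * R ^ m := by
      have h2 : 4 * μ₀ * R ^ m = 4 * c * V := by rw [mul_assoc, hμ₀R]; ring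
      rw [h2]
      have h3 : 4 * c * V ≤ 4 * c * (((m : ℝ) + 1) * (R - b₁) * R ^ m) :=
        mul_le_mul_of_nonneg_left hVle (by positivity)
      have h4 : 4 * c * (((m : ℝ) + 1) * (R - b₁) * R ^ m)
          = (4 * c * ((m : ℝ) + 1)) * ((R - b₁) * R ^ m) := by ring
      have h5 : (4 * c * ((m : ℝ) + 1)) * ((R - b₁) * R ^ m) ≤ 1 * ((R - b₁) * R ^ m) :=
        mul_le_mul_of_nonneg_right hc4 (mul_pos (by linarith) hRm).le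
      linarith
    exact le_of_mul_le_mul_right h1 hRm
  obtain ⟨b₂, hb₂0, hb₂le, hb₂sum, hb₂max⟩ := exists_b2 R b₁ b hb₁ hb₁R hb hle hsum
  obtain ⟨μ, sh, p, s, L, hμ1, hμ2, hsh, hs, hb₂s, ha₁, hq, hL, hRL, hLR⟩ :=
    exists_params R b₁ b₂ μ₀ hb₂0 hb₂le hb₂sum hμ₀ h4μ₀
  have hμ : 0 < μ := by linarith
  have hfl : ∀ j, (⌊b j / μ⌋₊ : ℝ) * μ ≤ b j := by
    intro j
    have h1 : (⌊b j / μ⌋₊ : ℝ) ≤ b j / μ := Nat.floor_le (div_pos (hb j) hμ).le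
    rwa [le_div_iff₀ hμ] at h1
  have hfl2 : ∀ j, b j < ((⌊b j / μ⌋₊ + 1 : ℕ) : ℝ) * μ := by
    intro j
    have h1 : b j / μ < (⌊b j / μ⌋₊ : ℝ) + 1 := Nat.lt_floor_add_one _
    rw [div_lt_iff₀ hμ] at h1
    push_cast
    exact h1
  have hm₀s : ∀ j, ⌊b j / μ⌋₊ + 1 ≤ s := by
    intro j
    have h1 : b j / μ < (s : ℝ) := by
      rw [div_lt_iff₀ hμ]; exact lt_of_le_of_lt (hb₂max j) hb₂s
    have h2 : ⌊b j / μ⌋₊ < s := (Nat.floor_lt (div_pos (hb j) hμ).le).2 h1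
    omega
  have hμR : μ ≤ R := by linarith
  refine packsI_quant_multi (m + 1) P p s L hn hP hs hL hβ (fun j => ⌊b j / μ⌋₊ + 1) hm₀s
    μ sh R b₁ b hμ hsh ha₁ hfl2 hRL r hr ?_ ?_
  · intro x
    have h1 : (P : ℝ) * r x * R ^ m ≤ μ₀ / 4 * R ^ m := by
      have h2 : (P : ℝ) * r x * R ^ m = (P : ℝ) * (r x * R ^ m) := by ring
      have h3 : (P : ℝ) * (r x * R ^ m) ≤ (P : ℝ) * (c / (4 * P) * V) :=
        mul_le_mul_of_nonneg_left (hsm' x) (by linarith)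
      have h4 : (P : ℝ) * (c / (4 * P) * V) = c * V / 4 := by field_simp
      have h5 : μ₀ / 4 * R ^ m = c * V / 4 := by rw [← hμ₀R]; ring
      linarith
    have h6 : (P : ℝ) * r x ≤ μ₀ / 4 := le_of_mul_le_mul_right h1 hRm
    linarith
  · have hW := vol_estimate m R b₁ μ b (p + s) L (fun j => ⌊b j / μ⌋₊ + 1) hμ hb₁.le
      (fun j => (hb j).le) (by linarith) (fun j => by have := hle j; linarith) hq
      (fun j => by have := hfl j; push_cast; linarith) hLR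
    rw [← hVdef] at hW
    exact hvol_core_multi m P hP hβ R μ μ₀ c ε' V _ _ K hR hμ hμ2 hμR hc hV hμ₀R hK hcε hPε
      hvol' hW

end Vale.Agent.P209
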