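import Vale.Agent.P209.Toric.Defs

/-!
# P209: area preserving maps of the plane and symplectic maps of `ℂ^n`: general lemmas
-/

namespace Vale.Agent.P209

open scoped ContDiff Topology

/-- the area form of the plane -/
def om1 (u v : ℂ) : ℝ := u.re * v.im - u.im * v.re

/-- `g` is differentiable at `P` and its derivative preserves the area form -/
def APAt (g : ℂ → ℂ) (P : ℂ) : Prop :=
  DifferentiableAt ℝ g P ∧ ∀ u v, om1 (fderiv ℝ g P u) (fderiv ℝ g P v) = om1 u v

/-- `F` is differentiable at `z` and its derivative preserves the symplectic form -/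
def SympAt {n : ℕ} (F : (Fin n → ℂ) → (Fin n → ℂ)) (z : Fin n → ℂ) : Prop :=
  DifferentiableAt ℝ F z ∧ ∀ u v, omega (fderiv ℝ F z u) (fderiv ℝ F z v) = omega u v

/-- the open right half plane -/
def HP : Set ℂ := {P | 0 < P.re}

theorem isOpen_HP : IsOpen HP :=
  isOpen_lt continuous_const Complex.continuous_re

theorem APAt.comp {g h : ℂ → ℂ} {P : ℂ} (hg : APAt g (h P)) (hh : APAt h P) :
    APAt (fun w => g (h w)) P := by
  refine ⟨hg.1.comp P hh.1, fun u v => ?_⟩
  have e : fderiv ℝ (fun w => g (h w)) P = (fderiv ℝ g (h P)).comp (fderiv ℝ h P) :=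
    fderiv_comp P hg.1 hh.1
  rw [e, ContinuousLinearMap.comp_apply, ContinuousLinearMap.comp_apply, hg.2, hh.2]

theorem SympAt.comp {n : ℕ} {F G : (Fin n → ℂ) → (Fin n → ℂ)} {z : Fin n → ℂ}
    (hF : SympAt F (G z)) (hG : SympAt G z) : SympAt (fun w => F (G w)) z := by
  refine ⟨hF.1.comp z hG.1, fun u v => ?_⟩
  have e : fderiv ℝ (fun w => F (G w)) z = (fderiv ℝ F (G z)).comp (fderiv ℝ G z) :=
    fderiv_comp z hF.1 hG.1
  rw [e, ContinuousLinearMap.comp_apply, ContinuousLinearMap.comp_apply, hF.2, hG.2]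

/-- criterion: the Jacobian determinant equals one -/
theorem apAt_of_hasFDerivAt {g : ℂ → ℂ} {g' : ℂ →L[ℝ] ℂ} {P : ℂ} (h : HasFDerivAt g g' P)
    (hdet : om1 (g' 1) (g' Complex.I) = 1) : APAt g P := by
  have key : ∀ u : ℂ, g' u = u.re • g' 1 + u.im • g' Complex.I := by
    intro u
    have hu : u = u.re • (1 : ℂ) + u.im • Complex.I := by
      apply Complex.ext <;> simp
    conv_lhs => rw [hu]
    rw [map_add, map_smul, map_smul]
  refine ⟨h.differentiableAt, fun u v => ?_⟩
  rw [h.fderiv, key u, key v]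
  unfold om1 at *
  simp only [Complex.add_re, Complex.add_im, Complex.real_smul, Complex.mul_re, Complex.mul_im,
    Complex.ofReal_re, Complex.ofReal_im, zero_mul, sub_zero, add_zero]
  linear_combination (u.re * v.im - u.im * v.re) * hdet

/-- criterion in terms of the real and imaginary parts and their first derivatives -/
theorem apAt_of_grads {A B : ℂ → ℝ} {P : ℂ} {a₁ a₂ b₁ b₂ : ℝ}
    (hA : HasFDerivAt A (a₁ • Complex.reCLM + a₂ • Complex.imCLM) P)
    (hB : HasFDerivAt B (b₁ • Complex.reCLM + b₂ • Complex.imCLM) P)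
    (hdet : a₁ * b₂ - a₂ * b₁ = 1) :
    APAt (fun w => ((A w : ℝ) : ℂ) + ((B w : ℝ) : ℂ) * Complex.I) P := by
  have hA' : HasFDerivAt (fun w => ((A w : ℝ) : ℂ))
      (Complex.ofRealCLM.comp (a₁ • Complex.reCLM + a₂ • Complex.imCLM)) P :=
    Complex.ofRealCLM.hasFDerivAt.comp P hA
  have hB' : HasFDerivAt (fun w => ((B w : ℝ) : ℂ))
      (Complex.ofRealCLM.comp (b₁ • Complex.reCLM + b₂ • Complex.imCLM)) P :=
    Complex.ofRealCLM.hasFDerivAt.comp P hB
  refine apAt_of_hasFDerivAt (hA'.add (hB'.mul_const Complex.I)) ?_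
  simp [om1]
  linarith

/-- a differentiable right inverse of an area preserving map is area preserving -/
theorem APAt.of_rightInverse {g q : ℂ → ℂ} {z : ℂ} (hq : DifferentiableAt ℝ q z)
    (hg : APAt g (q z)) (hgq : ∀ᶠ w in 𝓝 z, g (q w) = w) : APAt q z := by
  have hcomp : HasFDerivAt (fun w => g (q w)) ((fderiv ℝ g (q z)).comp (fderiv ℝ q z)) z :=
    hg.1.hasFDerivAt.comp z hq.hasFDerivAt
  have hid : HasFDerivAt (fun w => g (q w)) (ContinuousLinearMap.id ℝ ℂ) z :=
    (hasFDerivAt_id z).congr_of_eventuallyEq hgq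
  have e := hcomp.unique hid
  have e' : ∀ u, fderiv ℝ g (q z) (fderiv ℝ q z u) = u := by
    intro u
    have h1 := congrArg (fun L : ℂ →L[ℝ] ℂ => L u) e
    simpa using h1
  refine ⟨hq, fun u v => ?_⟩
  rw [← hg.2 (fderiv ℝ q z u) (fderiv ℝ q z v), e', e']

/-- a product of area preserving maps is symplectic -/
theorem sympAt_pi {n : ℕ} (g : ℂ → ℂ) (z : Fin n → ℂ) (h : ∀ j, APAt g (z j)) :
    SympAt (fun w j => g (w j)) z := by
  have hd : HasFDerivAt (fun (w : Fin n → ℂ) j => g (w j))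
      (ContinuousLinearMap.pi (fun j => (fderiv ℝ g (z j)).comp
        (ContinuousLinearMap.proj (R := ℝ) (φ := fun _ : Fin n => ℂ) j))) z := by
    rw [hasFDerivAt_pi]
    intro j
    exact (h j).1.hasFDerivAt.comp z
      (ContinuousLinearMap.proj (R := ℝ) (φ := fun _ : Fin n => ℂ) j).hasFDerivAt
  refine ⟨hd.differentiableAt, fun u v => ?_⟩
  rw [hd.fderiv]
  unfold omega
  refine Finset.sum_congr rfl (fun j _ => ?_)
  exact (h j).2 (u j) (v j)

theorem contDiff_of_isLinearMap {n : ℕ} {F : (Fin n → ℂ) → (Fin n → ℂ)} (hF : IsLinearMap ℝ F) :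
    ContDiff ℝ ∞ F :=
  (LinearMap.toContinuousLinearMap (hF.mk' F)).contDiff

/-- affine maps with symplectic linear part -/
theorem sympAt_of_isLinearMap {n : ℕ} {F : (Fin n → ℂ) → (Fin n → ℂ)} (hF : IsLinearMap ℝ F)
    (hω : ∀ u v, omega (F u) (F v) = omega u v) (b z : Fin n → ℂ) :
    SympAt (fun w => F w + b) z := by
  have hd : HasFDerivAt (fun w => F w + b) (LinearMap.toContinuousLinearMap (hF.mk' F)) z :=
    (LinearMap.toContinuousLinearMap (hF.mk' F)).hasFDerivAt.add_const b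
  refine ⟨hd.differentiableAt, fun u v => ?_⟩
  rw [hd.fderiv]
  exact hω u v

theorem sympAt_id {n : ℕ} (z : Fin n → ℂ) : SympAt (fun w => w) z := by
  refine ⟨differentiableAt_fun_id, fun u v => ?_⟩
  rw [fderiv_fun_id]
  rfl

end Vale.Agent.P209
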