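import Vale.Agent.P209.Toric.BigCellsCore

/-!
# P209: large balls and equal fine cells
-/

namespace Vale.Agent.P209

open scoped ContDiff Topology

/-- A central ball, at most `2 ^ n - 1` further balls `a₂ j ≤ m₀ j * T` (`m₀ j ≤ s`) and
`L ^ n - (p + s) ^ n - ∑ (m₀ j) ^ n` cells of capacity `T`.

Proof: apply `packsI_big_cells_core` with `ι₂ = β ⊕ Fin (2 ^ n - 1 - card β)` (on the second summand
`m₀ = 0`, `a₂ = -1`: empty balls) and `ι₃ = Fin (L ^ n + s ^ n - (p + s) ^ n - (2 * s) ^ n)`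
(`pow_two_scale_le` and `(p + 2 s) ^ n ≤ L ^ n`). The number of cells is
`card ι₃ + ∑_β (s ^ n - m₀ ^ n) + (2 ^ n - 1 - card β) s ^ n = L ^ n - (p + s) ^ n - ∑_β m₀ ^ n`
(`(2 s) ^ n = 2 ^ n s ^ n`), so `ι` embeds into the type of cells
(`Function.Embedding.nonempty_of_card_le`, `Fintype.card_sum`, `Fintype.card_sigma`);
conclude with `PacksI.reindex`. -/
theorem packsI_big_cells (n p s L : ℕ) (hn : 1 ≤ n) (hs : 1 ≤ s) (hL : p + 2 * s ≤ L)
    {β ι : Type} [Fintype β] [Fintype ι] (hβ : Fintype.card β + 1 ≤ 2 ^ n)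
    (m₀ : β → ℕ) (hm₀ : ∀ j, m₀ j ≤ s)
    (hcard : Fintype.card ι + (p + s) ^ n + ∑ j, m₀ j ^ n ≤ L ^ n)
    (μ sh T R a₁ : ℝ) (a₂ : β → ℝ) (hsh : 0 ≤ sh) (hT0 : 0 < T) (hT : T < μ)
    (ha₁ : a₁ < sh + ((p + s : ℕ) : ℝ) * μ) (ha₂ : ∀ j, a₂ j ≤ (m₀ j : ℝ) * T)
    (hR : sh + (L : ℝ) * μ ≤ R) :
    PacksI n (Sum.elim (Sum.elim (fun _ : Unit => a₁) a₂) (fun _ : ι => T)) R := by
  classical
  obtain ⟨K, hK⟩ : ∃ K, K + Fintype.card β + 1 = 2 ^ n := ⟨2 ^ n - 1 - Fintype.card β, by omega⟩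
  have hpow : (p + s) ^ n + (2 * s) ^ n ≤ L ^ n + s ^ n := by
    have h1 := pow_two_scale_le n p s
    have h2 : (p + 2 * s) ^ n ≤ L ^ n := Nat.pow_le_pow_left hL n
    omega
  obtain ⟨N, hN⟩ : ∃ N, N + (p + s) ^ n + (2 * s) ^ n = L ^ n + s ^ n :=
    ⟨L ^ n + s ^ n - (p + s) ^ n - (2 * s) ^ n, by omega⟩
  let m₁ : β ⊕ Fin K → ℕ := Sum.elim m₀ (fun _ => 0)
  let b₂ : β ⊕ Fin K → ℝ := Sum.elim a₂ (fun _ => -1)
  have hc2 : Fintype.card (β ⊕ Fin K) + 1 ≤ 2 ^ n := by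
    rw [Fintype.card_sum, Fintype.card_fin]
    omega
  have hc3 : Fintype.card (Fin N) + (p + s) ^ n + (2 * s) ^ n ≤ L ^ n + s ^ n := by
    rw [Fintype.card_fin]
    omega
  have hm₁ : ∀ j, m₁ j ≤ s := by
    rintro (j | j)
    · exact hm₀ j
    · exact Nat.zero_le _
  have hb₂ : ∀ j, b₂ j ≤ (m₁ j : ℝ) * T := by
    rintro (j | j)
    · exact ha₂ j
    · show (-1 : ℝ) ≤ ((0 : ℕ) : ℝ) * T
      simp
  have core := packsI_big_cells_core n p s L hn hs hL hc2 hc3 m₁ hm₁ μ sh T R a₁ b₂ hsh hT0 hT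
    ha₁ hb₂ hR
  -- counting the cells
  have hsumβ : ∑ j, (s ^ n - m₀ j ^ n) + ∑ j, m₀ j ^ n = Fintype.card β * s ^ n := by
    rw [← Finset.sum_add_distrib]
    have : ∀ j ∈ (Finset.univ : Finset β), s ^ n - m₀ j ^ n + m₀ j ^ n = s ^ n := by
      intro j _
      exact Nat.sub_add_cancel (Nat.pow_le_pow_left (hm₀ j) n)
    rw [Finset.sum_congr rfl this]
    simp
  have hcells : Fintype.card (Fin N ⊕ (Σ j : β ⊕ Fin K, Fin (s ^ n - m₁ j ^ n)))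
      = N + (∑ j, (s ^ n - m₀ j ^ n) + K * s ^ n) := by
    rw [Fintype.card_sum, Fintype.card_fin, Fintype.card_sigma, Fintype.sum_sum_type]
    have h0 : (0 : ℕ) ^ n = 0 := Nat.zero_pow (by omega)
    simp [m₁, h0]
    exact Finset.sum_congr rfl (fun j _ => Fintype.card_fin _)
  have hle : Fintype.card ι ≤ Fintype.card (Fin N ⊕ (Σ j : β ⊕ Fin K, Fin (s ^ n - m₁ j ^ n))) := by
    rw [hcells]
    have h2 : (2 * s) ^ n = K * s ^ n + Fintype.card β * s ^ n + s ^ n := by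
      rw [Nat.mul_pow, ← hK]
      ring
    omega
  obtain ⟨e⟩ := Function.Embedding.nonempty_of_card_le hle
  have hinj : Function.Injective
      (Sum.map (Sum.map id Sum.inl) e : (Unit ⊕ β) ⊕ ι →
        (Unit ⊕ (β ⊕ Fin K)) ⊕ (Fin N ⊕ (Σ j : β ⊕ Fin K, Fin (s ^ n - m₁ j ^ n)))) :=
    Function.Injective.sumMap (Function.Injective.sumMap Function.injective_id Sum.inl_injective)
      e.injective
  have h3 := PacksI.reindex core _ hinj
  have h4 : (fun x : (Unit ⊕ β) ⊕ ι => Sum.elim (Sum.elim (fun _ : Unit => a₁) b₂)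
      (fun _ : Fin N ⊕ (Σ j : β ⊕ Fin K, Fin (s ^ n - m₁ j ^ n)) => T)
        (Sum.map (Sum.map id Sum.inl) e x))
      = Sum.elim (Sum.elim (fun _ : Unit => a₁) a₂) (fun _ : ι => T) := by
    funext x
    rcases x with (x | x) | x <;> rfl
  rw [h4] at h3
  exact h3

end Vale.Agent.P209
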