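import Mathlib

/-!
# P209: counting codes in several layers
-/

namespace Vale.Agent.P209

/-- Codes: functions `Fin n → {0, …, m₁ - 1}` which take some value `≥ m₀`; there are
`m₁ ^ n - m₀ ^ n` of them (if `m₀ ≤ m₁`). -/
theorem exists_codes_range (n m₀ m₁ : ℕ) (ι : Type) [Fintype ι]
    (hk : Fintype.card ι + m₀ ^ n ≤ m₁ ^ n) :
    ∃ code : ι → Fin n → ℕ, Function.Injective code ∧ (∀ a i, code a i + 1 ≤ m₁) ∧
      ∀ a, ∃ i, m₀ ≤ code a i := by
  classical
  have h1 : Fintype.card {c : Fin n → Fin m₁ // ¬ ∃ i, m₀ ≤ (c i).1}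
      = Fintype.card (Fin n → Fin m₁) - Fintype.card {c : Fin n → Fin m₁ // ∃ i, m₀ ≤ (c i).1} :=
    Fintype.card_subtype_compl _
  have h2 : Fintype.card {c : Fin n → Fin m₁ // ∃ i, m₀ ≤ (c i).1}
      ≤ Fintype.card (Fin n → Fin m₁) := Fintype.card_subtype_le _
  have h3 : Fintype.card (Fin n → Fin m₁) = m₁ ^ n := by simp
  have h4 : Fintype.card {c : Fin n → Fin m₁ // ¬ ∃ i, m₀ ≤ (c i).1} ≤ m₀ ^ n := by
    have hinj : Function.Injective
        (fun (c : {c : Fin n → Fin m₁ // ¬ ∃ i, m₀ ≤ (c i).1}) (i : Fin n) =>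
          (⟨(c.1 i).1, by
            have h6 : ¬ m₀ ≤ (c.1 i).1 := fun h => c.2 ⟨i, h⟩
            omega⟩ : Fin m₀)) := by
      intro c c' h
      apply Subtype.ext
      funext i
      have := congrFun h i
      simp only [Fin.mk.injEq] at this
      exact Fin.ext this
    have := Fintype.card_le_of_injective _ hinj
    simpa using this
  have h5 : Fintype.card ι ≤ Fintype.card {c : Fin n → Fin m₁ // ∃ i, m₀ ≤ (c i).1} := by
    omega
  obtain ⟨emb⟩ := Function.Embedding.nonempty_of_card_le h5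
  refine ⟨fun a i => ((emb a).1 i).1, ?_, ?_, ?_⟩
  · intro a b h
    apply emb.injective
    apply Subtype.ext
    funext i
    exact Fin.ext (congrFun h i)
  · intro a i
    exact ((emb a).1 i).2
  · intro a
    exact (emb a).2

end Vale.Agent.P209
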