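import Vale.Agent.P209.Toric.Operad
import Vale.Agent.P209.Toric.Count2

/-!
# P209: one ball at the centre and equal cells in several outer layers of the grid
-/

namespace Vale.Agent.P209

open scoped ContDiff Topology

/-- One ball of capacity `a ≤ m₀ ρ` and `m₁ ^ n - m₀ ^ n` balls of capacity `ρ`, where `m₁ ρ < R`.
Same proof as `packs_core` (with `sh = 0`): put `δ = (R - m₁ ρ) / (m₁ + 1)`, `ρ' = ρ + δ`,
`e = δ / (n π)`; the central ball is embedded by the identity and the cell `i` by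
`emb e ρ' 0 (code i)`; use `isSympEmb_emb`, `cap_emb_lt`, `lt_cap_emb` (with `m = code i l + 1` for an
`l` with `m₀ ≤ code i l`), `emb_ne`. -/
theorem packsI_layers (n m₀ m₁ : ℕ) (hn : 1 ≤ n) {ι : Type} [Fintype ι]
    (hcard : Fintype.card ι + m₀ ^ n ≤ m₁ ^ n) (R a ρ : ℝ) (hρ : 0 < ρ) (ha : a ≤ m₀ * ρ)
    (h1 : m₁ * ρ < R) :
    PacksI n (Sum.elim (fun _ : Unit => a) (fun _ : ι => ρ)) R := by
  obtain ⟨code, hinj, hc1, hc2⟩ := exists_codes_range n m₀ m₁ ι hcard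
  have hmm : m₀ ≤ m₁ := by
    have h2 : m₀ ^ n ≤ m₁ ^ n := le_trans (Nat.le_add_left _ _) hcard
    exact (Nat.pow_le_pow_iff_left (by omega)).mp h2
  have hmm' : (m₀ : ℝ) ≤ (m₁ : ℝ) := by exact_mod_cast hmm
  obtain ⟨n, rfl⟩ : ∃ n', n = n' + 1 := ⟨n - 1, by omega⟩
  have hm0 : (0 : ℝ) < (m₁ : ℝ) + 1 := by positivity
  set δ : ℝ := (R - m₁ * ρ) / ((m₁ : ℝ) + 1) with hδ
  have hδ0 : 0 < δ := div_pos (by linarith) hm0
  have hδm : (m₁ : ℝ) * δ < R - m₁ * ρ := by
    have h3 : ((m₁ : ℝ) + 1) * δ = R - m₁ * ρ := by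
      rw [hδ]
      field_simp
    nlinarith
  set ρ' : ℝ := ρ + δ with hρ'
  have hn0 : (0 : ℝ) < ((n + 1 : ℕ) : ℝ) := by positivity
  set e : ℝ := δ / (((n + 1 : ℕ) : ℝ) * Real.pi) with he'
  have he : 0 < e := div_pos hδ0 (mul_pos hn0 Real.pi_pos)
  have hne : ((n + 1 : ℕ) : ℝ) * (Real.pi * e) = δ := by
    rw [he']
    field_simp
  have hle : ρ + ((n + 1 : ℕ) : ℝ) * (Real.pi * e) ≤ ρ' := by
    rw [hne]
  have hsub : cBall (n + 1) ρ ⊆ Udom e ρ' := cBall_subset_Udom he hle (by omega)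
  have haR : a < R := by
    have : (m₀ : ℝ) * ρ ≤ m₁ * ρ := mul_le_mul_of_nonneg_right hmm' hρ.le
    linarith
  have hlow : ∀ i, ∀ z ∈ cBall (n + 1) ρ, a < cap (emb e ρ' 0 (code i) z) := by
    intro i z hz
    obtain ⟨l, hl⟩ := hc2 i
    have h3 := lt_cap_emb (m := code i l + 1) he le_rfl (code i) ⟨l, rfl⟩ (hsub hz)
    have h4 : (((code i l + 1 : ℕ) : ℝ) - 1) = (code i l : ℝ) := by
      push_cast
      ring
    rw [h4, add_zero] at h3
    have h5 : (m₀ : ℝ) ≤ (code i l : ℝ) := by exact_mod_cast hl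
    have h6 : (m₀ : ℝ) * ρ ≤ (code i l : ℝ) * ρ' := by
      apply mul_le_mul h5 (by linarith) hρ.le (by positivity)
    linarith
  refine ⟨Sum.elim (fun _ => fun z => z) (fun i => emb e ρ' 0 (code i)), ?_, ?_, ?_⟩
  · rintro (u | i)
    · exact isSympEmb_id _
    · exact isSympEmb_emb (by omega) he le_rfl hle (code i)
  · rintro (u | i)
    · rintro _ ⟨z, hz, rfl⟩
      have hz' : cap z ≤ a := hz
      show cap z < R
      linarith
    · rintro _ ⟨z, hz, rfl⟩
      have h3 := cap_emb_lt (m := m₁) he le_rfl (code i) (hc1 i) (hsub hz)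
      show cap (emb e ρ' 0 (code i) z) < R
      have h4 : (m₁ : ℝ) * ρ' + 0 = m₁ * ρ + (m₁ : ℝ) * δ := by
        rw [hρ']
        ring
      linarith
  · rintro (u | i) (v | j) hij
    · exact absurd rfl hij
    · rw [Set.disjoint_left]
      rintro _ ⟨z, hz, rfl⟩ ⟨z', hz', h⟩
      have h3 := hlow j z' hz'
      have hz2 : cap z ≤ a := hz
      simp only [Sum.elim_inl, Sum.elim_inr] at h
      rw [h] at h3
      linarith
    · rw [Set.disjoint_left]
      rintro _ ⟨z, hz, rfl⟩ ⟨z', hz', h⟩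
      have h3 := hlow i z hz
      have hz2 : cap z' ≤ a := hz'
      simp only [Sum.elim_inl, Sum.elim_inr] at h
      rw [← h] at h3
      linarith
    · rw [Set.disjoint_left]
      rintro _ ⟨z, hz, rfl⟩ ⟨z', hz', h⟩
      have hcc : code j ≠ code i := fun hc => hij (congrArg Sum.inr (hinj hc).symm)
      exact emb_ne he le_rfl hcc (hsub hz') (hsub hz) h

/-- `m ^ n` equal cells (McDuff-Polterovich). From `packsI_layers` with `m₀ = 0`, `a = 0` and
`PacksI.reindex` along `Sum.inr`. -/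
theorem packsI_grid (n m : ℕ) (hn : 1 ≤ n) {ι : Type} [Fintype ι] (hcard : Fintype.card ι ≤ m ^ n)
    (R ρ : ℝ) (hρ : 0 < ρ) (h1 : m * ρ < R) : PacksI n (fun _ : ι => ρ) R := by
  have h := packsI_layers n 0 m hn (ι := ι) (by
    rw [zero_pow (by omega)]
    exact hcard) R 0 ρ hρ (by simp) h1
  exact h.reindex Sum.inr Sum.inr_injective

end Vale.Agent.P209
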