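import Vale.Agent.P209.Toric.Operad

/-!
# P209: substitution of packings into packings
-/

namespace Vale.Agent.P209

open scoped ContDiff Topology

/-- Substitution: the closed balls of capacities `ρ i` are packed into the open ball of capacity `R`;
every ball `x : κ` is assigned to a container `g x`, and for every container `i` the balls assigned
to it are packed into the open ball of capacity `ρ i`. Then all the balls are packed into the open
ball of capacity `R`. (Compose: `F x = f (g x) ∘ h (g x) ⟨x, rfl⟩`. For `x ≠ y` with `g x = g y` use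
injectivity of `f (g x)` on its open set, which contains `oBall n (ρ (g x))`; to handle the dependent
types first prove `∀ i (hx : g x = i), F x = fun z => f i (h i ⟨x, hx⟩ z)` by `subst`.) -/
theorem PacksI.subst {n : ℕ} {ι κ : Type} {ρ : ι → ℝ} {R : ℝ} (h : PacksI n ρ R) (g : κ → ι)
    (r : κ → ℝ) (hfib : ∀ i, PacksI n (fun x : {x : κ // g x = i} => r x.1) (ρ i)) :
    PacksI n r R := by
  obtain ⟨f, hf1, hf2, hf3⟩ := h
  choose hh hh1 hh2 hh3 using hfib
  -- the inner image lies in the closed container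
  have hin : ∀ i (x : κ) (hx : g x = i) (z : Fin n → ℂ), z ∈ cBall n (r x) →
      hh i ⟨x, hx⟩ z ∈ cBall n (ρ i) := by
    intro i x hx z hz
    exact oBall_subset_cBall n (ρ i) (hh2 i ⟨x, hx⟩ ⟨z, hz, rfl⟩)
  have hF : ∀ (x : κ) (i : ι) (hx : g x = i),
      (fun z => f (g x) (hh (g x) ⟨x, rfl⟩ z)) = fun z => f i (hh i ⟨x, hx⟩ z) := by
    intro x i hx
    subst hx
    rfl
  refine ⟨fun x z => f (g x) (hh (g x) ⟨x, rfl⟩ z), ?_, ?_, ?_⟩
  · intro x
    exact (hf1 (g x)).comp (hh1 (g x) ⟨x, rfl⟩) (hh2 (g x) ⟨x, rfl⟩)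
  · intro x
    rintro _ ⟨z, hz, rfl⟩
    exact hf2 (g x) ⟨_, hin (g x) x rfl z hz, rfl⟩
  · intro x y hxy
    rw [Set.disjoint_left]
    rintro _ ⟨z, hz, rfl⟩ ⟨z', hz', he⟩
    by_cases hg : g x = g y
    · have he' : f (g x) (hh (g x) ⟨y, hg.symm⟩ z') = f (g x) (hh (g x) ⟨x, rfl⟩ z) := by
        have := congrFun (hF y (g x) hg.symm) z'
        dsimp only at this he
        rw [← this]
        exact he
      obtain ⟨U, -, hU, -, hinj, -⟩ := hf1 (g x)
      have h1 := hinj (hU (hin (g x) y hg.symm z' hz')) (hU (hin (g x) x rfl z hz)) he'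
      have hne : (⟨x, rfl⟩ : {a : κ // g a = g x}) ≠ ⟨y, hg.symm⟩ := by
        intro hcon
        exact hxy (congrArg Subtype.val hcon)
      have hd := hh3 (g x) ⟨x, rfl⟩ ⟨y, hg.symm⟩ hne
      rw [Set.disjoint_left] at hd
      exact hd ⟨z, hz, rfl⟩ ⟨z', hz', h1⟩
    · have hd := hf3 (g x) (g y) hg
      rw [Set.disjoint_left] at hd
      exact hd ⟨_, hin (g x) x rfl z hz, rfl⟩ ⟨_, hin (g y) y rfl z' hz', he⟩

end Vale.Agent.P209
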