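import Vale.Agent.P209.Toric.TwoScale
import Vale.Agent.P209.Toric.Layers
import Vale.Agent.P209.Toric.Subst

/-!
# P209: large balls and equal fine cells (core statement)
-/

namespace Vale.Agent.P209

open scoped ContDiff Topology

/-- The containers of `packsI_two_scale` are refined: the container `j` receives a ball of capacity
`a₂ j ≤ m₀ j * T` and `s ^ n - (m₀ j) ^ n` cells of capacity `T`.

Proof: put `T₃ = (T + μ) / 2`, `T' = (s T + s μ) / 2`. Apply `packsI_two_scale` with central capacity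
`sh + (p + s) μ`, containers of capacity `T'`, cells of capacity `T₃`, and then `PacksI.subst` with
`g (inl (inl ())) = inl ()`, `g (inl (inr j)) = inr (inl j)`, `g (inr (inl x)) = inr (inr x)`,
`g (inr (inr ⟨j, t⟩)) = inr (inl j)`. Fibres: over `inl ()` and over `inr (inr x)` subsingletons
(`packsI_of_subsingleton`); over `inr (inl j)` the fibre injects into `Unit ⊕ Fin (s ^ n - m₀ j ^ n)`:
use `packsI_layers n (m₀ j) s` (with `R := T'`, `a := a₂ j`, `ρ := T`, note `s T < T'`) and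
`PacksI.reindex`. -/
theorem packsI_big_cells_core (n p s L : ℕ) (hn : 1 ≤ n) (hs : 1 ≤ s) (hL : p + 2 * s ≤ L)
    {ι₂ ι₃ : Type} [Fintype ι₂] [Fintype ι₃] (hc2 : Fintype.card ι₂ + 1 ≤ 2 ^ n)
    (hc3 : Fintype.card ι₃ + (p + s) ^ n + (2 * s) ^ n ≤ L ^ n + s ^ n)
    (m₀ : ι₂ → ℕ) (hm₀ : ∀ j, m₀ j ≤ s)
    (μ sh T R a₁ : ℝ) (a₂ : ι₂ → ℝ) (hsh : 0 ≤ sh) (hT0 : 0 < T) (hT : T < μ)
    (ha₁ : a₁ < sh + ((p + s : ℕ) : ℝ) * μ) (ha₂ : ∀ j, a₂ j ≤ (m₀ j : ℝ) * T)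
    (hR : sh + (L : ℝ) * μ ≤ R) :
    PacksI n (Sum.elim (Sum.elim (fun _ : Unit => a₁) a₂)
      (fun _ : ι₃ ⊕ (Σ j : ι₂, Fin (s ^ n - m₀ j ^ n)) => T)) R := by
  classical
  have hμ : 0 < μ := lt_trans hT0 hT
  have hs0 : (0 : ℝ) < (s : ℝ) := by exact_mod_cast hs
  have h1 : T < (T + μ) / 2 := by linarith
  have h2 : (T + μ) / 2 < μ := by linarith
  have h3 : (s : ℝ) * ((T + μ) / 2) < (s : ℝ) * μ := mul_lt_mul_of_pos_left h2 hs0
  have h4 : (s : ℝ) * T < (s : ℝ) * ((T + μ) / 2) := mul_lt_mul_of_pos_left h1 hs0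
  have base := packsI_two_scale n p s L hn hs hL hc2 hc3 μ sh (sh + ((p + s : ℕ) : ℝ) * μ)
    ((s : ℝ) * ((T + μ) / 2)) ((T + μ) / 2) R hμ hsh le_rfl h3 h2 hR
  let g : (Unit ⊕ ι₂) ⊕ (ι₃ ⊕ (Σ j : ι₂, Fin (s ^ n - m₀ j ^ n))) → Unit ⊕ (ι₂ ⊕ ι₃) :=
    Sum.elim (Sum.elim (fun _ => Sum.inl ()) (fun j => Sum.inr (Sum.inl j)))
      (Sum.elim (fun x => Sum.inr (Sum.inr x)) (fun q => Sum.inr (Sum.inl q.1)))
  refine PacksI.subst base g _ ?_
  rintro (u | j | x)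
  · have : Subsingleton {y : (Unit ⊕ ι₂) ⊕ (ι₃ ⊕ (Σ j : ι₂, Fin (s ^ n - m₀ j ^ n))) //
        g y = Sum.inl u} := by
      constructor
      rintro ⟨y, hy⟩ ⟨z, hz⟩
      apply Subtype.ext
      rcases y with (y | y) | (y | y) <;> rcases z with (z | z) | (z | z) <;>
        simp [g] at hy hz ⊢
    apply packsI_of_subsingleton
    rintro ⟨y, hy⟩
    rcases y with (y | y) | (y | y) <;> simp [g] at hy ⊢
    exact_mod_cast ha₁
  · have hcard : Fintype.card (Fin (s ^ n - m₀ j ^ n)) + m₀ j ^ n ≤ s ^ n := by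
      have h5 : m₀ j ^ n ≤ s ^ n := Nat.pow_le_pow_left (hm₀ j) n
      rw [Fintype.card_fin]
      omega
    have hlay := packsI_layers n (m₀ j) s hn hcard ((s : ℝ) * ((T + μ) / 2)) (a₂ j) T hT0
      (ha₂ j) h4
    let ψ : Unit ⊕ Fin (s ^ n - m₀ j ^ n) →
        (Unit ⊕ ι₂) ⊕ (ι₃ ⊕ (Σ j : ι₂, Fin (s ^ n - m₀ j ^ n))) :=
      Sum.elim (fun _ => Sum.inl (Sum.inr j)) (fun t => Sum.inr (Sum.inr ⟨j, t⟩))
    have hex : ∀ y : {y : (Unit ⊕ ι₂) ⊕ (ι₃ ⊕ (Σ j : ι₂, Fin (s ^ n - m₀ j ^ n))) //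
        g y = Sum.inr (Sum.inl j)}, ∃ w, y.1 = ψ w := by
      rintro ⟨y, hy⟩
      rcases y with (y | y) | (y | ⟨y, t⟩)
      · simp [g] at hy
      · simp [g] at hy
        subst hy
        exact ⟨Sum.inl (), rfl⟩
      · simp [g] at hy
      · simp [g] at hy
        subst hy
        exact ⟨Sum.inr t, rfl⟩
    choose φ hφ using hex
    have hinj : Function.Injective φ := by
      intro x y hxy
      apply Subtype.ext
      rw [hφ x, hφ y, hxy]
    have h6 := PacksI.reindex hlay φ hinj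
    have h7 : (fun y : {y : (Unit ⊕ ι₂) ⊕ (ι₃ ⊕ (Σ j : ι₂, Fin (s ^ n - m₀ j ^ n))) //
        g y = Sum.inr (Sum.inl j)} =>
          Sum.elim (fun _ : Unit => a₂ j) (fun _ : Fin (s ^ n - m₀ j ^ n) => T) (φ y))
        = fun y => Sum.elim (Sum.elim (fun _ : Unit => a₁) a₂)
            (fun _ : ι₃ ⊕ (Σ j : ι₂, Fin (s ^ n - m₀ j ^ n)) => T) y.1 := by
      funext y
      rw [hφ y]
      rcases φ y with w | w <;> rfl
    rw [h7] at h6
    simpa using h6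
  · have : Subsingleton {y : (Unit ⊕ ι₂) ⊕ (ι₃ ⊕ (Σ j : ι₂, Fin (s ^ n - m₀ j ^ n))) //
        g y = Sum.inr (Sum.inr x)} := by
      constructor
      rintro ⟨y, hy⟩ ⟨z, hz⟩
      apply Subtype.ext
      rcases y with (y | y) | (y | y) <;> rcases z with (z | z) | (z | z) <;>
        simp [g] at hy hz ⊢
      rw [hy, hz]
    apply packsI_of_subsingleton
    rintro ⟨y, hy⟩
    rcases y with (y | y) | (y | y) <;> simp [g] at hy ⊢
    exact h1

end Vale.Agent.P209
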