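import Mathlib

/-!
# P209: bin packing of items whose sizes are reciprocals of a divisibility chain
-/

namespace Vale.Agent.P209

private theorem bins_aux {κ : Type} [Fintype κ] [DecidableEq κ] (N : κ → ℕ) (hN : ∀ x, 1 ≤ N x)
    (hchain : ∀ x y, N x ∣ N y ∨ N y ∣ N x) (D : ℕ) (hD : 0 < D) (s : Finset κ) :
    (∑ x ∈ s, (1 : ℝ) / (N x : ℝ) ≤ D) →
      ∃ g : κ → Fin D, ∀ b, ∑ x ∈ s.filter (fun x => g x = b), (1 : ℝ) / (N x : ℝ) ≤ 1 := by
  induction s using Finset.induction_on_max_value N with
  | empty =>
    intro _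
    exact ⟨fun _ => ⟨0, hD⟩, fun b => by simp⟩
  | insert a s ha hmax ih =>
    intro hsum
    rw [Finset.sum_insert ha] at hsum
    have hNa : (0 : ℝ) < (N a : ℝ) := by exact_mod_cast (hN a)
    have hpos : 0 < (1 : ℝ) / (N a : ℝ) := by positivity
    obtain ⟨g, hg⟩ := ih (by linarith)
    have hdiv : ∀ x ∈ s, N x ∣ N a := by
      intro x hx
      rcases hchain x a with h | h
      · exact h
      · have h1 : N a ≤ N x := Nat.le_of_dvd (hN x) h
        have h2 : N x = N a := le_antisymm (hmax x hx) h1
        rw [h2]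
    have hm : ∀ b, ∑ x ∈ s.filter (fun x => g x = b), (1 : ℝ) / (N x : ℝ)
        = ((∑ x ∈ s.filter (fun x => g x = b), (N a / N x) : ℕ) : ℝ) / (N a : ℝ) := by
      intro b
      push_cast
      rw [Finset.sum_div]
      apply Finset.sum_congr rfl
      intro x hx
      have hxs : x ∈ s := (Finset.mem_filter.mp hx).1
      have hNx : (N x : ℝ) ≠ 0 := by
        have : (0 : ℝ) < (N x : ℝ) := by exact_mod_cast (hN x)
        exact this.ne'
      rw [Nat.cast_div (hdiv x hxs) hNx]
      field_simp
    have htotal : ∑ b, ∑ x ∈ s.filter (fun x => g x = b), (1 : ℝ) / (N x : ℝ)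
        = ∑ x ∈ s, (1 : ℝ) / (N x : ℝ) := Finset.sum_fiberwise s g _
    have hex : ∃ b0, (∑ x ∈ s.filter (fun x => g x = b0), (N a / N x)) + 1 ≤ N a := by
      by_contra hcon
      push Not at hcon
      have h1 : ∀ b, (1 : ℝ) ≤ ∑ x ∈ s.filter (fun x => g x = b), (1 : ℝ) / (N x : ℝ) := by
        intro b
        rw [hm b, le_div_iff₀ hNa, one_mul]
        have := hcon b
        exact_mod_cast (by omega :
          N a ≤ ∑ x ∈ s.filter (fun x => g x = b), (N a / N x))
      have h2 : (D : ℝ) ≤ ∑ b, ∑ x ∈ s.filter (fun x => g x = b), (1 : ℝ) / (N x : ℝ) := by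
        calc (D : ℝ) = ∑ _b : Fin D, (1 : ℝ) := by simp
          _ ≤ _ := Finset.sum_le_sum (fun b _ => h1 b)
      rw [htotal] at h2
      linarith
    obtain ⟨b0, hb0⟩ := hex
    refine ⟨Function.update g a b0, fun b => ?_⟩
    have hfil : s.filter (fun x => Function.update g a b0 x = b)
        = s.filter (fun x => g x = b) := by
      apply Finset.filter_congr
      intro x hx
      have hxa : x ≠ a := fun h => ha (h ▸ hx)
      rw [Function.update_of_ne hxa]
    rw [Finset.filter_insert, hfil]
    by_cases hb : b0 = b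
    · subst hb
      rw [if_pos (by simp)]
      have hanot : a ∉ s.filter (fun x => g x = b0) := fun h => ha (Finset.mem_filter.mp h).1
      rw [Finset.sum_insert hanot, hm b0, ← add_div, div_le_one hNa]
      have : ((∑ x ∈ s.filter (fun x => g x = b0), (N a / N x) : ℕ) : ℝ) + 1 ≤ (N a : ℝ) := by
        exact_mod_cast hb0
      linarith
    · rw [if_neg (by simpa using hb)]
      exact hg b

/-- Items of sizes `1 / N x`, where the `N x` form a chain for divisibility, of total size at most
`D`, can be distributed into `D` bins of size `1`.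

Proof: induction on the set of items (`Finset.induction_on_max_value` for the function `N`, after
generalising to a statement about a finset `s` of items), adding an item `x₀` with the largest `N` last.
All loads are integer multiples of `1 / N x₀` (every earlier `N x` divides `N x₀`), the total load is
at most `D - 1 / N x₀`, so some bin has load `< 1`, hence `≤ 1 - 1 / N x₀`; put `x₀` there. -/
theorem exists_bins {κ : Type} [Fintype κ] (N : κ → ℕ) (hN : ∀ x, 1 ≤ N x)
    (hchain : ∀ x y, N x ∣ N y ∨ N y ∣ N x) (D : ℕ) (hsum : ∑ x, (1 : ℝ) / (N x : ℝ) ≤ D) :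
    ∃ g : κ → Fin D, ∀ b, ∑ x : {x : κ // g x = b}, (1 : ℝ) / (N x.1 : ℝ) ≤ 1 := by
  classical
  rcases Nat.eq_zero_or_pos D with hD | hD
  · subst hD
    have hempty : IsEmpty κ := by
      by_contra hne
      rw [not_isEmpty_iff] at hne
      have hpos : 0 < ∑ x, (1 : ℝ) / (N x : ℝ) := by
        apply Finset.sum_pos
        · intro x _
          have : (0 : ℝ) < (N x : ℝ) := by exact_mod_cast (hN x)
          positivity
        · exact Finset.univ_nonempty
      simp only [Nat.cast_zero] at hsum
      linarith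
    exact ⟨fun x => hempty.elim x, fun b => b.elim0⟩
  · obtain ⟨g, hg⟩ := bins_aux N hN hchain D hD Finset.univ hsum
    refine ⟨g, fun b => ?_⟩
    have h := hg b
    rw [Finset.sum_subtype (Finset.univ.filter (fun x => g x = b))
      (p := fun x => g x = b) (by simp) (fun x => (1 : ℝ) / (N x : ℝ))] at h
    exact h

end Vale.Agent.P209
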