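import Vale.Agent.P209.Toric.Bins

/-!
# P209: distributing items of `P` different classes into cells
-/

namespace Vale.Agent.P209

/-- Items `x` of sizes `1 / (p x * 2 ^ a x) ^ n` with `P ≤ p x < 2 P`. If the total size plus `P - 1`
is at most the number of cells, the items can be distributed into the cells so that every cell
receives items of one class `p x` only, of total size at most `1`.

Proof: for each class `c ∈ [P, 2P)` let `W c` be the total size of the items of the class and
`D c = ⌈W c⌉₊`. Then `∑ D c < ∑ W c + P ≤ card ι + 1`, so `∑ D c ≤ card ι` and there is an injection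
`J : (Σ c : Fin P, Fin (D (P + c))) → ι` (`Fintype.card_sigma`,
`Function.Embedding.nonempty_of_card_le`). For each class apply `exists_bins` to the subtype
`{x // p x = c}` with `N x = (c * 2 ^ a x) ^ n` (a chain: `2 ^ a ∣ 2 ^ b` or conversely) and `D c`
bins. Put `cell x = J ⟨class of x, bin of x⟩`. -/
theorem exists_cells (n P : ℕ) (hP : 1 ≤ P) {ι κ : Type} [Fintype ι] [Fintype κ]
    [DecidableEq ι] (p a : κ → ℕ) (hp1 : ∀ x, P ≤ p x) (hp2 : ∀ x, p x < 2 * P)
    (hcount : ∑ x, (1 : ℝ) / ((p x * 2 ^ a x : ℕ) : ℝ) ^ n + ((P : ℝ) - 1) ≤ Fintype.card ι) :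
    ∃ cell : κ → ι, (∀ x y, cell x = cell y → p x = p y) ∧
      ∀ i, ∑ x : {x : κ // cell x = i}, (1 : ℝ) / ((p x.1 * 2 ^ a x.1 : ℕ) : ℝ) ^ n ≤ 1 := by
  classical
  set f : κ → ℝ := fun x => (1 : ℝ) / ((p x * 2 ^ a x : ℕ) : ℝ) ^ n with hf
  have hf0 : ∀ x, 0 ≤ f x := fun x => by
    simp only [hf]; positivity
  let W : ℕ → ℝ := fun c => ∑ x : {x : κ // p x = c}, f x.1
  let D : ℕ → ℕ := fun c => ⌈W c⌉₊
  have hW0 : ∀ c, 0 ≤ W c := fun c => Finset.sum_nonneg (fun x _ => hf0 x.1)
  -- bins inside each class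
  have hb : ∀ c : ℕ, ∃ g : {x : κ // p x = c} → Fin (D c),
      ∀ b, ∑ y : {y : {x : κ // p x = c} // g y = b}, f y.1.1 ≤ 1 := by
    intro c
    have key := exists_bins (κ := {x : κ // p x = c})
      (fun y => (p y.1 * 2 ^ a y.1) ^ n)
      (fun y => by
        have h1 : 1 ≤ p y.1 := le_trans hP (hp1 y.1)
        have h2 : 1 ≤ 2 ^ a y.1 := Nat.one_le_two_pow
        exact Nat.one_le_pow _ _ (Nat.mul_pos h1 h2))
      (fun y z => by
        have hy : p y.1 = c := y.2
        have hz : p z.1 = c := z.2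
        rcases le_total (a y.1) (a z.1) with h | h
        · left
          simp only [hy, hz]
          exact pow_dvd_pow_of_dvd (mul_dvd_mul_left _ (pow_dvd_pow 2 h)) n
        · right
          simp only [hy, hz]
          exact pow_dvd_pow_of_dvd (mul_dvd_mul_left _ (pow_dvd_pow 2 h)) n)
      (D c)
      (by
        have : ∑ x : {x : κ // p x = c}, (1 : ℝ) / (((p x.1 * 2 ^ a x.1) ^ n : ℕ) : ℝ) = W c := by
          apply Finset.sum_congr rfl
          intro x _
          simp only [hf, Nat.cast_pow]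
        rw [this]
        exact Nat.le_ceil _)
    obtain ⟨g, hg⟩ := key
    refine ⟨g, fun b => ?_⟩
    have := hg b
    simpa only [hf, Nat.cast_pow] using this
  choose g hg using hb
  -- counting
  set S : Finset ℕ := Finset.Ico P (2 * P) with hS
  have hScard : S.card = P := by
    rw [hS, Nat.card_Ico]; omega
  have hSne : S.Nonempty := by
    rw [← Finset.card_pos, hScard]; exact hP
  have hWsum : ∑ c ∈ S, W c = ∑ x, f x := by
    have h1 : ∀ c, W c = ∑ x ∈ Finset.univ.filter (fun x => p x = c), f x := by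
      intro c
      exact (Finset.sum_subtype (Finset.univ.filter (fun x => p x = c))
        (fun x => by simp) f).symm
    simp only [h1]
    exact Finset.sum_fiberwise_of_maps_to
      (fun x _ => by rw [hS, Finset.mem_Ico]; exact ⟨hp1 x, hp2 x⟩) f
  have hDlt : (∑ c ∈ S, (D c : ℝ)) < ∑ c ∈ S, (W c + 1) :=
    Finset.sum_lt_sum_of_nonempty hSne (fun c _ => Nat.ceil_lt_add_one (hW0 c))
  have hDle : ∑ c ∈ S, D c ≤ Fintype.card ι := by
    have h2 : ∑ c ∈ S, (W c + 1) = ∑ x, f x + P := by
      rw [Finset.sum_add_distrib, hWsum]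
      simp [hScard]
    have h3 : ((∑ c ∈ S, D c : ℕ) : ℝ) < (Fintype.card ι : ℝ) + 1 := by
      push_cast
      linarith
    have h4 : (∑ c ∈ S, D c : ℕ) < Fintype.card ι + 1 := by
      exact_mod_cast h3
    omega
  have hcard : Fintype.card (Σ c : S, Fin (D c.1)) ≤ Fintype.card ι := by
    rw [Fintype.card_sigma]
    simp only [Fintype.card_fin]
    rw [Finset.sum_coe_sort S (fun c => D c)]
    exact hDle
  obtain ⟨J⟩ := Function.Embedding.nonempty_of_card_le hcard
  have hmem : ∀ x, p x ∈ S := fun x => by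
    rw [hS, Finset.mem_Ico]; exact ⟨hp1 x, hp2 x⟩
  let cell : κ → ι := fun x => J ⟨⟨p x, hmem x⟩, g (p x) ⟨x, rfl⟩⟩
  have hcell : ∀ (c : ℕ) (hc : c ∈ S) (x : κ) (h : p x = c),
      cell x = J ⟨⟨c, hc⟩, g c ⟨x, h⟩⟩ := by
    intro c hc x h
    subst h
    rfl
  have hclass : ∀ x y, cell x = cell y → p x = p y := by
    intro x y hxy
    have h1 := J.injective hxy
    have h2 := congrArg (fun s => (s.1 : ℕ)) h1
    exact h2
  refine ⟨cell, hclass, fun i => ?_⟩
  by_cases hi : ∃ x0, cell x0 = i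
  · obtain ⟨x0, hx0⟩ := hi
    set c := p x0 with hc
    have hcS : c ∈ S := hmem x0
    set b := g c ⟨x0, rfl⟩ with hbdef
    have hib : i = J ⟨⟨c, hcS⟩, b⟩ := hx0.symm
    have hiff : ∀ (x : κ) (h : p x = c), cell x = i ↔ g c ⟨x, h⟩ = b := by
      intro x h
      rw [hcell c hcS x h, hib]
      constructor
      · intro hJ
        have h1 := J.injective hJ
        simpa using h1
      · intro hgb
        rw [hgb]
    have hpc : ∀ x, cell x = i → p x = c := fun x hx => hclass x x0 (hx.trans hx0.symm)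
    refine le_trans (le_of_eq ?_) (hg c b)
    refine Fintype.sum_bijective
      (fun x : {x : κ // cell x = i} =>
        (⟨⟨x.1, hpc x.1 x.2⟩, (hiff x.1 (hpc x.1 x.2)).1 x.2⟩ :
          {y : {x : κ // p x = c} // g c y = b})) ?_ _ _ ?_
    · constructor
      · intro x y hxy
        have := congrArg (fun z => z.1.1) hxy
        exact Subtype.ext this
      · intro y
        exact ⟨⟨y.1.1, (hiff y.1.1 y.1.2).2 y.2⟩, rfl⟩
    · intro x
      rfl
  · have : IsEmpty {x : κ // cell x = i} := ⟨fun x => hi ⟨x.1, x.2⟩⟩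
    simp

end Vale.Agent.P209
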