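import Vale.Agent.P209.Toric.Layers
import Vale.Agent.P209.Toric.Bins
import Vale.Agent.P209.Toric.Subst

/-!
# P209: capacities `< R / m x` where the integers `m x` form a chain for divisibility
-/

namespace Vale.Agent.P209

open scoped ContDiff Topology

/-- The induction behind `packsI_chain`, with an explicit bound `B` for the integers `m x`. -/
private theorem packsI_chain_aux (n : ℕ) (hn : 1 ≤ n) (B : ℕ) :
    ∀ {κ : Type} [Fintype κ] (m : κ → ℕ), (∀ x, 1 ≤ m x) → (∀ x, m x ≤ B) →
    (∀ x y, m x ∣ m y ∨ m y ∣ m x) → (∑ x, (1 : ℝ) / (m x : ℝ) ^ n ≤ 1) →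
    ∀ (R : ℝ) (r : κ → ℝ), (∀ x, 0 < r x) → (∀ x, (m x : ℝ) * r x < R) → PacksI n r R := by
  induction B using Nat.strong_induction_on with
  | _ B ih =>
    intro κ _ m hm hB hchain hsum R r hr h
    classical
    have hlt : ∀ x, r x < R := by
      intro x
      have h1 : (1 : ℝ) ≤ (m x : ℝ) := by exact_mod_cast hm x
      have h2 := h x
      have h3 := hr x
      nlinarith
    rcases isEmpty_or_nonempty κ with hκ | hκ
    · exact packsI_of_subsingleton n r R hlt
    obtain ⟨x₀, hx₀⟩ := Finite.exists_min m
    obtain ⟨x₁, hx₁⟩ := Finite.exists_max (fun x => (m x : ℝ) * r x)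
    have hd1 : 1 ≤ m x₀ := hm x₀
    have hdvd : ∀ x, m x₀ ∣ m x := by
      intro x
      rcases hchain x₀ x with h1 | h1
      · exact h1
      · have h2 : m x ≤ m x₀ := Nat.le_of_dvd hd1 h1
        have h3 : m x = m x₀ := le_antisymm h2 (hx₀ x)
        rw [h3]
    have hterm : ∀ x, (0 : ℝ) < (1 : ℝ) / (m x : ℝ) ^ n := by
      intro x
      have h1 : (0 : ℝ) < (m x : ℝ) := by exact_mod_cast hm x
      positivity
    rcases Nat.eq_or_lt_of_le hd1 with hd | hd
    · -- the least value is one
      have hsub : Subsingleton κ := by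
        have hall : ∀ x, x = x₀ := by
          intro x
          by_contra hne
          have h1 : ∑ y ∈ ({x, x₀} : Finset κ), (1 : ℝ) / (m y : ℝ) ^ n
              ≤ ∑ y, (1 : ℝ) / (m y : ℝ) ^ n :=
            Finset.sum_le_sum_of_subset_of_nonneg (Finset.subset_univ _)
              (fun y _ _ => (hterm y).le)
          rw [Finset.sum_pair hne] at h1
          have h2 : (1 : ℝ) / (m x₀ : ℝ) ^ n = 1 := by
            rw [← hd]
            simp
          have h3 := hterm x
          linarith
        exact ⟨fun a b => by rw [hall a, hall b]⟩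
      exact packsI_of_subsingleton n r R hlt
    · -- the least value is at least two
      set d := m x₀ with hddef
      have hdpos : 0 < d := by omega
      have hdR : (0 : ℝ) < (d : ℝ) := by exact_mod_cast hdpos
      have hq : ∀ x, m x = d * (m x / d) := fun x => (Nat.mul_div_cancel' (hdvd x)).symm
      have hq1 : ∀ x, 1 ≤ m x / d := by
        intro x
        exact (Nat.one_le_div_iff hdpos).mpr (hx₀ x)
      have hqR : ∀ x, (m x : ℝ) = (d : ℝ) * ((m x / d : ℕ) : ℝ) := by
        intro x
        exact_mod_cast hq x
      have hqchain : ∀ x y, (m x / d) ∣ (m y / d) ∨ (m y / d) ∣ (m x / d) := by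
        intro x y
        rcases hchain x y with h1 | h1
        · left
          rw [hq x, hq y] at h1
          exact Nat.dvd_of_mul_dvd_mul_left hdpos h1
        · right
          rw [hq x, hq y] at h1
          exact Nat.dvd_of_mul_dvd_mul_left hdpos h1
      have hbins := exists_bins (fun x => (m x / d) ^ n) (fun x => Nat.one_le_pow _ _ (hq1 x))
        (fun x y => by
          rcases hqchain x y with h1 | h1
          · exact Or.inl (pow_dvd_pow_of_dvd h1 n)
          · exact Or.inr (pow_dvd_pow_of_dvd h1 n))
        (d ^ n) (by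
          have h1 : ∀ x, (1 : ℝ) / (((m x / d) ^ n : ℕ) : ℝ)
              = (d : ℝ) ^ n * ((1 : ℝ) / (m x : ℝ) ^ n) := by
            intro x
            have h2 : (0 : ℝ) < ((m x / d : ℕ) : ℝ) := by exact_mod_cast hq1 x
            rw [hqR x, mul_pow]
            push_cast
            field_simp
          rw [Finset.sum_congr rfl (fun x _ => h1 x), ← Finset.mul_sum]
          push_cast
          have h3 : (0 : ℝ) ≤ (d : ℝ) ^ n := by positivity
          nlinarith)
      obtain ⟨g, hg⟩ := hbins
      set A := (m x₁ : ℝ) * r x₁ with hA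
      have hAR : A < R := h x₁
      have hApos : 0 < A := by
        have h1 : (0 : ℝ) < (m x₁ : ℝ) := by exact_mod_cast hm x₁
        have h2 := hr x₁
        positivity
      set T := (A + R) / (2 * (d : ℝ)) with hT
      have hTpos : 0 < T := by
        have : 0 < A + R := by linarith
        positivity
      have hdT : (d : ℝ) * T < R := by
        have h1 : (d : ℝ) * T = (A + R) / 2 := by
          rw [hT]
          field_simp
        rw [h1]
        linarith
      have hqT : ∀ x, ((m x / d : ℕ) : ℝ) * r x < T := by
        intro x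
        have h1 : (m x : ℝ) * r x ≤ A := hx₁ x
        rw [hqR x] at h1
        have h2 : ((m x / d : ℕ) : ℝ) * r x ≤ A / (d : ℝ) := by
          rw [le_div_iff₀ hdR]
          nlinarith
        have h3 : A / (d : ℝ) < T := by
          rw [hT, div_lt_div_iff₀ hdR (by positivity)]
          nlinarith
        linarith
      have hgrid : PacksI n (fun _ : Fin (d ^ n) => T) R :=
        packsI_grid n d hn (by simp) R T hTpos hdT
      have hBpos : 0 < B := lt_of_lt_of_le hdpos (hB x₀)
      have hB' : B / d < B := Nat.div_lt_self hBpos hd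
      refine PacksI.subst hgrid g r ?_
      intro b
      refine ih (B / d) hB' (fun x : {x : κ // g x = b} => m x.1 / d) (fun x => hq1 x.1)
        (fun x => Nat.div_le_div_right (hB x.1)) (fun x y => hqchain x.1 y.1) ?_ T
        (fun x : {x : κ // g x = b} => r x.1) (fun x => hr x.1) (fun x => hqT x.1)
      have h1 := hg b
      push_cast at h1
      exact h1

/-- If the positive integers `m x` form a chain for divisibility, `∑ 1 / (m x) ^ n ≤ 1` and
`m x * r x < R`, then the balls of capacities `r x` can be packed into the open ball of capacity `R`.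

Proof: strong induction on a bound `B` for all `m x` (generalising `κ, m, R, r`). If `κ` is empty use
`packsI_of_subsingleton`. Otherwise let `d` be the least value of `m`; it divides all `m x`. If `d = 1`
then the sum condition forces `κ` to be a singleton (`packsI_of_subsingleton`). If `d ≥ 2`: apply
`exists_bins` to `N x = (m x / d) ^ n` and `D = d ^ n`; choose `T` with `d * T < R` and
`(m x / d) * r x < T` for all `x` (for instance `T = (max_x (m x * r x) + R) / (2 d)`); the cells
`fun _ : Fin (d ^ n) => T` are packed by `packsI_grid`; every fibre of `g` is packed into the open ball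
of capacity `T` by the induction hypothesis (`m x / d ≤ B / 2 < B`); conclude with `PacksI.subst`. -/
theorem packsI_chain (n : ℕ) (hn : 1 ≤ n) {κ : Type} [Fintype κ] (m : κ → ℕ) (hm : ∀ x, 1 ≤ m x)
    (hchain : ∀ x y, m x ∣ m y ∨ m y ∣ m x) (hsum : ∑ x, (1 : ℝ) / (m x : ℝ) ^ n ≤ 1)
    (R : ℝ) (r : κ → ℝ) (hr : ∀ x, 0 < r x) (h : ∀ x, (m x : ℝ) * r x < R) : PacksI n r R := by
  refine packsI_chain_aux n hn (∑ x, m x) m hm ?_ hchain hsum R r hr h
  intro x
  exact Finset.single_le_sum (f := m) (fun y _ => Nat.zero_le _) (Finset.mem_univ x)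

end Vale.Agent.P209
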