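import Mathlib

/-!
# P209: counting the alcoves of the outer layer
-/

namespace Vale.Agent.P209

/-- there are `m ^ n - (m - 1) ^ n` functions `Fin n → {0, ..., m - 1}` taking the value `m - 1` -/
theorem exists_codes (n m : ℕ) (ι : Type) [Fintype ι]
    (hk : Fintype.card ι ≤ m ^ n - (m - 1) ^ n) :
    ∃ code : ι → Fin n → ℕ, Function.Injective code ∧ (∀ a i, code a i + 1 ≤ m) ∧
      ∀ a, ∃ i, code a i + 1 = m := by
  classical
  have h1 : Fintype.card {c : Fin n → Fin m // ¬ ∃ i, (c i).1 + 1 = m}
      = Fintype.card (Fin n → Fin m) - Fintype.card {c : Fin n → Fin m // ∃ i, (c i).1 + 1 = m} :=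
    Fintype.card_subtype_compl _
  have h2 : Fintype.card {c : Fin n → Fin m // ∃ i, (c i).1 + 1 = m}
      ≤ Fintype.card (Fin n → Fin m) := Fintype.card_subtype_le _
  have h3 : Fintype.card (Fin n → Fin m) = m ^ n := by simp
  have h4 : Fintype.card {c : Fin n → Fin m // ¬ ∃ i, (c i).1 + 1 = m} ≤ (m - 1) ^ n := by
    have hinj : Function.Injective
        (fun (c : {c : Fin n → Fin m // ¬ ∃ i, (c i).1 + 1 = m}) (i : Fin n) =>
          (⟨(c.1 i).1, by
            have h5 := (c.1 i).2
            have h6 : (c.1 i).1 + 1 ≠ m := fun h => c.2 ⟨i, h⟩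
            omega⟩ : Fin (m - 1))) := by
      intro c c' h
      apply Subtype.ext
      funext i
      have := congrFun h i
      simp only [Fin.mk.injEq] at this
      exact Fin.ext this
    have := Fintype.card_le_of_injective _ hinj
    simpa using this
  have h5 : Fintype.card ι ≤ Fintype.card {c : Fin n → Fin m // ∃ i, (c i).1 + 1 = m} := by
    omega
  obtain ⟨emb⟩ := Function.Embedding.nonempty_of_card_le h5
  refine ⟨fun a i => ((emb a).1 i).1, ?_, ?_, ?_⟩
  · intro a b h
    apply emb.injective
    apply Subtype.ext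
    funext i
    exact Fin.ext (congrFun h i)
  · intro a i
    exact ((emb a).1 i).2
  · intro a
    exact (emb a).2

end Vale.Agent.P209
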