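import Mathlib

/-!
# P209: counting the fine cells outside the corner block and outside the zone of the containers
-/

namespace Vale.Agent.P209

private theorem pow_superadd (w p s n : ℕ) :
    (w + p) ^ n + (w + s) ^ n ≤ (w + p + s) ^ n + w ^ n := by
  induction n with
  | zero => simp
  | succ n ih =>
    have h1 : (w + p) ^ n ≤ (w + p + s) ^ n := Nat.pow_le_pow_left (by omega) n
    have h2 : (w + s) ^ n ≤ (w + p + s) ^ n := Nat.pow_le_pow_left (by omega) n
    have e1 := Nat.mul_le_mul_left w ih
    have e2 := Nat.mul_le_mul_left p h1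
    have e3 := Nat.mul_le_mul_left s h2
    rw [pow_succ, pow_succ, pow_succ, pow_succ]
    nlinarith

/-- `x ↦ (x + s) ^ n - x ^ n` is monotone; or count: this is `|A ∪ B| ≤ |[0, p + 2 s) ^ n|` for the sets
`A`, `B` below. -/
theorem pow_two_scale_le (n p s : ℕ) : (p + s) ^ n + (2 * s) ^ n ≤ (p + 2 * s) ^ n + s ^ n := by
  have h := pow_superadd s p s n
  have e1 : s + p = p + s := by ring
  have e2 : s + s = 2 * s := by ring
  have e3 : s + p + s = p + 2 * s := by ring
  rw [e1, e2] at h
  rw [show p + s + s = p + 2 * s by ring] at h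
  exact h

/-- Codes `c : Fin n → {0, …, L - 1}` outside `A ∪ B`, where `A = {c | ∀ i, c i < p + s}` (cardinality
`(p + s) ^ n`) and `B = {c | ∀ i, p ≤ c i < p + 2 s}` (cardinality `(2 s) ^ n`); `A ∩ B` has cardinality
`s ^ n`. Compare the solved files `Count.lean`, `Count2.lean`. -/
theorem exists_codes_two_scale (n p s L : ℕ) (hL : p + 2 * s ≤ L) (ι : Type) [Fintype ι]
    (hk : Fintype.card ι + (p + s) ^ n + (2 * s) ^ n ≤ L ^ n + s ^ n) :
    ∃ code : ι → Fin n → ℕ, Function.Injective code ∧ (∀ a i, code a i + 1 ≤ L) ∧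
      (∀ a, ∃ i, p + s ≤ code a i) ∧
      ∀ a, (∃ i, code a i + 1 ≤ p) ∨ ∃ i, p + 2 * s ≤ code a i := by
  classical
  set A : Finset (Fin n → Fin L) := Finset.univ.filter (fun c => ∀ i, (c i).1 < p + s) with hA
  set B : Finset (Fin n → Fin L) :=
    Finset.univ.filter (fun c => ∀ i, p ≤ (c i).1 ∧ (c i).1 < p + 2 * s) with hB
  have hAm : ∀ c, c ∈ A ↔ ∀ i, (c i).1 < p + s := by
    intro c
    simp [hA]
  have hBm : ∀ c, c ∈ B ↔ ∀ i, p ≤ (c i).1 ∧ (c i).1 < p + 2 * s := by
    intro c
    simp [hB]
  have hcA : A.card ≤ (p + s) ^ n := by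
    have hinj : Function.Injective
        (fun (c : {c : Fin n → Fin L // c ∈ A}) (i : Fin n) =>
          (⟨(c.1 i).1, (hAm c.1).mp c.2 i⟩ : Fin (p + s))) := by
      intro c c' h
      apply Subtype.ext
      funext i
      have := congrFun h i
      simp only [Fin.mk.injEq] at this
      exact Fin.ext this
    have := Fintype.card_le_of_injective _ hinj
    simpa using this
  have hcB : B.card ≤ (2 * s) ^ n := by
    have hinj : Function.Injective
        (fun (c : {c : Fin n → Fin L // c ∈ B}) (i : Fin n) =>
          (⟨(c.1 i).1 - p, by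
            have := (hBm c.1).mp c.2 i
            omega⟩ : Fin (2 * s))) := by
      intro c c' h
      apply Subtype.ext
      funext i
      have := congrFun h i
      simp only [Fin.mk.injEq] at this
      have h8 := (hBm c.1).mp c.2 i
      have h9 := (hBm c'.1).mp c'.2 i
      apply Fin.ext
      omega
    have := Fintype.card_le_of_injective _ hinj
    simpa using this
  have hcAB : s ^ n ≤ (A ∩ B).card := by
    have hinj : Function.Injective
        (fun (c : Fin n → Fin s) =>
          (⟨fun i => ⟨(c i).1 + p, by have := (c i).2; omega⟩, by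
            rw [Finset.mem_inter, hAm, hBm]
            refine ⟨fun i => ?_, fun i => ?_⟩
            · have := (c i).2
              simp only
              omega
            · have := (c i).2
              simp only
              omega⟩ : {c : Fin n → Fin L // c ∈ A ∩ B})) := by
      intro c c' h
      funext i
      have h1 := congrArg Subtype.val h
      have h2 := congrFun h1 i
      simp only [Fin.mk.injEq] at h2
      apply Fin.ext
      omega
    have := Fintype.card_le_of_injective _ hinj
    rw [Fintype.card_coe] at this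
    simpa using this
  have hU := Finset.card_union_add_card_inter A B
  have hcompl : ((A ∪ B)ᶜ).card = L ^ n - (A ∪ B).card := by
    rw [Finset.card_compl]
    simp
  have hle : (A ∪ B).card ≤ L ^ n := by
    have := Finset.card_le_univ (A ∪ B)
    simpa using this
  have h5 : Fintype.card ι ≤ Fintype.card {c : Fin n → Fin L // c ∈ (A ∪ B)ᶜ} := by
    rw [Fintype.card_coe, hcompl]
    omega
  obtain ⟨emb⟩ := Function.Embedding.nonempty_of_card_le h5
  have hmem : ∀ a, (¬ ∀ i, ((emb a).1 i).1 < p + s) ∧
      ¬ ∀ i, p ≤ ((emb a).1 i).1 ∧ ((emb a).1 i).1 < p + 2 * s := by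
    intro a
    have h6 := (emb a).2
    rw [Finset.mem_compl, Finset.mem_union, not_or, hAm, hBm] at h6
    exact h6
  refine ⟨fun a i => ((emb a).1 i).1, ?_, ?_, ?_, ?_⟩
  · intro a b h
    apply emb.injective
    apply Subtype.ext
    funext i
    exact Fin.ext (congrFun h i)
  · intro a i
    exact ((emb a).1 i).2
  · intro a
    have h6 := (hmem a).1
    push Not at h6
    exact h6
  · intro a
    have h6 := (hmem a).2
    push Not at h6
    obtain ⟨i, hi⟩ := h6
    by_cases h7 : p ≤ ((emb a).1 i).1
    · exact Or.inr ⟨i, hi h7⟩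
    · exact Or.inl ⟨i, by
        show ((emb a).1 i).1 + 1 ≤ p
        omega⟩

end Vale.Agent.P209
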