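import Mathlib

/-!
# P209: symplectic packings of a ball by balls (statement-level definitions)

`ℂ^n` is modelled by `Fin n → ℂ`, with coordinates `z j = x j + i y j`.
-/

namespace Vale.Agent.P209

open scoped ContDiff

/-- The standard symplectic form `∑ dx_j ∧ dy_j` on `ℂ^n`. -/
def omega {n : ℕ} (u v : Fin n → ℂ) : ℝ := ∑ j, ((u j).re * (v j).im - (u j).im * (v j).re)

/-- The function `π ∑ |z_j|^2`. -/
noncomputable def cap {n : ℕ} (z : Fin n → ℂ) : ℝ := Real.pi * ∑ j, ‖z j‖ ^ 2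

/-- The closed ball `B^{2n}(R)` of capacity `R`. -/
def cBall (n : ℕ) (R : ℝ) : Set (Fin n → ℂ) := {z | cap z ≤ R}

/-- The open ball `Int B^{2n}(R)`. -/
def oBall (n : ℕ) (R : ℝ) : Set (Fin n → ℂ) := {z | cap z < R}

/-- `f` restricts to a symplectic embedding of the closed ball of capacity `R`: on some open
neighbourhood `U` of the ball it is smooth, injective, and pulls `omega` back to `omega`.
(Such a map is a local diffeomorphism, hence an open embedding of `U`.) -/
def IsSympEmb {n : ℕ} (R : ℝ) (f : (Fin n → ℂ) → (Fin n → ℂ)) : Prop :=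
  ∃ U : Set (Fin n → ℂ), IsOpen U ∧ cBall n R ⊆ U ∧ ContDiffOn ℝ ∞ f U ∧ Set.InjOn f U ∧
    ∀ z ∈ U, ∀ u v, omega (fderiv ℝ f z u) (fderiv ℝ f z v) = omega u v

/-- There is a symplectic embedding of the disjoint union of the closed balls of capacities `r i`
into the open ball of capacity `R`. -/
def Packs (n : ℕ) {k : ℕ} (r : Fin k → ℝ) (R : ℝ) : Prop :=
  ∃ f : Fin k → (Fin n → ℂ) → (Fin n → ℂ), (∀ i, IsSympEmb (r i) (f i)) ∧
    (∀ i, f i '' cBall n (r i) ⊆ oBall n R) ∧
    ∀ i j, i ≠ j → Disjoint (f i '' cBall n (r i)) (f j '' cBall n (r j))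

end Vale.Agent.P209
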