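import Vale.Agent.P209.Toric.Chain
import Vale.Agent.P209.Toric.Cells

/-!
# P209: replacing equal cells of a packing by many small balls
-/

namespace Vale.Agent.P209

open scoped ContDiff Topology

/-- Given a packing consisting of balls of capacities `big' b` and of cells of capacity `T` (indexed by
`ι`), the cells can be replaced by small balls `r x`, rounded to `T / (p x * 2 ^ a x)`.

Proof: `exists_cells` gives `cell : κ → ι`. Apply `PacksI.subst` with `g = Sum.map id cell`.
The fibre over `Sum.inl b` is a subsingleton (`packsI_of_subsingleton`, `big b < big' b`).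
The fibre over `Sum.inr i`: all its elements are of the form `Sum.inr x` with `cell x = i`; apply
`packsI_chain` with `m = p x * 2 ^ a x` on `{x // cell x = i}` (chain: same `p`, powers of two) and
transport along the bijection with the fibre (`PacksI.reindex`). -/
theorem packsI_dust (n P : ℕ) (hn : 1 ≤ n) (hP : 1 ≤ P) {β ι κ : Type} [Fintype ι] [Fintype κ]
    (big big' : β → ℝ) (hbig : ∀ b, big b < big' b) (T R : ℝ)
    (hcells : PacksI n (Sum.elim big' (fun _ : ι => T)) R)
    (r : κ → ℝ) (hr : ∀ x, 0 < r x) (p a : κ → ℕ) (hp1 : ∀ x, P ≤ p x) (hp2 : ∀ x, p x < 2 * P)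
    (hfit : ∀ x, ((p x * 2 ^ a x : ℕ) : ℝ) * r x < T)
    (hcount : ∑ x, (1 : ℝ) / ((p x * 2 ^ a x : ℕ) : ℝ) ^ n + ((P : ℝ) - 1) ≤ Fintype.card ι) :
    PacksI n (Sum.elim big r) R := by
  classical
  obtain ⟨cell, hcell1, hcell2⟩ := exists_cells n P hP p a hp1 hp2 hcount
  refine PacksI.subst hcells (Sum.map id cell) (Sum.elim big r) ?_
  rintro (b | i)
  · have : Subsingleton {x : β ⊕ κ // Sum.map id cell x = Sum.inl b} := by
      constructor
      rintro ⟨x, hx⟩ ⟨y, hy⟩
      apply Subtype.ext
      rcases x with x | x <;> rcases y with y | y <;> simp at hx hy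
      show (Sum.inl x : β ⊕ κ) = Sum.inl y
      rw [hx, hy]
    apply packsI_of_subsingleton
    rintro ⟨x, hx⟩
    rcases x with x | x
    · simp at hx
      subst hx
      simpa using hbig x
    · simp at hx
  · have hch : PacksI n (fun x : {x : κ // cell x = i} => r x.1) T := by
      apply packsI_chain n hn (fun x : {x : κ // cell x = i} => p x.1 * 2 ^ a x.1)
      · intro x
        have h1 := hp1 x.1
        have h2 : 1 ≤ 2 ^ a x.1 := Nat.one_le_two_pow
        exact Nat.mul_le_mul (le_trans hP h1) h2
      · intro x y
        have hxy : p x.1 = p y.1 := hcell1 _ _ (x.2.trans y.2.symm)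
        rcases le_total (a x.1) (a y.1) with h | h
        · left
          simp only [hxy]
          exact Nat.mul_dvd_mul_left _ (pow_dvd_pow 2 h)
        · right
          simp only [hxy]
          exact Nat.mul_dvd_mul_left _ (pow_dvd_pow 2 h)
      · exact hcell2 i
      · intro x
        exact hr x.1
      · intro x
        exact hfit x.1
    have hex : ∀ x : {x : β ⊕ κ // Sum.map id cell x = Sum.inr i},
        ∃ y : {x : κ // cell x = i}, x.1 = Sum.inr y.1 := by
      rintro ⟨x, hx⟩
      rcases x with x | x
      · simp at hx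
      · exact ⟨⟨x, by simpa using hx⟩, rfl⟩
    choose φ hφ using hex
    have hinj : Function.Injective φ := by
      intro x y hxy
      apply Subtype.ext
      rw [hφ x, hφ y, hxy]
    have h2 := PacksI.reindex hch φ hinj
    have h3 : (fun x : {x : β ⊕ κ // Sum.map id cell x = Sum.inr i} => r (φ x).1)
        = fun x => Sum.elim big r x.1 := by
      funext x
      rw [hφ x]
      rfl
    rw [h3] at h2
    simpa using h2

end Vale.Agent.P209
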