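import Vale.Agent.P209.Toric.Basic

/-!
# P209: the linear symplectic changes of coordinates

In the coordinates `W j = X j + i Y j` the map `Amap` passes to `t i = X 0 + ... + X i`,
`η i = Y i - Y (i+1)`; `Bmap` is its inverse. Both preserve `omega` (summation by parts).
-/

namespace Vale.Agent.P209

open scoped ContDiff Topology

/-- initial sums of the real parts, consecutive differences of the imaginary parts -/
noncomputable def Amap {n : ℕ} (W : Fin n → ℂ) : Fin n → ℂ := fun i =>
  ((∑ j ∈ Finset.univ.filter (fun j => j ≤ i), (W j).re : ℝ) : ℂ) +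
    (((W i).im - (if h : i.1 + 1 < n then (W ⟨i.1 + 1, h⟩).im else 0) : ℝ) : ℂ) * Complex.I

/-- consecutive differences of the real parts, tail sums of the imaginary parts -/
noncomputable def Bmap {n : ℕ} (V : Fin n → ℂ) : Fin n → ℂ := fun l =>
  (((V l).re - (if 0 < l.1 then (V ⟨l.1 - 1, by omega⟩).re else 0) : ℝ) : ℂ) +
    ((∑ j ∈ Finset.univ.filter (fun j => l ≤ j), (V j).im : ℝ) : ℂ) * Complex.I

theorem Amap_re {n : ℕ} (W : Fin n → ℂ) (i : Fin n) :
    (Amap W i).re = ∑ j ∈ Finset.univ.filter (fun j => j ≤ i), (W j).re := by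
  simp [Amap]

theorem Amap_im {n : ℕ} (W : Fin n → ℂ) (i : Fin n) :
    (Amap W i).im = (W i).im - (if h : i.1 + 1 < n then (W ⟨i.1 + 1, h⟩).im else 0) := by
  simp [Amap]

theorem Bmap_re {n : ℕ} (V : Fin n → ℂ) (l : Fin n) :
    (Bmap V l).re = (V l).re - (if 0 < l.1 then (V ⟨l.1 - 1, by omega⟩).re else 0) := by
  simp [Bmap]

theorem Bmap_im {n : ℕ} (V : Fin n → ℂ) (l : Fin n) :
    (Bmap V l).im = ∑ j ∈ Finset.univ.filter (fun j => l ≤ j), (V j).im := by
  simp [Bmap]


private theorem pre_diff {n : ℕ} (a : Fin n → ℝ) (l : Fin n) :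
    (∑ j ∈ Finset.univ.filter (fun j => j ≤ l), a j) -
      (if 0 < l.1 then ∑ j ∈ Finset.univ.filter (fun j : Fin n => j ≤ ⟨l.1 - 1, by omega⟩), a j
        else 0) = a l := by
  classical
  split_ifs with h
  · have hset : Finset.univ.filter (fun j : Fin n => j ≤ l) =
        insert l (Finset.univ.filter (fun j : Fin n => j ≤ ⟨l.1 - 1, by omega⟩)) := by
      ext j
      simp only [Finset.mem_filter, Finset.mem_univ, true_and, Finset.mem_insert, Fin.le_def,
        Fin.ext_iff]
      omega
    rw [hset, Finset.sum_insert]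
    · ring
    · simp only [Finset.mem_filter, Finset.mem_univ, true_and, Fin.le_def]
      omega
  · have hset : Finset.univ.filter (fun j : Fin n => j ≤ l) = {l} := by
      ext j
      simp only [Finset.mem_filter, Finset.mem_univ, true_and, Finset.mem_singleton, Fin.le_def,
        Fin.ext_iff]
      omega
    rw [hset, Finset.sum_singleton]
    ring

private theorem suf_diff {n : ℕ} (b : Fin n → ℝ) (l : Fin n) :
    (∑ j ∈ Finset.univ.filter (fun j => l ≤ j), b j) -
      (if h : l.1 + 1 < n then ∑ j ∈ Finset.univ.filter (fun j : Fin n => ⟨l.1 + 1, h⟩ ≤ j), b j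
        else 0) = b l := by
  classical
  split_ifs with h
  · have hset : Finset.univ.filter (fun j : Fin n => l ≤ j) =
        insert l (Finset.univ.filter (fun j : Fin n => (⟨l.1 + 1, h⟩ : Fin n) ≤ j)) := by
      ext j
      simp only [Finset.mem_filter, Finset.mem_univ, true_and, Finset.mem_insert, Fin.le_def,
        Fin.ext_iff]
      omega
    rw [hset, Finset.sum_insert]
    · ring
    · simp only [Finset.mem_filter, Finset.mem_univ, true_and, Fin.le_def]
      omega
  · have hset : Finset.univ.filter (fun j : Fin n => l ≤ j) = {l} := by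
      ext j
      have := j.2
      simp only [Finset.mem_filter, Finset.mem_univ, true_and, Finset.mem_singleton, Fin.le_def,
        Fin.ext_iff]
      omega
    rw [hset, Finset.sum_singleton]
    ring

private theorem sum_pre_diff {n : ℕ} (a : Fin n → ℝ) (i : Fin n) :
    ∑ j ∈ Finset.univ.filter (fun j => j ≤ i),
      (a j - (if 0 < j.1 then a ⟨j.1 - 1, by omega⟩ else 0)) = a i := by
  classical
  obtain ⟨k, hk⟩ := i
  induction k with
  | zero =>
    have h := pre_diff (fun j : Fin n => a j - (if 0 < j.1 then a ⟨j.1 - 1, by omega⟩ else 0)) ⟨0, hk⟩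
    simp only [lt_self_iff_false, if_false, sub_zero] at h
    exact h
  | succ k ih =>
    have h := pre_diff (fun j : Fin n => a j - (if 0 < j.1 then a ⟨j.1 - 1, by omega⟩ else 0))
      ⟨k + 1, hk⟩
    simp only [Nat.succ_pos, if_true, Nat.add_sub_cancel] at h
    have ih' := ih (by omega)
    rw [ih'] at h
    linarith

private theorem sum_suf_diff {n : ℕ} (b : Fin n → ℝ) (l : Fin n) :
    ∑ j ∈ Finset.univ.filter (fun j => l ≤ j),
      (b j - (if h : j.1 + 1 < n then b ⟨j.1 + 1, h⟩ else 0)) = b l := by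
  classical
  obtain ⟨k, hk⟩ := l
  obtain ⟨m, hm⟩ : ∃ m, m = n - k := ⟨_, rfl⟩
  induction m generalizing k with
  | zero => omega
  | succ m ih =>
    have h := suf_diff (fun j : Fin n => b j - (if h : j.1 + 1 < n then b ⟨j.1 + 1, h⟩ else 0))
      ⟨k, hk⟩
    by_cases hk1 : k + 1 < n
    · simp only [hk1, dif_pos] at h
      have ih' := ih (k + 1) hk1 (by omega)
      rw [ih'] at h
      linarith
    · simp only [hk1, dif_neg, not_false_iff, sub_zero] at h
      exact h

private theorem sum_by_parts {n : ℕ} (a b : Fin n → ℝ) :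
    ∑ l, (a l - (if 0 < l.1 then a ⟨l.1 - 1, by omega⟩ else 0)) *
      (∑ j ∈ Finset.univ.filter (fun j => l ≤ j), b j) = ∑ j, a j * b j := by
  classical
  have h1 : ∀ l : Fin n, (a l - (if 0 < l.1 then a ⟨l.1 - 1, by omega⟩ else 0)) *
      (∑ j ∈ Finset.univ.filter (fun j => l ≤ j), b j) =
      ∑ j, (if l ≤ j then (a l - (if 0 < l.1 then a ⟨l.1 - 1, by omega⟩ else 0)) * b j else 0) := by
    intro l
    rw [Finset.mul_sum, Finset.sum_filter]
  rw [Finset.sum_congr rfl (fun l _ => h1 l), Finset.sum_comm]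
  refine Finset.sum_congr rfl (fun j _ => ?_)
  rw [← Finset.sum_filter, ← Finset.sum_mul, sum_pre_diff]

theorem isLinearMap_Amap {n : ℕ} : IsLinearMap ℝ (Amap (n := n)) := by
  constructor
  · intro x y
    ext i
    apply Complex.ext
    · simp [Amap_re, Finset.sum_add_distrib]
    · simp only [Pi.add_apply, Complex.add_im, Amap_im]
      split_ifs <;> ring
  · intro c x
    ext i
    apply Complex.ext
    · simp [Amap_re, Finset.mul_sum]
    · simp only [Pi.smul_apply, Complex.smul_im, Amap_im, smul_eq_mul]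
      split_ifs <;> ring

theorem isLinearMap_Bmap {n : ℕ} : IsLinearMap ℝ (Bmap (n := n)) := by
  constructor
  · intro x y
    ext i
    apply Complex.ext
    · simp only [Pi.add_apply, Complex.add_re, Bmap_re]
      split_ifs <;> ring
    · simp [Bmap_im, Finset.sum_add_distrib]
  · intro c x
    ext i
    apply Complex.ext
    · simp only [Pi.smul_apply, Complex.smul_re, Bmap_re, smul_eq_mul]
      split_ifs <;> ring
    · simp [Bmap_im, Finset.mul_sum]

theorem Bmap_Amap {n : ℕ} (W : Fin n → ℂ) : Bmap (Amap W) = W := by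
  ext l
  apply Complex.ext
  · rw [Bmap_re]
    simp only [Amap_re]
    exact pre_diff (fun j => (W j).re) l
  · rw [Bmap_im]
    simp only [Amap_im]
    exact sum_suf_diff (fun j => (W j).im) l

theorem Amap_Bmap {n : ℕ} (V : Fin n → ℂ) : Amap (Bmap V) = V := by
  ext i
  apply Complex.ext
  · rw [Amap_re]
    simp only [Bmap_re]
    exact sum_pre_diff (fun j => (V j).re) i
  · rw [Amap_im]
    simp only [Bmap_im]
    exact suf_diff (fun j => (V j).im) i

/-- summation by parts: `∑_l (a_l - a_{l-1}) (∑_{j ≥ l} b_j) = ∑_j a_j b_j` -/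
theorem omega_Bmap {n : ℕ} (u v : Fin n → ℂ) : omega (Bmap u) (Bmap v) = omega u v := by
  unfold omega
  simp only [Bmap_re, Bmap_im]
  rw [Finset.sum_sub_distrib, Finset.sum_sub_distrib]
  have h1 := sum_by_parts (fun j => (u j).re) (fun j => (v j).im)
  have h2 := sum_by_parts (fun j => (v j).re) (fun j => (u j).im)
  rw [h1]
  have h3 : ∑ l, (∑ j ∈ Finset.univ.filter (fun j => l ≤ j), (u j).im) *
      ((v l).re - (if 0 < l.1 then (v ⟨l.1 - 1, by omega⟩).re else 0)) =
      ∑ j, (u j).im * (v j).re := by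
    rw [Finset.sum_congr rfl (fun l _ => mul_comm _ _), h2]
    exact Finset.sum_congr rfl (fun l _ => mul_comm _ _)
  rw [h3]

theorem omega_Amap {n : ℕ} (u v : Fin n → ℂ) : omega (Amap u) (Amap v) = omega u v := by
  rw [← omega_Bmap (Amap u) (Amap v), Bmap_Amap, Bmap_Amap]

theorem omega_perm {n : ℕ} (τ : Equiv.Perm (Fin n)) (u v : Fin n → ℂ) :
    omega (fun l => u (τ l)) (fun l => v (τ l)) = omega u v := by
  unfold omega
  exact Equiv.sum_comp τ (fun j => (u j).re * (v j).im - (u j).im * (v j).re)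

/-- telescoping -/
theorem sum_Bmap_re {n : ℕ} (V : Fin (n + 1) → ℂ) :
    ∑ l, (Bmap V l).re = (V (Fin.last n)).re := by
  have h := sum_pre_diff (fun j => (V j).re) (Fin.last n)
  simp only [Bmap_re]
  rw [← h]
  refine Finset.sum_congr ?_ (fun _ _ => rfl)
  ext j
  simp [Fin.le_last]

end Vale.Agent.P209
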