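import Vale.Agent.P209.Toric.Basic

/-!
# P209: symplectic polar coordinates `(X, Y) ↦ √(X/π) exp (2 π i Y)`
-/

namespace Vale.Agent.P209

open scoped ContDiff Topology

noncomputable def Pol (w : ℂ) : ℂ :=
  ((Real.sqrt (w.re / Real.pi) : ℝ) : ℂ) * Complex.exp (((2 * Real.pi * w.im : ℝ) : ℂ) * Complex.I)

theorem Pol_contDiffOn : ContDiffOn ℝ ∞ Pol HP := by
  intro w hw
  apply ContDiffAt.contDiffWithinAt
  have hw0 : 0 < w.re := hw
  have hpos : w.re / Real.pi ≠ 0 := ne_of_gt (div_pos hw0 Real.pi_pos)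
  have h1 : ContDiffAt ℝ ∞ (fun w : ℂ => w.re / Real.pi) w :=
    (Complex.reCLM.contDiff.contDiffAt).div_const _
  have h2 : ContDiffAt ℝ ∞ (fun w : ℂ => Real.sqrt (w.re / Real.pi)) w := h1.sqrt hpos
  have h3 : ContDiffAt ℝ ∞ (fun w : ℂ => ((Real.sqrt (w.re / Real.pi) : ℝ) : ℂ)) w :=
    Complex.ofRealCLM.contDiff.contDiffAt.comp w h2
  have h4 : ContDiffAt ℝ ∞ (fun w : ℂ => 2 * Real.pi * w.im) w :=
    contDiffAt_const.mul Complex.imCLM.contDiff.contDiffAt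
  have h5 : ContDiffAt ℝ ∞ (fun w : ℂ => ((2 * Real.pi * w.im : ℝ) : ℂ)) w :=
    Complex.ofRealCLM.contDiff.contDiffAt.comp w h4
  have h6 : ContDiffAt ℝ ∞ (fun w : ℂ => ((2 * Real.pi * w.im : ℝ) : ℂ) * Complex.I) w :=
    h5.mul contDiffAt_const
  exact h3.mul h6.cexp

private theorem Pol_eq (w : ℂ) :
    Pol w = ((Real.sqrt (w.re / Real.pi) * Real.cos (2 * Real.pi * w.im) : ℝ) : ℂ) +
      ((Real.sqrt (w.re / Real.pi) * Real.sin (2 * Real.pi * w.im) : ℝ) : ℂ) * Complex.I := by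
  unfold Pol
  rw [Complex.exp_mul_I, ← Complex.ofReal_cos, ← Complex.ofReal_sin]
  push_cast
  ring

/-- `Re Pol = r cos (2 π Y)`, `Im Pol = r sin (2 π Y)` with `r = √(X/π)`, `dr/dX = 1 / (2 π r)` -/
theorem Pol_apAt {w : ℂ} (hw : w ∈ HP) : APAt Pol w := by
  have hw0 : 0 < w.re := hw
  have hpos : 0 < w.re / Real.pi := div_pos hw0 Real.pi_pos
  have hrpos : 0 < Real.sqrt (w.re / Real.pi) := Real.sqrt_pos.mpr hpos
  have hfun : Pol = fun w : ℂ =>
      ((Real.sqrt (w.re / Real.pi) * Real.cos (2 * Real.pi * w.im) : ℝ) : ℂ) +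
      ((Real.sqrt (w.re / Real.pi) * Real.sin (2 * Real.pi * w.im) : ℝ) : ℂ) * Complex.I :=
    funext Pol_eq
  rw [hfun]
  have hr : HasFDerivAt (fun w : ℂ => Real.sqrt (w.re / Real.pi))
      (((1 / Real.pi) / (2 * Real.sqrt (w.re / Real.pi))) • Complex.reCLM) w := by
    have h1 : HasDerivAt (fun X : ℝ => Real.sqrt (X / Real.pi))
        ((1 / Real.pi) / (2 * Real.sqrt (w.re / Real.pi))) w.re :=
      HasDerivAt.sqrt ((hasDerivAt_id _).div_const Real.pi) (ne_of_gt hpos)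
    exact h1.comp_hasFDerivAt w Complex.reCLM.hasFDerivAt
  have hc : HasFDerivAt (fun w : ℂ => Real.cos (2 * Real.pi * w.im))
      ((-Real.sin (2 * Real.pi * w.im) * (2 * Real.pi * 1)) • Complex.imCLM) w := by
    have h1 : HasDerivAt (fun Y : ℝ => Real.cos (2 * Real.pi * Y))
        (-Real.sin (2 * Real.pi * w.im) * (2 * Real.pi * 1)) w.im :=
      ((hasDerivAt_id _).const_mul (2 * Real.pi)).cos
    exact h1.comp_hasFDerivAt w Complex.imCLM.hasFDerivAt
  have hs : HasFDerivAt (fun w : ℂ => Real.sin (2 * Real.pi * w.im))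
      ((Real.cos (2 * Real.pi * w.im) * (2 * Real.pi * 1)) • Complex.imCLM) w := by
    have h1 : HasDerivAt (fun Y : ℝ => Real.sin (2 * Real.pi * Y))
        (Real.cos (2 * Real.pi * w.im) * (2 * Real.pi * 1)) w.im :=
      ((hasDerivAt_id _).const_mul (2 * Real.pi)).sin
    exact h1.comp_hasFDerivAt w Complex.imCLM.hasFDerivAt
  have hA := hr.mul hc
  have hB := hr.mul hs
  refine apAt_of_grads
    (a₁ := Real.cos (2 * Real.pi * w.im) * ((1 / Real.pi) / (2 * Real.sqrt (w.re / Real.pi))))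
    (a₂ := Real.sqrt (w.re / Real.pi) * (-Real.sin (2 * Real.pi * w.im) * (2 * Real.pi * 1)))
    (b₁ := Real.sin (2 * Real.pi * w.im) * ((1 / Real.pi) / (2 * Real.sqrt (w.re / Real.pi))))
    (b₂ := Real.sqrt (w.re / Real.pi) * (Real.cos (2 * Real.pi * w.im) * (2 * Real.pi * 1)))
    ?_ ?_ ?_
  · rw [smul_smul, smul_smul, add_comm] at hA
    exact hA
  · rw [smul_smul, smul_smul, add_comm] at hB
    exact hB
  · have hcs := Real.sin_sq_add_cos_sq (2 * Real.pi * w.im)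
    have hpi := Real.pi_pos
    field_simp
    nlinarith [hcs]

theorem pi_mul_norm_Pol_sq {w : ℂ} (hw : w ∈ HP) : Real.pi * ‖Pol w‖ ^ 2 = w.re := by
  have hw0 : 0 < w.re := hw
  have hpos : 0 < w.re / Real.pi := div_pos hw0 Real.pi_pos
  unfold Pol
  rw [norm_mul, Complex.norm_exp_ofReal_mul_I, mul_one, Complex.norm_real, Real.norm_eq_abs,
    abs_of_nonneg (Real.sqrt_nonneg _), Real.sq_sqrt hpos.le]
  field_simp

theorem Pol_eq_iff {w w' : ℂ} (hw : w ∈ HP) (hw' : w' ∈ HP) (h : Pol w = Pol w') :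
    w.re = w'.re ∧ ∃ k : ℤ, w.im - w'.im = k := by
  have hre : w.re = w'.re := by
    rw [← pi_mul_norm_Pol_sq hw, ← pi_mul_norm_Pol_sq hw', h]
  refine ⟨hre, ?_⟩
  have hw0 : 0 < w'.re := hw'
  have hpos : 0 < w'.re / Real.pi := div_pos hw0 Real.pi_pos
  have hrpos : 0 < Real.sqrt (w'.re / Real.pi) := Real.sqrt_pos.mpr hpos
  unfold Pol at h
  rw [hre] at h
  have hne : ((Real.sqrt (w'.re / Real.pi) : ℝ) : ℂ) ≠ 0 := by
    exact_mod_cast ne_of_gt hrpos
  have h2 := mul_left_cancel₀ hne h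
  obtain ⟨k, hk⟩ := Complex.exp_eq_exp_iff_exists_int.mp h2
  refine ⟨k, ?_⟩
  have h3 := congrArg Complex.im hk
  simp at h3
  have hpi := Real.pi_pos
  have h4 : 2 * Real.pi * (w.im - w'.im - k) = 0 := by linarith
  have h5 : w.im - w'.im - k = 0 := by
    rcases mul_eq_zero.mp h4 with h | h
    · exfalso; linarith
    · exact h
  linarith

end Vale.Agent.P209
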