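import Mathlib

/-!
# P209: sorting the values `t i + ρ c i`
-/

namespace Vale.Agent.P209

/-- the key used to sort: first by `c i`, then by `i` -/
def key {n : ℕ} (c : Fin n → ℕ) (i : Fin n) : ℕ := c i * n + i.1

/-- the permutation listing the indices by increasing key -/
def srt {n : ℕ} (c : Fin n → ℕ) : Equiv.Perm (Fin n) := Tuple.sort (key c)

private theorem key_lt_of_lt {n : ℕ} (c : Fin n → ℕ) (i j : Fin n) (h : c i < c j) :
    key c i < key c j := by
  unfold key
  have h1 : (c i + 1) * n ≤ c j * n := Nat.mul_le_mul_right _ h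
  have h2 := i.2
  rw [Nat.add_mul, Nat.one_mul] at h1
  omega

theorem key_lt_iff {n : ℕ} (c : Fin n → ℕ) (i j : Fin n) :
    key c i < key c j ↔ c i < c j ∨ (c i = c j ∧ i < j) := by
  constructor
  · intro h
    rcases lt_trichotomy (c i) (c j) with h1 | h1 | h1
    · exact Or.inl h1
    · refine Or.inr ⟨h1, ?_⟩
      unfold key at h
      rw [h1] at h
      exact Fin.lt_def.mpr (by omega)
    · exact absurd (key_lt_of_lt c j i h1) (by omega)
  · rintro (h | ⟨h1, h2⟩)
    · exact key_lt_of_lt c i j h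
    · unfold key
      rw [h1]
      have := Fin.lt_def.mp h2
      omega

theorem key_injective {n : ℕ} (c : Fin n → ℕ) : Function.Injective (key c) := by
  intro i j h
  rcases lt_trichotomy (c i) (c j) with h1 | h1 | h1
  · exact absurd ((key_lt_iff c i j).mpr (Or.inl h1)) (by omega)
  · rcases lt_trichotomy i j with h2 | h2 | h2
    · exact absurd ((key_lt_iff c i j).mpr (Or.inr ⟨h1, h2⟩)) (by omega)
    · exact h2
    · exact absurd ((key_lt_iff c j i).mpr (Or.inr ⟨h1.symm, h2⟩)) (by omega)
  · exact absurd ((key_lt_iff c j i).mpr (Or.inl h1)) (by omega)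

theorem key_srt_strictMono {n : ℕ} (c : Fin n → ℕ) : StrictMono (fun l => key c (srt c l)) := by
  have h1 : Monotone (key c ∘ srt c) := Tuple.monotone_sort (key c)
  exact h1.strictMono_of_injective ((key_injective c).comp (srt c).injective)

/-- a strictly increasing family has only one increasing enumeration -/
theorem perm_eq_of_comp_eq {n : ℕ} {t t' : Fin n → ℝ} (ht : StrictMono t) (ht' : StrictMono t')
    {τ τ' : Equiv.Perm (Fin n)} (h : ∀ l, t (τ l) = t' (τ' l)) : τ = τ' := by
  have hπ : StrictMono (fun m => τ (τ'.symm m)) := by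
    intro m m' hm
    have h1 : t (τ (τ'.symm m)) = t' m := by rw [h, Equiv.apply_symm_apply]
    have h2 : t (τ (τ'.symm m')) = t' m' := by rw [h, Equiv.apply_symm_apply]
    have h3 := ht' hm
    rw [← h1, ← h2] at h3
    exact ht.lt_iff_lt.mp h3
  have hid : (fun m => τ (τ'.symm m)) = id := by
    apply (hπ.range_inj strictMono_id).mp
    rw [Set.range_id]
    exact (τ'.symm.trans τ).surjective.range_eq
  ext l
  have := congrFun hid (τ' l)
  simp only [Equiv.symm_apply_apply, id] at this
  rw [this]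

theorem floor_unique {ρ t t' : ℝ} {c c' : ℕ} (ht : 0 < t) (ht1 : t < ρ) (ht' : 0 < t')
    (ht1' : t' < ρ) (h : t + ρ * c = t' + ρ * c') : c = c' ∧ t = t' := by
  have hρ : 0 < ρ := ht.trans ht1
  have hc : c = c' := by
    rcases lt_trichotomy c c' with h1 | h1 | h1
    · exfalso
      have h2 : (c : ℝ) + 1 ≤ c' := by exact_mod_cast h1
      have h3 := mul_le_mul_of_nonneg_left h2 hρ.le
      nlinarith
    · exact h1
    · exfalso
      have h2 : (c' : ℝ) + 1 ≤ c := by exact_mod_cast h1
      have h3 := mul_le_mul_of_nonneg_left h2 hρ.le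
      nlinarith
  refine ⟨hc, ?_⟩
  rw [hc] at h
  linarith

/-- the sorted values are strictly increasing -/
theorem strictMono_sorted {n : ℕ} {ρ : ℝ} {t : Fin n → ℝ} (ht : StrictMono t) (h0 : ∀ i, 0 < t i)
    (h1 : ∀ i, t i < ρ) (c : Fin n → ℕ) :
    StrictMono (fun l => t (srt c l) + ρ * (c (srt c l) : ℝ)) := by
  intro l l' hl
  have hk := key_srt_strictMono c hl
  rcases (key_lt_iff c _ _).mp hk with h | ⟨h2, h3⟩
  · have hρ : 0 < ρ := (h0 (srt c l)).trans (h1 (srt c l))
    have h4 : (c (srt c l) : ℝ) + 1 ≤ c (srt c l') := by exact_mod_cast h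
    have h5 := mul_le_mul_of_nonneg_left h4 hρ.le
    have h6 := h1 (srt c l)
    have h7 := h0 (srt c l')
    show t (srt c l) + ρ * (c (srt c l) : ℝ) < t (srt c l') + ρ * (c (srt c l') : ℝ)
    nlinarith
  · have h4 := ht h3
    show t (srt c l) + ρ * (c (srt c l) : ℝ) < t (srt c l') + ρ * (c (srt c l') : ℝ)
    rw [h2]
    linarith

theorem le_c_srt_last {n : ℕ} (c : Fin (n + 1) → ℕ) (i : Fin (n + 1)) :
    c i ≤ c (srt c (Fin.last n)) := by
  have h1 := (key_srt_strictMono c).monotone (Fin.le_last ((srt c).symm i))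
  simp only [Equiv.apply_symm_apply] at h1
  by_contra hcon
  have h2 := (key_lt_iff c (srt c (Fin.last n)) i).mpr (Or.inl (not_le.mp hcon))
  omega

end Vale.Agent.P209
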