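import Vale.Agent.P209.Toric.Tray
import Vale.Agent.P209.Toric.Pol
import Vale.Agent.P209.Toric.Lin
import Vale.Agent.P209.Toric.Sort

/-!
# P209: the embedding of a ball onto (a compact part of) the toric domain over an alcove

For `c : Fin n → ℕ` the alcove is the set of `x` whose initial sums are the increasing rearrangement of
`t i + ρ c i + sh`, `0 < t 0 < ... < t (n-1) < ρ`.
-/

namespace Vale.Agent.P209

open scoped ContDiff Topology

noncomputable def trayN {n : ℕ} (e : ℝ) (z : Fin n → ℂ) : Fin n → ℂ := fun j => tray e (z j)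

noncomputable def PolN {n : ℕ} (w : Fin n → ℂ) : Fin n → ℂ := fun j => Pol (w j)

/-- permutation and translation in the coordinates `(t, η)` -/
noncomputable def shuf {n : ℕ} (ρ sh : ℝ) (c : Fin n → ℕ) (V : Fin n → ℂ) : Fin n → ℂ :=
  fun l => V (srt c l) + ((ρ * (c (srt c l) : ℝ) + sh : ℝ) : ℂ)

/-- action-angle coordinates of the image point -/
noncomputable def pre {n : ℕ} (e ρ sh : ℝ) (c : Fin n → ℕ) (z : Fin n → ℂ) : Fin n → ℂ :=
  Bmap (shuf ρ sh c (Amap (trayN e z)))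

/-- the embedding -/
noncomputable def emb {n : ℕ} (e ρ sh : ℝ) (c : Fin n → ℕ) (z : Fin n → ℂ) : Fin n → ℂ :=
  PolN (pre e ρ sh c z)

/-- the domain -/
def Udom {n : ℕ} (e ρ : ℝ) : Set (Fin n → ℂ) := {z | ∑ j, (tray e (z j)).re < ρ}

/-- the numbers `t i` -/
noncomputable def tval {n : ℕ} (e : ℝ) (z : Fin n → ℂ) (i : Fin n) : ℝ := (Amap (trayN e z) i).re

theorem isOpen_Udom {n : ℕ} {e : ℝ} (he : 0 < e) (ρ : ℝ) : IsOpen (Udom (n := n) e ρ) := by
  unfold Udom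
  apply isOpen_lt _ continuous_const
  apply continuous_finsetSum
  intro j _
  exact Complex.continuous_re.comp ((tray_contDiff he).continuous.comp (continuous_apply j))

theorem cBall_subset_Udom {n : ℕ} {e : ℝ} (he : 0 < e) {r ρ : ℝ}
    (h : r + n * (Real.pi * e) ≤ ρ) (hn : 1 ≤ n) : cBall n r ⊆ Udom e ρ := by
  intro z hz
  have hz' : Real.pi * ∑ j, ‖z j‖ ^ 2 ≤ r := hz
  have hne : (Finset.univ : Finset (Fin n)).Nonempty := ⟨⟨0, by omega⟩, Finset.mem_univ _⟩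
  have h1 : ∑ j, (tray e (z j)).re < ∑ j, (Real.pi * ‖z j‖ ^ 2 + Real.pi * e) :=
    Finset.sum_lt_sum_of_nonempty hne (fun j _ => tray_re_lt he (z j))
  have h2 : ∑ j, (Real.pi * ‖z j‖ ^ 2 + Real.pi * e)
      = Real.pi * ∑ j, ‖z j‖ ^ 2 + n * (Real.pi * e) := by
    rw [Finset.sum_add_distrib, ← Finset.mul_sum]
    simp
  show ∑ j, (tray e (z j)).re < ρ
  linarith

theorem tval_strictMono {n : ℕ} {e : ℝ} (he : 0 < e) (z : Fin n → ℂ) : StrictMono (tval e z) := by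
  intro i i' hii
  unfold tval
  rw [Amap_re, Amap_re]
  apply Finset.sum_lt_sum_of_subset (i := i')
  · intro j hj
    simp only [Finset.mem_filter, Finset.mem_univ, true_and] at hj ⊢
    exact le_trans hj hii.le
  · simp
  · simp only [Finset.mem_filter, Finset.mem_univ, true_and, not_le]
    exact hii
  · exact tray_re_pos he _
  · intro j _ _
    exact (tray_re_pos he _).le

theorem tval_pos {n : ℕ} {e : ℝ} (he : 0 < e) (z : Fin n → ℂ) (i : Fin n) : 0 < tval e z i := by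
  unfold tval
  rw [Amap_re]
  apply Finset.sum_pos
  · intro j _
    exact tray_re_pos he _
  · exact ⟨i, by simp⟩

theorem tval_lt {n : ℕ} {e ρ : ℝ} (he : 0 < e) {z : Fin n → ℂ} (hz : z ∈ Udom e ρ) (i : Fin n) :
    tval e z i < ρ := by
  unfold tval
  rw [Amap_re]
  have hz' : ∑ j, (tray e (z j)).re < ρ := hz
  refine lt_of_le_of_lt ?_ hz'
  apply Finset.sum_le_sum_of_subset_of_nonneg (Finset.filter_subset _ _)
  intro j _ _
  exact (tray_re_pos he _).le

theorem shuf_re {n : ℕ} (e ρ sh : ℝ) (c : Fin n → ℕ) (z : Fin n → ℂ) (l : Fin n) :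
    (shuf ρ sh c (Amap (trayN e z)) l).re = tval e z (srt c l) + ρ * (c (srt c l) : ℝ) + sh := by
  unfold shuf tval
  rw [Complex.add_re, Complex.ofReal_re]
  ring

theorem pre_mem_HP {n : ℕ} {e ρ sh : ℝ} (he : 0 < e) (hsh : 0 ≤ sh) (c : Fin n → ℕ)
    {z : Fin n → ℂ} (hz : z ∈ Udom e ρ) (l : Fin n) : pre e ρ sh c z l ∈ HP := by
  have hρ : 0 < ρ := lt_trans (tval_pos he z l) (tval_lt he hz l)
  show 0 < (pre e ρ sh c z l).re
  unfold pre
  rw [Bmap_re]
  by_cases hl : 0 < l.1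
  · rw [if_pos hl, shuf_re, shuf_re]
    have hmono := strictMono_sorted (tval_strictMono he z) (tval_pos he z) (tval_lt he hz) c
    have hlt : (⟨l.1 - 1, by omega⟩ : Fin n) < l := by
      rw [Fin.lt_def]
      show l.1 - 1 < l.1
      omega
    have := hmono hlt
    simp only at this
    linarith
  · rw [if_neg hl, shuf_re]
    have h1 := tval_pos he z (srt c l)
    have h2 : 0 ≤ ρ * (c (srt c l) : ℝ) := by positivity
    linarith

theorem pre_contDiff {n : ℕ} {e : ℝ} (he : 0 < e) (ρ sh : ℝ) (c : Fin n → ℕ) :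
    ContDiff ℝ ∞ (pre e ρ sh c) := by
  have h1 : ContDiff ℝ ∞ (trayN (n := n) e) :=
    contDiff_pi.mpr (fun j => (tray_contDiff he).comp (contDiff_apply ℝ ℂ j))
  have h2 : ContDiff ℝ ∞ (shuf (n := n) ρ sh c) :=
    contDiff_pi.mpr (fun l => (contDiff_apply ℝ ℂ (srt c l)).add contDiff_const)
  exact (contDiff_of_isLinearMap isLinearMap_Bmap).comp
    (h2.comp ((contDiff_of_isLinearMap isLinearMap_Amap).comp h1))

theorem emb_contDiffOn {n : ℕ} {e ρ sh : ℝ} (he : 0 < e) (hsh : 0 ≤ sh) (c : Fin n → ℕ) :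
    ContDiffOn ℝ ∞ (emb e ρ sh c) (Udom e ρ) := by
  have hpre := pre_contDiff (n := n) he ρ sh c
  rw [contDiffOn_pi]
  intro j
  have hj : ContDiff ℝ ∞ (fun z => pre e ρ sh c z j) := (contDiff_pi.mp hpre) j
  exact Pol_contDiffOn.comp hj.contDiffOn (fun z hz => pre_mem_HP he hsh c hz j)

theorem emb_sympAt {n : ℕ} {e ρ sh : ℝ} (he : 0 < e) (hsh : 0 ≤ sh) (c : Fin n → ℕ)
    {z : Fin n → ℂ} (hz : z ∈ Udom e ρ) : SympAt (emb e ρ sh c) z := by
  have h1 : SympAt (trayN (n := n) e) z := sympAt_pi (tray e) z (fun j => tray_apAt he (z j))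
  have h2 : SympAt (Amap (n := n)) (trayN e z) := by
    have := sympAt_of_isLinearMap (isLinearMap_Amap (n := n)) omega_Amap 0 (trayN e z)
    simpa using this
  have h3 : SympAt (shuf (n := n) ρ sh c) (Amap (trayN e z)) :=
    sympAt_of_isLinearMap (F := fun V : Fin n → ℂ => fun l => V (srt c l))
      ⟨fun _ _ => rfl, fun _ _ => rfl⟩ (omega_perm (srt c))
      (fun l => ((ρ * (c (srt c l) : ℝ) + sh : ℝ) : ℂ)) (Amap (trayN e z))
  have h4 : SympAt (Bmap (n := n)) (shuf ρ sh c (Amap (trayN e z))) := by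
    have := sympAt_of_isLinearMap (isLinearMap_Bmap (n := n)) omega_Bmap 0
      (shuf ρ sh c (Amap (trayN e z)))
    simpa using this
  have h5 : SympAt (PolN (n := n)) (pre e ρ sh c z) :=
    sympAt_pi Pol (pre e ρ sh c z) (fun j => Pol_apAt (pre_mem_HP he hsh c hz j))
  exact SympAt.comp (F := PolN) h5 (SympAt.comp (F := Bmap) h4 (SympAt.comp (F := shuf ρ sh c) h3
    (SympAt.comp (F := Amap) h2 h1)))

theorem cap_emb {n : ℕ} {e ρ sh : ℝ} (he : 0 < e) (hsh : 0 ≤ sh) (c : Fin (n + 1) → ℕ)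
    {z : Fin (n + 1) → ℂ} (hz : z ∈ Udom e ρ) :
    cap (emb e ρ sh c z) =
      tval e z (srt c (Fin.last n)) + ρ * (c (srt c (Fin.last n)) : ℝ) + sh := by
  unfold cap
  rw [Finset.mul_sum]
  have h1 : ∀ j, Real.pi * ‖emb e ρ sh c z j‖ ^ 2 = (pre e ρ sh c z j).re :=
    fun j => pi_mul_norm_Pol_sq (pre_mem_HP he hsh c hz j)
  simp only [h1]
  unfold pre
  rw [sum_Bmap_re, shuf_re]

theorem cap_emb_lt {n m : ℕ} {e ρ sh : ℝ} (he : 0 < e) (hsh : 0 ≤ sh) (c : Fin (n + 1) → ℕ)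
    (hc : ∀ i, c i + 1 ≤ m) {z : Fin (n + 1) → ℂ} (hz : z ∈ Udom e ρ) :
    cap (emb e ρ sh c z) < m * ρ + sh := by
  rw [cap_emb he hsh c hz]
  have h1 := tval_lt he hz (srt c (Fin.last n))
  have hρ : 0 < ρ := lt_trans (tval_pos he z (srt c (Fin.last n))) h1
  have h2 : ((c (srt c (Fin.last n)) : ℝ) + 1) ≤ m := by exact_mod_cast hc (srt c (Fin.last n))
  have h3 : ρ * ((c (srt c (Fin.last n)) : ℝ) + 1) ≤ ρ * m := mul_le_mul_of_nonneg_left h2 hρ.le
  nlinarith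

theorem lt_cap_emb {n m : ℕ} {e ρ sh : ℝ} (he : 0 < e) (hsh : 0 ≤ sh) (c : Fin (n + 1) → ℕ)
    (hc : ∃ i, c i + 1 = m) {z : Fin (n + 1) → ℂ} (hz : z ∈ Udom e ρ) :
    ((m : ℝ) - 1) * ρ + sh < cap (emb e ρ sh c z) := by
  rw [cap_emb he hsh c hz]
  obtain ⟨i, hi⟩ := hc
  have h0 := tval_pos he z (srt c (Fin.last n))
  have h1 := tval_lt he hz (srt c (Fin.last n))
  have hρ : 0 < ρ := lt_trans h0 h1
  have h2 : (m : ℝ) - 1 = c i := by
    rw [← hi]; push_cast; ring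
  have h3 : (c i : ℝ) ≤ c (srt c (Fin.last n)) := by exact_mod_cast le_c_srt_last c i
  have h4 : ρ * (c i : ℝ) ≤ ρ * c (srt c (Fin.last n)) := mul_le_mul_of_nonneg_left h3 hρ.le
  rw [h2]
  nlinarith

end Vale.Agent.P209
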