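import Vale.Agent.P209.Toric.Emb

/-!
# P209: injectivity of the embeddings and disjointness of their images
-/

namespace Vale.Agent.P209

open scoped ContDiff Topology

/-- equal real parts, imaginary parts differing by an integer -/
private def Cg (a b : ℂ) : Prop := a.re = b.re ∧ ∃ k : ℤ, a.im - b.im = k

private theorem Amap_cg {n : ℕ} {W W' : Fin n → ℂ} (h : ∀ l, Cg (W l) (W' l)) (i : Fin n) :
    Cg (Amap W i) (Amap W' i) := by
  have hre : ∀ l, (W l).re = (W' l).re := fun l => (h l).1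
  refine ⟨?_, ?_⟩
  · simp only [Amap_re, hre]
  · obtain ⟨k, hk⟩ := (h i).2
    rw [Amap_im, Amap_im]
    by_cases hi : i.1 + 1 < n
    · obtain ⟨k', hk'⟩ := (h ⟨i.1 + 1, hi⟩).2
      refine ⟨k - k', ?_⟩
      rw [dif_pos hi, dif_pos hi]
      push_cast
      rw [← hk, ← hk']
      ring
    · refine ⟨k, ?_⟩
      rw [dif_neg hi, dif_neg hi, ← hk]
      ring

private theorem Bmap_cg {n : ℕ} {V V' : Fin n → ℂ} (h : ∀ l, Cg (V l) (V' l)) (l : Fin n) :
    Cg (Bmap V l) (Bmap V' l) := by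
  have hre : ∀ l, (V l).re = (V' l).re := fun l => (h l).1
  refine ⟨?_, ?_⟩
  · simp only [Bmap_re, hre]
  · have him : ∀ j, ∃ k : ℤ, (V j).im - (V' j).im = k := fun j => (h j).2
    choose k hk using him
    refine ⟨∑ j ∈ Finset.univ.filter (fun j => l ≤ j), k j, ?_⟩
    rw [Bmap_im, Bmap_im, ← Finset.sum_sub_distrib]
    push_cast
    exact Finset.sum_congr rfl (fun j _ => hk j)

/-- equal images have equal action coordinates and angle coordinates differing by integers -/
theorem pre_of_emb_eq {n : ℕ} {e ρ sh : ℝ} (he : 0 < e) (hsh : 0 ≤ sh) (c c' : Fin n → ℕ)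
    {z z' : Fin n → ℂ} (hz : z ∈ Udom e ρ) (hz' : z' ∈ Udom e ρ)
    (h : emb e ρ sh c z = emb e ρ sh c' z') (l : Fin n) :
    (pre e ρ sh c z l).re = (pre e ρ sh c' z' l).re ∧
      ∃ k : ℤ, (pre e ρ sh c z l).im - (pre e ρ sh c' z' l).im = k := by
  have hl : Pol (pre e ρ sh c z l) = Pol (pre e ρ sh c' z' l) := congrFun h l
  exact Pol_eq_iff (pre_mem_HP he hsh c hz l) (pre_mem_HP he hsh c' hz' l) hl

private theorem shuf_cg {n : ℕ} {e ρ sh : ℝ} (he : 0 < e) (hsh : 0 ≤ sh) (c c' : Fin n → ℕ)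
    {z z' : Fin n → ℂ} (hz : z ∈ Udom e ρ) (hz' : z' ∈ Udom e ρ)
    (h : emb e ρ sh c z = emb e ρ sh c' z') (l : Fin n) :
    Cg (shuf ρ sh c (Amap (trayN e z)) l) (shuf ρ sh c' (Amap (trayN e z')) l) := by
  have h1 : ∀ l, Cg (pre e ρ sh c z l) (pre e ρ sh c' z' l) :=
    fun l => pre_of_emb_eq he hsh c c' hz hz' h l
  have h2 := Amap_cg h1 l
  unfold pre at h2
  rw [Amap_Bmap, Amap_Bmap] at h2
  exact h2

/-- Injectivity: apply `Amap` (= inverse of `Bmap`), undo the permutation, apply `Bmap`: the real parts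
of `trayN e z` and `trayN e z'` agree, the imaginary parts differ by integers and lie in
`(-1/2, 1/2)`. -/
theorem emb_injOn {n : ℕ} {e ρ sh : ℝ} (he : 0 < e) (hsh : 0 ≤ sh) (c : Fin n → ℕ) :
    Set.InjOn (emb e ρ sh c) (Udom e ρ) := by
  intro z hz z' hz' h
  have h1 := shuf_cg he hsh c c hz hz' h
  have h2 : ∀ i, Cg (Amap (trayN e z) i) (Amap (trayN e z') i) := by
    intro i
    obtain ⟨l, rfl⟩ := (srt c).surjective i
    obtain ⟨a, k, b⟩ := h1 l
    unfold shuf at a b
    simp only [Complex.add_re, Complex.ofReal_re, Complex.add_im, Complex.ofReal_im] at a b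
    refine ⟨by linarith, k, by linarith⟩
  have h3 : ∀ j, Cg (tray e (z j)) (tray e (z' j)) := by
    intro j
    have := Bmap_cg h2 j
    rw [Bmap_Amap, Bmap_Amap] at this
    exact this
  funext j
  apply tray_injective he
  obtain ⟨a, k, b⟩ := h3 j
  have b1 := abs_lt.mp (tray_im_lt he (z j))
  have b2 := abs_lt.mp (tray_im_lt he (z' j))
  have hk1 : (-1 : ℝ) < (k : ℝ) := by rw [← b]; linarith [b1.1, b2.2]
  have hk2 : (k : ℝ) < 1 := by rw [← b]; linarith [b1.2, b2.1]
  have hk1' : (-1 : ℤ) < k := by exact_mod_cast hk1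
  have hk2' : k < 1 := by exact_mod_cast hk2
  have hk0 : k = 0 := by omega
  rw [hk0] at b
  apply Complex.ext a
  have : (tray e (z j)).im - (tray e (z' j)).im = 0 := by simpa using b
  linarith

/-- Disjointness: equal images give `t (τ l) + ρ c (τ l) = t' (τ' l) + ρ c' (τ' l)` for all `l`, hence
(`floor_unique`, `perm_eq_of_comp_eq`) `τ = τ'` and `c = c'`. -/
theorem emb_ne {n : ℕ} {e ρ sh : ℝ} (he : 0 < e) (hsh : 0 ≤ sh) {c c' : Fin n → ℕ} (hcc : c ≠ c')
    {z z' : Fin n → ℂ} (hz : z ∈ Udom e ρ) (hz' : z' ∈ Udom e ρ) :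
    emb e ρ sh c z ≠ emb e ρ sh c' z' := by
  intro h
  have h1 := shuf_cg he hsh c c' hz hz' h
  have h2 : ∀ l, c (srt c l) = c' (srt c' l) ∧ tval e z (srt c l) = tval e z' (srt c' l) := by
    intro l
    have a := (h1 l).1
    rw [shuf_re, shuf_re] at a
    exact floor_unique (tval_pos he z _) (tval_lt he hz _) (tval_pos he z' _) (tval_lt he hz' _)
      (by linarith)
  have h3 : srt c = srt c' :=
    perm_eq_of_comp_eq (tval_strictMono he z) (tval_strictMono he z') (fun l => (h2 l).2)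
  apply hcc
  funext i
  obtain ⟨l, rfl⟩ := (srt c).surjective i
  have := (h2 l).1
  rw [← h3] at this
  exact this

end Vale.Agent.P209
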