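import Vale.Agent.P209.Toric.Quant

/-!
# P209: total volume at most `2 ^ (-n)`
-/

namespace Vale.Agent.P209

open scoped ContDiff Topology

/-- Any family of balls of total volume at most `2 ^ (-n)` times the volume of the ball can be packed.
`packsI_quant` with `P = L = 1`; `r x ^ n ≤ ∑ ≤ (R / 2) ^ n` gives `r x ≤ R / 2 < R`. -/
theorem packsI_half (n : ℕ) (hn : 1 ≤ n) {κ : Type} [Fintype κ] (R : ℝ) (hR : 0 < R) (r : κ → ℝ)
    (hr : ∀ x, 0 < r x) (hvol : ∑ x, r x ^ n ≤ (R / 2) ^ n) : PacksI n r R := by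
  refine packsI_quant n 1 1 hn le_rfl le_rfl R hR r hr ?_ ?_
  · intro x
    have h1 : r x ^ n ≤ ∑ y, r y ^ n :=
      Finset.single_le_sum (f := fun y => r y ^ n) (fun y _ => pow_nonneg (hr y).le n)
        (Finset.mem_univ x)
    have h2 : r x ^ n ≤ (R / 2) ^ n := h1.trans hvol
    have h3 : r x ≤ R / 2 :=
      (pow_le_pow_iff_left₀ (hr x).le (by positivity) (by omega)).1 h2
    simp only [mul_one, Nat.cast_one, one_mul]
    linarith
  · simp only [Nat.cast_one, div_one, sub_self, zero_mul, add_zero]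
    have h1 : ((1 : ℝ) + 1) ^ n * ∑ x, r x ^ n ≤ ((1 : ℝ) + 1) ^ n * (R / 2) ^ n :=
      mul_le_mul_of_nonneg_left hvol (by positivity)
    have h2 : ((1 : ℝ) + 1) ^ n * (R / 2) ^ n = R ^ n := by
      rw [← mul_pow]
      congr 1
      ring
    exact le_trans h1 (le_of_eq h2)

end Vale.Agent.P209
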