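import Vale.Agent.P209.Toric.Asymp
import Vale.Agent.P209.Toric.Half

/-!
# P209: the results for families indexed by `Fin k`
-/

namespace Vale.Agent.P209

open scoped ContDiff Topology

theorem packs_chain (n k : ℕ) (hn : 1 ≤ n) (m : Fin k → ℕ) (hm : ∀ i, 1 ≤ m i)
    (hchain : ∀ i j, m i ∣ m j ∨ m j ∣ m i) (hsum : ∑ i, (1 : ℝ) / (m i : ℝ) ^ n ≤ 1)
    (R : ℝ) (r : Fin k → ℝ) (hr : ∀ i, 0 < r i) (h : ∀ i, (m i : ℝ) * r i < R) : Packs n r R :=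
  packsI_chain n hn m hm hchain hsum R r hr h

theorem packs_half (n k : ℕ) (hn : 1 ≤ n) (R : ℝ) (hR : 0 < R) (r : Fin k → ℝ)
    (hr : ∀ i, 0 < r i) (hvol : ∑ i, r i ^ n ≤ (R / 2) ^ n) : Packs n r R :=
  packsI_half n hn R hR r hr hvol

theorem packs_quant (n P L k : ℕ) (hn : 1 ≤ n) (hP : 1 ≤ P) (hL : 1 ≤ L) (R : ℝ) (hR : 0 < R)
    (r : Fin k → ℝ) (hr : ∀ i, 0 < r i) (hsmall : ∀ i, ((L * P : ℕ) : ℝ) * r i < R)
    (hvol : (1 + 1 / (P : ℝ)) ^ n * ∑ i, r i ^ n + ((P : ℝ) - 1) * (R / L) ^ n ≤ R ^ n) :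
    Packs n r R :=
  packsI_quant n P L hn hP hL R hR r hr hsmall hvol

theorem packs_cons_of_packsI {n k : ℕ} {a R : ℝ} {r : Fin k → ℝ}
    (h : PacksI n (Sum.elim (fun _ : Unit => a) r) R) :
    Packs n (Fin.cons a r : Fin (k + 1) → ℝ) R := by
  have hg : Function.Injective
      (Fin.cases (Sum.inl ()) Sum.inr : Fin (k + 1) → Unit ⊕ Fin k) := by
    intro i j
    refine Fin.cases ?_ (fun i' => ?_) i <;> refine Fin.cases ?_ (fun j' => ?_) j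
    · intro _
      rfl
    · intro h
      simp at h
    · intro h
      simp at h
    · intro h
      simp only [Fin.cases_succ, Sum.inr.injEq] at h
      rw [h]
  have h2 := h.reindex _ hg
  have h3 : (fun x : Fin (k + 1) => Sum.elim (fun _ : Unit => a) r
      ((Fin.cases (Sum.inl ()) Sum.inr : Fin (k + 1) → Unit ⊕ Fin k) x)) = Fin.cons a r := by
    funext x
    refine Fin.cases ?_ (fun i' => ?_) x
    · simp
    · simp
  rw [h3] at h2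
  exact h2

theorem packs_big_dust (n : ℕ) (hn : 1 ≤ n) (ε : ℝ) (hε : 0 < ε) :
    ∃ δ : ℝ, 0 < δ ∧ ∀ (k : ℕ) (R a : ℝ) (r : Fin k → ℝ), 0 ≤ a → a < R →
      (∀ i, 0 < r i) → (∀ i, r i ≤ δ * (R - a)) →
      ∑ i, r i ^ n ≤ (1 - ε) * (R ^ n - a ^ n) →
      Packs n (Fin.cons a r : Fin (k + 1) → ℝ) R := by
  obtain ⟨δ, hδ, h⟩ := exists_delta n hn ε hε
  exact ⟨δ, hδ, fun k R a r h1 h2 h3 h4 h5 => packs_cons_of_packsI (h (Fin k) R a r h1 h2 h3 h4 h5)⟩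

theorem packs_dust (n : ℕ) (hn : 1 ≤ n) (ε : ℝ) (hε : 0 < ε) :
    ∃ δ : ℝ, 0 < δ ∧ ∀ (k : ℕ) (R : ℝ) (r : Fin k → ℝ), 0 < R →
      (∀ i, 0 < r i) → (∀ i, r i ≤ δ * R) → ∑ i, r i ^ n ≤ (1 - ε) * R ^ n → Packs n r R := by
  obtain ⟨δ, hδ, h⟩ := exists_delta n hn ε hε
  refine ⟨δ, hδ, fun k R r h1 h3 h4 h5 => ?_⟩
  have h6 := h (Fin k) R 0 r le_rfl h1 h3 (by simpa using h4)
    (by
      rw [zero_pow (by omega), sub_zero]
      exact h5)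
  exact h6.reindex Sum.inr Sum.inr_injective

end Vale.Agent.P209
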