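import Vale.Agent.P209.Toric.AsympMulti
import Vale.Agent.P209.Toric.Final

/-!
# P209: the symmetric form of the asymptotic theorem, for families indexed by `Fin`
-/

namespace Vale.Agent.P209

open scoped ContDiff Topology

/-- transport of a packing to a family written with `Fin.append` -/
private theorem packs_append_of_packsI {n k₀ k : ℕ} {ι : Type} {F : ι → ℝ} {R : ℝ}
    (h : PacksI n F R) (u : Fin k₀ → ι) (v : Fin k → ι) (hu : Function.Injective u)
    (hv : Function.Injective v) (huv : ∀ i x, u i ≠ v x) (b : Fin k₀ → ℝ) (r : Fin k → ℝ)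
    (hb : ∀ i, F (u i) = b i) (hr : ∀ x, F (v x) = r x) :
    Packs n (Fin.append b r : Fin (k₀ + k) → ℝ) R := by
  have hg : Function.Injective
      (fun y : Fin (k₀ + k) => Fin.addCases (motive := fun _ => ι) u v y) := by
    intro y z
    refine Fin.addCases (fun i => ?_) (fun x => ?_) y <;>
      refine Fin.addCases (fun i' => ?_) (fun x' => ?_) z
    · intro h
      simp only [Fin.addCases_left] at h
      rw [hu h]
    · intro h
      simp only [Fin.addCases_left, Fin.addCases_right] at h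
      exact (huv _ _ h).elim
    · intro h
      simp only [Fin.addCases_left, Fin.addCases_right] at h
      exact (huv _ _ h.symm).elim
    · intro h
      simp only [Fin.addCases_right] at h
      rw [hv h]
  have h2 := h.reindex _ hg
  have h3 : (fun y : Fin (k₀ + k) => F (Fin.addCases (motive := fun _ => ι) u v y))
      = Fin.append b r := by
    funext y
    refine Fin.addCases (fun i => ?_) (fun x => ?_) y
    · simp only [Fin.addCases_left, Fin.append_left, hb]
    · simp only [Fin.addCases_right, Fin.append_right, hr]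
  rw [h3] at h2
  exact h2

/-- Take `δ = min δ₁ δ₂` with `δ₁` from `exists_delta` (used with `a = 0` when `k₀ = 0`:
`r x * R ^ (n-1) ≤ δ R ^ n` gives `r x ≤ δ R`) and `δ₂` from `exists_delta_multi`. If `k₀ ≥ 1` let `i0`
maximise `b`, `β = {i // i ≠ i0}`; `∑ i, b i ^ n = b i0 ^ n + ∑ j : β, b j ^ n`
(`Fintype.sum_eq_add_sum_subtype_ne` or `Finset.add_sum_erase`); `card β + 1 = k₀`. Conclude with
`PacksI.reindex` along the injective map `Fin (k₀ + k) → (Unit ⊕ β) ⊕ Fin k` defined with
`Fin.addCases`; `Fin.append_left`, `Fin.append_right`. -/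
theorem packs_multi (n : ℕ) (hn : 1 ≤ n) (ε : ℝ) (hε : 0 < ε) :
    ∃ δ : ℝ, 0 < δ ∧ ∀ (k₀ k : ℕ) (R : ℝ) (b : Fin k₀ → ℝ) (r : Fin k → ℝ),
      k₀ ≤ 2 ^ n → 0 < R → (∀ i, 0 < b i) → (∀ i, b i < R) → (∀ i j, i ≠ j → b i + b j < R) →
      (∀ x, 0 < r x) → (∀ x, r x * R ^ (n - 1) ≤ δ * (R ^ n - ∑ i, b i ^ n)) →
      ∑ x, r x ^ n ≤ (1 - ε) * (R ^ n - ∑ i, b i ^ n) →
      Packs n (Fin.append b r : Fin (k₀ + k) → ℝ) R := by
  classical
  obtain ⟨δ₁, hδ₁, H₁⟩ := exists_delta n hn ε hε
  obtain ⟨δ₂, hδ₂, H₂⟩ := exists_delta_multi n hn ε hε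
  refine ⟨min δ₁ δ₂, lt_min hδ₁ hδ₂, ?_⟩
  intro k₀ k R b r hk₀ hR hb hbR hbb hr hsm hvol
  have hRn : 0 < R ^ (n - 1) := pow_pos hR _
  have hVpos : ∀ x : Fin k, 0 < R ^ n - ∑ i, b i ^ n := by
    intro x
    have h1 : 0 < r x * R ^ (n - 1) := mul_pos (hr x) hRn
    have h2 := lt_of_lt_of_le h1 (hsm x)
    exact (pos_iff_pos_of_mul_pos h2).1 (lt_min hδ₁ hδ₂)
  rcases Nat.eq_zero_or_pos k₀ with h0 | h0
  · subst h0
    have hsum0 : ∑ i, b i ^ n = 0 := by simp
    rw [hsum0, sub_zero] at hvol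
    have h6 := H₁ (Fin k) R 0 r le_rfl hR hr
      (by
        intro x
        have h1 := hsm x
        rw [hsum0, sub_zero] at h1
        have h2 : R ^ n = R * R ^ (n - 1) := by
          rw [← pow_succ']
          congr 1
          omega
        rw [h2] at h1
        have h3 : r x * R ^ (n - 1) ≤ (δ₁ * R) * R ^ (n - 1) := by
          have h4 : min δ₁ δ₂ * (R * R ^ (n - 1)) ≤ δ₁ * (R * R ^ (n - 1)) :=
            mul_le_mul_of_nonneg_right (min_le_left _ _) (mul_pos hR hRn).le
          calc r x * R ^ (n - 1) ≤ min δ₁ δ₂ * (R * R ^ (n - 1)) := h1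
            _ ≤ δ₁ * (R * R ^ (n - 1)) := h4
            _ = (δ₁ * R) * R ^ (n - 1) := by ring
        have h5 := le_of_mul_le_mul_right h3 hRn
        simpa using h5)
      (by
        rw [zero_pow (by omega), sub_zero]
        exact hvol)
    exact packs_append_of_packsI h6 (fun i => i.elim0) Sum.inr (fun i => i.elim0)
      Sum.inr_injective (fun i => i.elim0) b r (fun i => i.elim0) (fun x => rfl)
  · have : Nonempty (Fin k₀) := ⟨⟨0, h0⟩⟩
    obtain ⟨i0, hi0⟩ := Finite.exists_max b
    have hsplit : ∑ i, b i ^ n = b i0 ^ n + ∑ j : {i // i ≠ i0}, b j.1 ^ n :=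
      Fintype.sum_eq_add_sum_subtype_ne (fun i => b i ^ n) i0
    have hVeq : R ^ n - ∑ i, b i ^ n
        = R ^ n - b i0 ^ n - ∑ j : {i // i ≠ i0}, b j.1 ^ n := by
      rw [hsplit]; ring
    have hcard : Fintype.card {i // i ≠ i0} + 1 ≤ 2 ^ n := by
      have h1 : Fintype.card {i // i ≠ i0} = k₀ - 1 := by
        rw [Fintype.card_subtype_compl, Fintype.card_fin]
        simp
      omega
    have h6 := H₂ {i // i ≠ i0} (Fin k) R (b i0) (fun j => b j.1) r hcard (hb i0) (hbR i0)
      (fun j => hb j.1) (fun j => hi0 j.1) (fun j => hbb i0 j.1 (fun h => j.2 h.symm)) hr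
      (by
        intro x
        have h1 := hsm x
        have h2 := hVpos x
        rw [hVeq] at h1 h2
        exact le_trans h1 (mul_le_mul_of_nonneg_right (min_le_right _ _) h2.le))
      (by rw [← hVeq]; exact hvol)
    refine packs_append_of_packsI h6
      (fun i => if h : i = i0 then Sum.inl (Sum.inl ()) else Sum.inl (Sum.inr ⟨i, h⟩))
      Sum.inr ?_ Sum.inr_injective ?_ b r ?_ (fun x => rfl)
    · intro i j hij
      by_cases hi : i = i0 <;> by_cases hj : j = i0
      · rw [hi, hj]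
      · simp [hi, hj] at hij
      · simp [hi, hj] at hij
      · simpa [hi, hj] using hij
    · intro i x
      by_cases hi : i = i0 <;> simp [hi]
    · intro i
      by_cases hi : i = i0
      · simp [hi]
      · simp [hi]

end Vale.Agent.P209
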