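import Vale.Agent.P209.Toric.Emb

/-!
# P209: the first action coordinate of the image of the embedding
-/

namespace Vale.Agent.P209

open scoped ContDiff Topology

/-- the first index in the sorted order carries the least value of `c` (compare `le_c_srt_last`) -/
theorem c_srt_zero_le {n : ℕ} (c : Fin (n + 1) → ℕ) (i : Fin (n + 1)) : c (srt c 0) ≤ c i := by
  have h1 := (key_srt_strictMono c).monotone (Fin.zero_le ((srt c).symm i))
  simp only [Equiv.apply_symm_apply] at h1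
  by_contra hcon
  have h2 := (key_lt_iff c i (srt c 0)).mpr (Or.inl (not_le.mp hcon))
  omega

/-- compare the proof of `cap_emb`: `π ‖emb … z j‖ ^ 2 = (pre … z j).re` by `pi_mul_norm_Pol_sq` and
`pre_mem_HP`; then `Bmap_re` at `l = 0` and `shuf_re`. -/
theorem first_emb {n : ℕ} {e ρ sh : ℝ} (he : 0 < e) (hsh : 0 ≤ sh) (c : Fin (n + 1) → ℕ)
    {z : Fin (n + 1) → ℂ} (hz : z ∈ Udom e ρ) :
    Real.pi * ‖emb e ρ sh c z 0‖ ^ 2 = tval e z (srt c 0) + ρ * (c (srt c 0) : ℝ) + sh := by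
  have h1 : Real.pi * ‖emb e ρ sh c z 0‖ ^ 2 = (pre e ρ sh c z 0).re :=
    pi_mul_norm_Pol_sq (pre_mem_HP he hsh c hz 0)
  rw [h1]
  unfold pre
  rw [Bmap_re, shuf_re]
  simp

theorem lt_first_emb {n m : ℕ} {e ρ sh : ℝ} (he : 0 < e) (hsh : 0 ≤ sh) (c : Fin (n + 1) → ℕ)
    (hc : ∀ i, m ≤ c i) {z : Fin (n + 1) → ℂ} (hz : z ∈ Udom e ρ) :
    (m : ℝ) * ρ + sh < Real.pi * ‖emb e ρ sh c z 0‖ ^ 2 := by
  rw [first_emb he hsh c hz]
  have h0 := tval_pos he z (srt c 0)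
  have h1 := tval_lt he hz (srt c 0)
  have hρ : 0 < ρ := lt_trans h0 h1
  have h3 : (m : ℝ) ≤ c (srt c 0) := by exact_mod_cast hc (srt c 0)
  have h4 : ρ * (m : ℝ) ≤ ρ * c (srt c 0) := mul_le_mul_of_nonneg_left h3 hρ.le
  nlinarith

theorem first_emb_lt {n m : ℕ} {e ρ sh : ℝ} (he : 0 < e) (hsh : 0 ≤ sh) (c : Fin (n + 1) → ℕ)
    (hc : ∃ i, c i + 1 ≤ m) {z : Fin (n + 1) → ℂ} (hz : z ∈ Udom e ρ) :
    Real.pi * ‖emb e ρ sh c z 0‖ ^ 2 < (m : ℝ) * ρ + sh := by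
  rw [first_emb he hsh c hz]
  obtain ⟨i, hi⟩ := hc
  have h0 := tval_pos he z (srt c 0)
  have h1 := tval_lt he hz (srt c 0)
  have hρ : 0 < ρ := lt_trans h0 h1
  have h2 : c (srt c 0) + 1 ≤ m := le_trans (Nat.succ_le_succ (c_srt_zero_le c i)) hi
  have h3 : ((c (srt c 0) : ℝ) + 1) ≤ m := by exact_mod_cast h2
  have h4 : ρ * ((c (srt c 0) : ℝ) + 1) ≤ ρ * m := mul_le_mul_of_nonneg_left h3 hρ.le
  nlinarith

end Vale.Agent.P209
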