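import Vale.Agent.P209.Toric.EmbInj
import Vale.Agent.P209.Toric.Count

/-!
# P209: toric packings
-/

namespace Vale.Agent.P209

open scoped ContDiff Topology

theorem isSympEmb_id {n : ℕ} (r : ℝ) : IsSympEmb (n := n) r (fun z => z) := by
  refine ⟨Set.univ, isOpen_univ, Set.subset_univ _, contDiff_id.contDiffOn,
    Function.injective_id.injOn, ?_⟩
  intro z _ u v
  exact (sympAt_id z).2 u v

theorem cBall_mono {n : ℕ} {r r' : ℝ} (h : r ≤ r') : cBall n r ⊆ cBall n r' :=
  fun _ hz => le_trans hz h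

theorem isSympEmb_emb {n : ℕ} (hn : 1 ≤ n) {e ρ sh r : ℝ} (he : 0 < e) (hsh : 0 ≤ sh)
    (h : r + n * (Real.pi * e) ≤ ρ) (c : Fin n → ℕ) : IsSympEmb r (emb e ρ sh c) :=
  ⟨Udom e ρ, isOpen_Udom he ρ, cBall_subset_Udom he h hn, emb_contDiffOn he hsh c,
    emb_injOn he hsh c, fun _ hz u v => (emb_sympAt he hsh c hz).2 u v⟩

/-- Core statement: one ball `i0` placed at the centre, the others in distinct alcoves of the outer
layer of the grid of mesh slightly larger than `ρ`. -/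
theorem packs_core (n m k : ℕ) (hn : 1 ≤ n) (hm : 1 ≤ m) (R ρ : ℝ) (r : Fin k → ℝ) (i0 : Fin k)
    (code : Fin k → Fin n → ℕ)
    (hinj : ∀ i j, i ≠ i0 → j ≠ i0 → code i = code j → i = j)
    (hc1 : ∀ i l, code i l + 1 ≤ m) (hc2 : ∀ i, i ≠ i0 → ∃ l, code i l + 1 = m)
    (hρ : ∀ i, i ≠ i0 → r i ≤ ρ) (h1 : ((m : ℝ) - 1) * ρ ≤ r i0) (h2 : r i0 + ρ < R)
    (hρ0 : 0 < ρ) : Packs n r R := by
  obtain ⟨n, rfl⟩ : ∃ n', n = n' + 1 := ⟨n - 1, by omega⟩
  set a := r i0 with ha
  have hm0 : (0 : ℝ) < (m : ℝ) + 1 := by positivity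
  set δ : ℝ := (R - a - ρ) / ((m : ℝ) + 1) with hδ
  have hδ0 : 0 < δ := div_pos (by linarith) hm0
  have hδm : (m : ℝ) * δ < R - a - ρ := by
    have h3 : ((m : ℝ) + 1) * δ = R - a - ρ := by
      rw [hδ]
      field_simp
    nlinarith
  set ρ' : ℝ := ρ + δ with hρ'
  have hn0 : (0 : ℝ) < ((n + 1 : ℕ) : ℝ) := by positivity
  set e : ℝ := δ / (((n + 1 : ℕ) : ℝ) * Real.pi) with he'
  have he : 0 < e := div_pos hδ0 (mul_pos hn0 Real.pi_pos)
  have hne : ((n + 1 : ℕ) : ℝ) * (Real.pi * e) = δ := by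
    rw [he']
    field_simp
  set sh : ℝ := a - ((m : ℝ) - 1) * ρ with hsh'
  have hsh : 0 ≤ sh := by linarith
  have hm1 : (0 : ℝ) ≤ (m : ℝ) - 1 := by
    have : (1 : ℝ) ≤ (m : ℝ) := by exact_mod_cast hm
    linarith
  have hsub : ∀ i, i ≠ i0 → cBall (n + 1) (r i) ⊆ Udom e ρ' := by
    intro i hi
    apply cBall_subset_Udom he _ (by omega)
    rw [hne, hρ']
    linarith [hρ i hi]
  refine ⟨fun i => if i = i0 then (fun z => z) else emb e ρ' sh (code i), ?_, ?_, ?_⟩
  · intro i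
    by_cases hi : i = i0
    · simp only [hi, if_true]
      exact isSympEmb_id _
    · simp only [hi, if_false]
      apply isSympEmb_emb (by omega) he hsh _ (code i)
      rw [hne, hρ']
      linarith [hρ i hi]
  · intro i
    by_cases hi : i = i0
    · simp only [hi, if_true]
      rintro _ ⟨z, hz, rfl⟩
      have hz' : cap z ≤ a := hz
      show cap z < R
      linarith
    · simp only [hi, if_false]
      rintro _ ⟨z, hz, rfl⟩
      have h3 := cap_emb_lt (m := m) he hsh (code i) (hc1 i) (hsub i hi hz)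
      show cap _ < R
      have h4 : (m : ℝ) * ρ' + sh = a + ρ + (m : ℝ) * δ := by
        rw [hρ', hsh']
        ring
      linarith
  · intro i j hij
    rw [Set.disjoint_left]
    have hlow : ∀ i, i ≠ i0 → ∀ z ∈ cBall (n + 1) (r i), a < cap (emb e ρ' sh (code i) z) := by
      intro i hi z hz
      have h3 := lt_cap_emb (m := m) he hsh (code i) (hc2 i hi) (hsub i hi hz)
      have h4 : ((m : ℝ) - 1) * ρ' + sh = a + ((m : ℝ) - 1) * δ := by
        rw [hρ', hsh']
        ring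
      have h5 : 0 ≤ ((m : ℝ) - 1) * δ := mul_nonneg hm1 hδ0.le
      linarith
    by_cases hi : i = i0
    · have hj : j ≠ i0 := fun h => hij (hi.trans h.symm)
      simp only [hi, hj, if_true, if_false]
      rintro _ ⟨z, hz, rfl⟩ ⟨z', hz', h⟩
      have h3 := hlow j hj z' hz'
      have hz2 : cap z ≤ a := hz
      simp only at h
      rw [h] at h3
      linarith
    · by_cases hj : j = i0
      · simp only [hi, hj, if_true, if_false]
        rintro _ ⟨z, hz, rfl⟩ ⟨z', hz', h⟩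
        have h3 := hlow i hi z hz
        have hz2 : cap z' ≤ a := hz'
        simp only at h
        rw [← h] at h3
        linarith
      · simp only [hi, hj, if_false]
        rintro _ ⟨z, hz, rfl⟩ ⟨z', hz', h⟩
        have hcc : code j ≠ code i := fun hc => hij (hinj j i hj hi hc).symm
        exact emb_ne he hsh hcc (hsub j hj hz') (hsub i hi hz) h

/-- One large ball and many small ones: if `(m - 1) r_i ≤ r_{i0}` and `r_{i0} + r_i < R` for all
`i ≠ i0`, and the number of small balls is at most `m^n - (m-1)^n`, then the balls can be packed. -/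
theorem packs_big_small (n m k : ℕ) (hn : 1 ≤ n) (hm : 1 ≤ m) (R : ℝ) (r : Fin k → ℝ)
    (hr : ∀ i, 0 < r i) (i0 : Fin k) (hk : k ≤ m ^ n - (m - 1) ^ n + 1) (h0 : r i0 < R)
    (h1 : ∀ i, i ≠ i0 → ((m : ℝ) - 1) * r i ≤ r i0) (h2 : ∀ i, i ≠ i0 → r i0 + r i < R) :
    Packs n r R := by
  classical
  have hcard : Fintype.card {i : Fin k // i ≠ i0} ≤ m ^ n - (m - 1) ^ n := by
    rw [Fintype.card_subtype_compl, Fintype.card_fin, Fintype.card_subtype_eq]
    omega
  obtain ⟨code, hinj, hc1, hc2⟩ := exists_codes n m {i : Fin k // i ≠ i0} hcard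
  have hm1 : (0 : ℝ) ≤ (m : ℝ) - 1 := by
    have : (1 : ℝ) ≤ (m : ℝ) := by exact_mod_cast hm
    linarith
  -- the common size of the small balls
  obtain ⟨ρ, hρ0, hρ, hρ1, hρ2⟩ : ∃ ρ : ℝ, 0 < ρ ∧ (∀ i, i ≠ i0 → r i ≤ ρ) ∧
      ((m : ℝ) - 1) * ρ ≤ r i0 ∧ r i0 + ρ < R := by
    by_cases hne : (Finset.univ.erase i0).Nonempty
    · obtain ⟨i1, hi1, hmax⟩ := Finset.exists_max_image (Finset.univ.erase i0) r hne
      have hi1' : i1 ≠ i0 := Finset.ne_of_mem_erase hi1
      exact ⟨r i1, hr i1, fun i hi => hmax i (Finset.mem_erase.mpr ⟨hi, Finset.mem_univ _⟩),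
        h1 i1 hi1', h2 i1 hi1'⟩
    · have hall : ∀ i, i ≠ i0 → False := fun i hi =>
        hne ⟨i, Finset.mem_erase.mpr ⟨hi, Finset.mem_univ _⟩⟩
      have hmpos : (0 : ℝ) < (m : ℝ) := by exact_mod_cast hm
      refine ⟨min (r i0 / m) ((R - r i0) / 2), lt_min (div_pos (hr i0) hmpos) (by linarith),
        fun i hi => (hall i hi).elim, ?_, ?_⟩
      · have h3 : min (r i0 / m) ((R - r i0) / 2) ≤ r i0 / m := min_le_left _ _
        have h4 : ((m : ℝ) - 1) * (r i0 / m) ≤ r i0 := by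
          rw [← mul_div_assoc, div_le_iff₀ hmpos]
          nlinarith [hr i0]
        exact (mul_le_mul_of_nonneg_left h3 hm1).trans h4
      · have h3 : min (r i0 / m) ((R - r i0) / 2) ≤ (R - r i0) / 2 := min_le_right _ _
        linarith
  refine packs_core n m k hn hm R ρ r i0
    (fun i => if h : i ≠ i0 then code ⟨i, h⟩ else fun _ => 0) ?_ ?_ ?_ hρ hρ1 hρ2 hρ0
  · intro i j hi hj h
    simp only [hi, hj, ne_eq, not_false_eq_true, dite_true] at h
    have := hinj h
    exact congrArg Subtype.val this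
  · intro i l
    by_cases hi : i ≠ i0
    · simp only [hi, ne_eq, not_false_eq_true, dite_true]
      exact hc1 _ l
    · simp only [hi, dite_false]
      omega
  · intro i hi
    simp only [hi, ne_eq, not_false_eq_true, dite_true]
    exact hc2 _

/-- The sufficiency part of Conjecture A for at most `2^n` balls. -/
theorem packs_of_le_two_pow (n k : ℕ) (hn : 1 ≤ n) (hk : k ≤ 2 ^ n) (R : ℝ) (r : Fin k → ℝ)
    (hr : ∀ i, 0 < r i) (hlt : ∀ i, r i < R) (hpair : ∀ i j, i ≠ j → r i + r j < R) :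
    Packs n r R := by
  classical
  by_cases hk0 : k = 0
  · subst hk0
    exact ⟨fun i => i.elim0, fun i => i.elim0, fun i => i.elim0, fun i => i.elim0⟩
  have hne : (Finset.univ : Finset (Fin k)).Nonempty := ⟨⟨0, by omega⟩, Finset.mem_univ _⟩
  obtain ⟨i0, _, hmax⟩ := Finset.exists_max_image Finset.univ r hne
  refine packs_big_small n 2 k hn (by norm_num) R r hr i0 ?_ (hlt i0) ?_ ?_
  · have : 1 ≤ 2 ^ n := Nat.one_le_two_pow
    simp only [Nat.add_one_sub_one, one_pow]
    omega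
  · intro i _
    have := hmax i (Finset.mem_univ _)
    norm_num
    exact this
  · intro i hi
    exact hpair i0 i (Ne.symm hi)

end Vale.Agent.P209
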