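import Vale.Agent.P209.Toric.Main

/-!
# P209: packings indexed by arbitrary types; substitution of packings into packings
-/

namespace Vale.Agent.P209

open scoped ContDiff Topology

/-- The same as `Packs`, for a family of capacities indexed by an arbitrary type. -/
def PacksI (n : ℕ) {ι : Type} (r : ι → ℝ) (R : ℝ) : Prop :=
  ∃ f : ι → (Fin n → ℂ) → (Fin n → ℂ), (∀ i, IsSympEmb (r i) (f i)) ∧
    (∀ i, f i '' cBall n (r i) ⊆ oBall n R) ∧
    ∀ i j, i ≠ j → Disjoint (f i '' cBall n (r i)) (f j '' cBall n (r j))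

theorem packs_iff_packsI {n k : ℕ} (r : Fin k → ℝ) (R : ℝ) : Packs n r R ↔ PacksI n r R :=
  Iff.rfl

theorem continuous_cap (n : ℕ) : Continuous (cap (n := n)) := by
  show Continuous fun z : Fin n → ℂ => Real.pi * ∑ j, ‖z j‖ ^ 2
  fun_prop

theorem isOpen_oBall (n : ℕ) (R : ℝ) : IsOpen (oBall n R) :=
  isOpen_lt (continuous_cap n) continuous_const

theorem oBall_subset_cBall (n : ℕ) (R : ℝ) : oBall n R ⊆ cBall n R := by
  intro z hz
  have hz' : cap z < R := hz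
  exact hz'.le

theorem IsSympEmb.mono {n : ℕ} {r r' : ℝ} {f : (Fin n → ℂ) → (Fin n → ℂ)} (h : IsSympEmb r f)
    (hr : r' ≤ r) : IsSympEmb r' f := by
  obtain ⟨U, h1, h2, h3⟩ := h
  exact ⟨U, h1, (cBall_mono hr).trans h2, h3⟩

/-- Composition. If `U`, `V` are the open sets for `f`, `g`, use `V ∩ g ⁻¹' (oBall n ρ)`, which is
open because `g` is continuous on the open set `V`; chain rule for `fderiv`. -/
theorem IsSympEmb.comp {n : ℕ} {ρ r : ℝ} {f g : (Fin n → ℂ) → (Fin n → ℂ)} (hf : IsSympEmb ρ f)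
    (hg : IsSympEmb r g) (hgi : g '' cBall n r ⊆ oBall n ρ) : IsSympEmb r (fun z => f (g z)) := by
  obtain ⟨U, hUo, hUb, hfs, hfi, hfω⟩ := hf
  obtain ⟨V, hVo, hVb, hgs, hgj, hgω⟩ := hg
  have hmap : ∀ z ∈ V ∩ g ⁻¹' (oBall n ρ), g z ∈ U :=
    fun z hz => hUb (oBall_subset_cBall n ρ hz.2)
  refine ⟨V ∩ g ⁻¹' (oBall n ρ), hgs.continuousOn.isOpen_inter_preimage hVo (isOpen_oBall n ρ),
    fun z hz => ⟨hVb hz, hgi ⟨z, hz, rfl⟩⟩,
    hfs.comp (hgs.mono Set.inter_subset_left) hmap, ?_, ?_⟩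
  · intro z hz z' hz' h
    exact hgj hz.1 hz'.1 (hfi (hmap z hz) (hmap z' hz') h)
  · intro z hz u v
    have hdf : DifferentiableAt ℝ f (g z) :=
      (hfs.contDiffAt (hUo.mem_nhds (hmap z hz))).differentiableAt (by simp)
    have hdg : DifferentiableAt ℝ g z :=
      (hgs.contDiffAt (hVo.mem_nhds hz.1)).differentiableAt (by simp)
    have hc : fderiv ℝ (fun z => f (g z)) z = (fderiv ℝ f (g z)).comp (fderiv ℝ g z) :=
      fderiv_comp z hdf hdg
    rw [hc]
    simp only [ContinuousLinearMap.comp_apply]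
    rw [hfω (g z) (hmap z hz), hgω z hz.1]

theorem PacksI.mono {n : ℕ} {ι : Type} {r r' : ι → ℝ} {R R' : ℝ} (h : PacksI n r R)
    (hr : ∀ i, r' i ≤ r i) (hR : R ≤ R') : PacksI n r' R' := by
  obtain ⟨f, h1, h2, h3⟩ := h
  refine ⟨f, fun i => (h1 i).mono (hr i), ?_, ?_⟩
  · intro i w hw
    have hw' : cap w < R := h2 i (Set.image_mono (cBall_mono (hr i)) hw)
    exact lt_of_lt_of_le hw' hR
  · intro i j hij
    exact (h3 i j hij).mono (Set.image_mono (cBall_mono (hr i)))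
      (Set.image_mono (cBall_mono (hr j)))

theorem PacksI.reindex {n : ℕ} {ι κ : Type} {r : ι → ℝ} {R : ℝ} (h : PacksI n r R) (g : κ → ι)
    (hg : Function.Injective g) : PacksI n (fun x => r (g x)) R := by
  obtain ⟨f, h1, h2, h3⟩ := h
  exact ⟨fun x => f (g x), fun x => h1 (g x), fun x => h2 (g x),
    fun x y hxy => h3 (g x) (g y) (fun h => hxy (hg h))⟩

theorem packsI_of_subsingleton (n : ℕ) {ι : Type} [Subsingleton ι] (r : ι → ℝ) (R : ℝ)
    (h : ∀ i, r i < R) : PacksI n r R := by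
  refine ⟨fun _ z => z, fun i => isSympEmb_id _, ?_, ?_⟩
  · rintro i _ ⟨z, hz, rfl⟩
    have hz' : cap z ≤ r i := hz
    exact lt_of_le_of_lt hz' (h i)
  · intro i j hij
    exact absurd (Subsingleton.elim i j) hij

end Vale.Agent.P209
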