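import Vale.Agent.P209.Toric.QMap

/-!
# P209: `Q_e` is a bijection from the right half plane onto the plane (`e > 0`)
-/

namespace Vale.Agent.P209

open scoped ContDiff Topology

private theorem norm_exp_sub_exp_le (a b : ℝ) :
    ‖Complex.exp ((a : ℂ) * Complex.I) - Complex.exp ((b : ℂ) * Complex.I)‖ ≤ |a - b| := by
  have e1 : Complex.exp ((a : ℂ) * Complex.I) - Complex.exp ((b : ℂ) * Complex.I)
      = Complex.exp ((b : ℂ) * Complex.I) * (Complex.exp (Complex.I * ((a - b : ℝ) : ℂ)) - 1) := by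
    rw [mul_sub, ← Complex.exp_add, mul_one]
    congr 2
    push_cast
    ring
  rw [e1, norm_mul, Complex.norm_exp_ofReal_mul_I, one_mul]
  exact Real.norm_exp_I_mul_ofReal_sub_one_le

private theorem two_mul_re_mul_sfun (e : ℝ) {P : ℂ} (hP : P ∈ HP) :
    2 * P.re * sfun e P = P.re ^ 2 + P.im ^ 2 + e := by
  have hx : 0 < P.re := hP
  unfold sfun
  field_simp

private theorem norm_sub_sq (P : ℂ) (s : ℝ) : ‖P - (s : ℂ)‖ ^ 2 = (P.re - s) ^ 2 + P.im ^ 2 := by
  rw [Complex.sq_norm, Complex.normSq_apply]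
  simp
  ring

theorem Qmap_norm_sq {e : ℝ} (he : 0 ≤ e) {P : ℂ} (hP : P ∈ HP) :
    ‖Qmap e P‖ ^ 2 = sfun e P ^ 2 - e := by
  unfold Qmap
  rw [norm_mul, Complex.norm_exp_ofReal_mul_I, mul_one, norm_sub_sq]
  have h := two_mul_re_mul_sfun e hP
  nlinarith

/-- Injectivity. If `Q P = Q P'` then `s = s'` by `Qmap_norm_sq`; with `u = P - s`, `u' = P' - s`,
`δ = (Im u' - Im u) / s` one has `u = u' exp (i δ)`, so
`|u - u'| ≤ |u'| |δ| ≤ (√(s^2 - e) / s) |u - u'|`, which forces `u = u'`. -/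
theorem Qmap_injOn {e : ℝ} (he : 0 < e) : Set.InjOn (Qmap e) HP := by
  intro P hP P' hP' hQ
  have hs : 0 < sfun e P := sfun_pos he.le hP
  have hs' : 0 < sfun e P' := sfun_pos he.le hP'
  have n1 := Qmap_norm_sq he.le hP
  have n2 := Qmap_norm_sq he.le hP'
  have hss : sfun e P = sfun e P' := by
    have h2 : sfun e P ^ 2 = sfun e P' ^ 2 := by
      rw [hQ] at n1; linarith
    exact (pow_left_inj₀ hs.le hs'.le (by norm_num)).1 h2
  obtain ⟨s, hsdef⟩ : ∃ s, s = sfun e P := ⟨_, rfl⟩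
  have hsP' : sfun e P' = s := by rw [hsdef, hss]
  have hs0 : 0 < s := by rw [hsdef]; exact hs
  unfold Qmap at hQ n2
  rw [← hsdef] at hQ
  rw [hsP'] at hQ n2
  rw [norm_mul, Complex.norm_exp_ofReal_mul_I, mul_one] at n2
  -- `|u'| < s`
  have hu' : ‖P' - (s : ℂ)‖ < s := by
    have : ‖P' - (s : ℂ)‖ ^ 2 < s ^ 2 := by rw [n2]; linarith
    exact lt_of_pow_lt_pow_left₀ 2 hs0.le this
  -- `u - u' = u' (exp(i δ') - exp(i δ)) exp(-i δ)`
  have hne : Complex.exp (((P.im / s : ℝ) : ℂ) * Complex.I) ≠ 0 := Complex.exp_ne_zero _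
  have key : (P - (s : ℂ) - (P' - (s : ℂ))) * Complex.exp (((P.im / s : ℝ) : ℂ) * Complex.I)
      = (P' - (s : ℂ)) * (Complex.exp (((P'.im / s : ℝ) : ℂ) * Complex.I)
          - Complex.exp (((P.im / s : ℝ) : ℂ) * Complex.I)) := by
    rw [sub_mul, hQ]; ring
  have hnorm := congrArg norm key
  rw [norm_mul, norm_mul, Complex.norm_exp_ofReal_mul_I, mul_one] at hnorm
  have hle := norm_exp_sub_exp_le (P'.im / s) (P.im / s)
  have hδ : |P'.im / s - P.im / s| ≤ ‖P - (s : ℂ) - (P' - (s : ℂ))‖ / s := by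
    have e1 : P'.im / s - P.im / s = (P'.im - P.im) / s := by ring
    rw [e1, abs_div, abs_of_pos hs0]
    apply div_le_div_of_nonneg_right _ hs0.le
    have e2 : P - (s : ℂ) - (P' - (s : ℂ)) = P - P' := by ring
    rw [e2]
    have := Complex.abs_im_le_norm (P - P')
    rw [Complex.sub_im] at this
    rw [abs_sub_comm]
    exact this
  obtain ⟨t, ht⟩ : ∃ t, t = ‖P - (s : ℂ) - (P' - (s : ℂ))‖ := ⟨_, rfl⟩
  rw [← ht] at hnorm hδ
  have ht0 : 0 ≤ t := by rw [ht]; exact norm_nonneg _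
  have hfin : t ≤ ‖P' - (s : ℂ)‖ * (t / s) := by
    refine le_trans (le_of_eq hnorm) ?_
    exact mul_le_mul_of_nonneg_left (hle.trans hδ) (norm_nonneg _)
  have htz : t = 0 := by
    by_contra hne0
    have htpos : 0 < t := lt_of_le_of_ne ht0 (Ne.symm hne0)
    have h1 : ‖P' - (s : ℂ)‖ * (t / s) < s * (t / s) :=
      mul_lt_mul_of_pos_right hu' (div_pos htpos hs0)
    have h2 : s * (t / s) = t := by field_simp
    linarith
  rw [ht, norm_eq_zero] at htz
  have : P - P' = 0 := by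
    have e2 : P - (s : ℂ) - (P' - (s : ℂ)) = P - P' := by ring
    rw [← e2]; exact htz
  exact sub_eq_zero.1 this

/-- Surjectivity. Given `z` put `s = √(|z|^2 + e)`; the map `u ↦ z exp (- i Im u / s)` is a
contraction of `ℂ` (constant `|z| / s < 1`); for its fixed point `u` the point `P = u + s` lies in the
half plane, `sfun e P = s` and `Q P = z`. -/
theorem Qmap_surj {e : ℝ} (he : 0 < e) (z : ℂ) : ∃ P ∈ HP, Qmap e P = z := by
  obtain ⟨s, hsdef⟩ : ∃ s, s = Real.sqrt (‖z‖ ^ 2 + e) := ⟨_, rfl⟩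
  have hpos : 0 < ‖z‖ ^ 2 + e := by positivity
  have hs0 : 0 < s := by rw [hsdef]; exact Real.sqrt_pos.2 hpos
  have hs2 : s ^ 2 = ‖z‖ ^ 2 + e := by rw [hsdef]; exact Real.sq_sqrt hpos.le
  have hzs : ‖z‖ < s := by
    have : ‖z‖ ^ 2 < s ^ 2 := by rw [hs2]; linarith
    exact lt_of_pow_lt_pow_left₀ 2 hs0.le this
  obtain ⟨F, hF⟩ : ∃ F : ℂ → ℂ, F = fun u => z * Complex.exp (((-(u.im / s) : ℝ) : ℂ) * Complex.I) :=
    ⟨_, rfl⟩
  have hK0 : 0 ≤ ‖z‖ / s := div_nonneg (norm_nonneg _) hs0.le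
  have hK1 : ‖z‖ / s < 1 := by rw [div_lt_one hs0]; exact hzs
  have hlip : LipschitzWith (Real.toNNReal (‖z‖ / s)) F := by
    apply LipschitzWith.of_dist_le_mul
    intro u v
    rw [Real.coe_toNNReal _ hK0, dist_eq_norm, dist_eq_norm, hF]
    simp only
    rw [← mul_sub, norm_mul]
    have h1 := norm_exp_sub_exp_le (-(u.im / s)) (-(v.im / s))
    have h2 : |(-(u.im / s)) - (-(v.im / s))| ≤ ‖u - v‖ / s := by
      have e1 : (-(u.im / s)) - (-(v.im / s)) = (v.im - u.im) / s := by ring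
      rw [e1, abs_div, abs_of_pos hs0]
      apply div_le_div_of_nonneg_right _ hs0.le
      have := Complex.abs_im_le_norm (u - v)
      rw [Complex.sub_im] at this
      rw [abs_sub_comm]
      exact this
    calc ‖z‖ * ‖Complex.exp (((-(u.im / s) : ℝ) : ℂ) * Complex.I)
            - Complex.exp (((-(v.im / s) : ℝ) : ℂ) * Complex.I)‖
        ≤ ‖z‖ * (‖u - v‖ / s) := mul_le_mul_of_nonneg_left (h1.trans h2) (norm_nonneg _)
      _ = ‖z‖ / s * ‖u - v‖ := by ring
  have hcontr : ContractingWith (Real.toNNReal (‖z‖ / s)) F := by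
    refine ⟨?_, hlip⟩
    rw [← NNReal.coe_lt_coe, Real.coe_toNNReal _ hK0]
    exact_mod_cast hK1
  obtain ⟨u, hu⟩ : ∃ u, F u = u := ⟨_, hcontr.fixedPoint_isFixedPt⟩
  rw [hF] at hu
  simp only at hu
  have hnu : ‖u‖ = ‖z‖ := by
    rw [← hu, norm_mul, Complex.norm_exp_ofReal_mul_I, mul_one]
  have hre : -‖z‖ ≤ u.re := by
    have := Complex.abs_re_le_norm u
    rw [hnu] at this
    exact (abs_le.1 this).1
  have hPre : (u + (s : ℂ)).re = u.re + s := by simp
  have hPim : (u + (s : ℂ)).im = u.im := by simp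
  have hPHP : u + (s : ℂ) ∈ HP := by
    change 0 < (u + (s : ℂ)).re
    rw [hPre]; linarith
  have hnu2 : u.re ^ 2 + u.im ^ 2 = ‖z‖ ^ 2 := by
    rw [← hnu, Complex.sq_norm, Complex.normSq_apply]; ring
  have hsf : sfun e (u + (s : ℂ)) = s := by
    unfold sfun
    rw [hPre, hPim]
    have hden : 0 < u.re + s := by linarith
    rw [div_eq_iff (by positivity)]
    nlinarith
  refine ⟨u + (s : ℂ), hPHP, ?_⟩
  unfold Qmap
  rw [hsf, hPim, add_sub_cancel_right]
  nth_rewrite 1 [← hu]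
  rw [mul_assoc, ← Complex.exp_add]
  have : ((-(u.im / s) : ℝ) : ℂ) * Complex.I + ((u.im / s : ℝ) : ℂ) * Complex.I = 0 := by
    push_cast; ring
  rw [this, Complex.exp_zero, mul_one]

end Vale.Agent.P209
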