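import Vale.Agent.P209.Toric.QBij

/-!
# P209: the inverse of `Q_e`
-/

namespace Vale.Agent.P209

open scoped ContDiff Topology

/-- the inverse of `Q_e : HP → ℂ` -/
noncomputable def qinv (e : ℝ) : ℂ → ℂ := Function.invFunOn (Qmap e) HP

theorem qinv_mem {e : ℝ} (he : 0 < e) (z : ℂ) : qinv e z ∈ HP := by
  obtain ⟨P, hP, h⟩ := Qmap_surj he z
  exact Function.invFunOn_mem ⟨P, hP, h⟩

theorem Qmap_qinv {e : ℝ} (he : 0 < e) (z : ℂ) : Qmap e (qinv e z) = z := by
  obtain ⟨P, hP, h⟩ := Qmap_surj he z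
  exact Function.invFunOn_eq ⟨P, hP, h⟩

theorem qinv_injective {e : ℝ} (he : 0 < e) : Function.Injective (qinv e) := by
  intro a b h
  rw [← Qmap_qinv he a, h, Qmap_qinv he b]

/-- Smoothness of the inverse, by the inverse function theorem: near `z₀ = Q P₀` the map `qinv e`
coincides with the local inverse of `Q_e` at `P₀` (by injectivity of `Q_e` on the open set `HP`); the
derivative of `Q_e` is invertible because it preserves the area form. -/
theorem qinv_contDiff {e : ℝ} (he : 0 < e) : ContDiff ℝ ∞ (qinv e) := by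
  rw [contDiff_iff_contDiffAt]
  intro z₀
  have hP₀ : qinv e z₀ ∈ HP := qinv_mem he z₀
  have hcd : ContDiffAt ℝ ∞ (Qmap e) (qinv e z₀) :=
    (Qmap_contDiffOn he.le).contDiffAt (isOpen_HP.mem_nhds hP₀)
  obtain ⟨hd, hω⟩ := Qmap_apAt he.le hP₀
  have hinj : Function.Injective (fderiv ℝ (Qmap e) (qinv e z₀)).toLinearMap := by
    rw [← LinearMap.ker_eq_bot, LinearMap.ker_eq_bot']
    intro u hu
    have hu' : fderiv ℝ (Qmap e) (qinv e z₀) u = 0 := hu
    have h1 := hω u 1
    have h2 := hω u Complex.I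
    rw [hu'] at h1 h2
    simp only [om1, Complex.zero_re, Complex.zero_im, Complex.one_re, Complex.one_im,
      Complex.I_re, Complex.I_im] at h1 h2
    apply Complex.ext
    · simp only [Complex.zero_re]
      linarith
    · simp only [Complex.zero_im]
      linarith
  let f' : ℂ ≃L[ℝ] ℂ := (LinearEquiv.ofInjectiveEndo _ hinj).toContinuousLinearEquiv
  have hf' : HasFDerivAt (Qmap e) (f' : ℂ →L[ℝ] ℂ) (qinv e z₀) := by
    refine hd.hasFDerivAt.congr_fderiv ?_
    ext u
    rfl
  have hn : (∞ : WithTop ℕ∞) ≠ 0 := by simp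
  have hs := hcd.hasStrictFDerivAt' hf' hn
  have hloc := hcd.to_localInverse hf' hn
  rw [Qmap_qinv he z₀] at hloc
  refine hloc.congr_of_eventuallyEq ?_
  have hr := hs.eventually_right_inverse
  have ht := hs.localInverse_tendsto
  rw [Qmap_qinv he z₀] at hr ht
  have hmem := ht.eventually (isOpen_HP.mem_nhds hP₀)
  filter_upwards [hr, hmem] with w hw1 hw2
  apply Qmap_injOn he (qinv_mem he w) hw2
  rw [Qmap_qinv he w]
  exact hw1.symm

theorem qinv_apAt {e : ℝ} (he : 0 < e) (z : ℂ) : APAt (qinv e) z := by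
  refine APAt.of_rightInverse ((qinv_contDiff he).differentiable (by simp) z)
    (Qmap_apAt he.le (qinv_mem he z)) ?_
  exact Filter.Eventually.of_forall (fun w => Qmap_qinv he w)

end Vale.Agent.P209
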