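import Vale.Agent.P209.Toric.Basic

/-!
# P209: the map `Q_e` straightening a coaxal pencil of circles

On the right half plane, `s_e(P) = (|P|^2 + e) / (2 Re P)` is the centre of the circle of the coaxal
pencil with limit point `√e` through `P` (radius `√(s^2 - e)`), and
`Q_e(P) = (P - s) exp (i Im P / s)` maps this circle to the circle of the same radius centred at `0`.
It is area preserving.
-/

namespace Vale.Agent.P209

open scoped ContDiff Topology

/-- centre of the circle of the pencil through `P` -/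
noncomputable def sfun (e : ℝ) (P : ℂ) : ℝ := (P.re ^ 2 + P.im ^ 2 + e) / (2 * P.re)

/-- the straightening map -/
noncomputable def Qmap (e : ℝ) (P : ℂ) : ℂ :=
  (P - (sfun e P : ℂ)) * Complex.exp (((P.im / sfun e P : ℝ) : ℂ) * Complex.I)

theorem sfun_pos {e : ℝ} (he : 0 ≤ e) {P : ℂ} (hP : P ∈ HP) : 0 < sfun e P := by
  have hx : 0 < P.re := hP
  unfold sfun
  positivity

private theorem contDiff_re : ContDiff ℝ ∞ (fun P : ℂ => P.re) := Complex.reCLM.contDiff

private theorem contDiff_im : ContDiff ℝ ∞ (fun P : ℂ => P.im) := Complex.imCLM.contDiff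

private theorem sfun_contDiffOn (e : ℝ) : ContDiffOn ℝ ∞ (sfun e) HP := by
  unfold sfun
  apply ContDiffOn.div
  · exact (((contDiff_re.pow 2).add (contDiff_im.pow 2)).add contDiff_const).contDiffOn
  · exact (contDiff_const.mul contDiff_re).contDiffOn
  · intro P hP
    have hx : 0 < P.re := hP
    positivity

theorem Qmap_contDiffOn {e : ℝ} (he : 0 ≤ e) : ContDiffOn ℝ ∞ (Qmap e) HP := by
  unfold Qmap
  have h1 : ContDiffOn ℝ ∞ (fun P : ℂ => ((sfun e P : ℝ) : ℂ)) HP :=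
    Complex.ofRealCLM.contDiff.comp_contDiffOn (sfun_contDiffOn e)
  have h2 : ContDiffOn ℝ ∞ (fun P : ℂ => P.im / sfun e P) HP :=
    contDiff_im.contDiffOn.div (sfun_contDiffOn e) (fun P hP => (sfun_pos he hP).ne')
  have h3 : ContDiffOn ℝ ∞ (fun P : ℂ => ((P.im / sfun e P : ℝ) : ℂ)) HP :=
    Complex.ofRealCLM.contDiff.comp_contDiffOn h2
  apply ContDiffOn.mul
  · exact contDiff_id.contDiffOn.sub h1
  · exact Complex.contDiff_exp.comp_contDiffOn (h3.mul contDiffOn_const)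

/-- real functions on the plane with gradient `(a, b)` at `P` -/
private def Gr (f : ℂ → ℝ) (a b : ℝ) (P : ℂ) : Prop :=
  HasFDerivAt f (a • Complex.reCLM + b • Complex.imCLM) P

private theorem Gr.re (P : ℂ) : Gr (fun w => w.re) 1 0 P := by
  unfold Gr
  exact Complex.reCLM.hasFDerivAt.congr_fderiv (by simp)

private theorem Gr.im (P : ℂ) : Gr (fun w => w.im) 0 1 P := by
  unfold Gr
  exact Complex.imCLM.hasFDerivAt.congr_fderiv (by simp)

private theorem Gr.sub {f g : ℂ → ℝ} {a b a' b' : ℝ} {P : ℂ} (hf : Gr f a b P) (hg : Gr g a' b' P) :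
    Gr (fun w => f w - g w) (a - a') (b - b') P := by
  unfold Gr at *
  refine (hf.sub hg).congr_fderiv ?_
  ext u
  simp
  ring

private theorem Gr.add {f g : ℂ → ℝ} {a b a' b' : ℝ} {P : ℂ} (hf : Gr f a b P) (hg : Gr g a' b' P) :
    Gr (fun w => f w + g w) (a + a') (b + b') P := by
  unfold Gr at *
  refine (hf.add hg).congr_fderiv ?_
  ext u
  simp
  ring

private theorem Gr.mul {f g : ℂ → ℝ} {a b a' b' : ℝ} {P : ℂ} (hf : Gr f a b P) (hg : Gr g a' b' P) :
    Gr (fun w => f w * g w) (a * g P + f P * a') (b * g P + f P * b') P := by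
  unfold Gr at *
  refine (hf.mul hg).congr_fderiv ?_
  ext u
  simp
  ring

private theorem Gr.comp {f : ℂ → ℝ} {a b : ℝ} {P : ℂ} {h : ℝ → ℝ} {h' : ℝ}
    (hh : HasDerivAt h h' (f P)) (hf : Gr f a b P) : Gr (fun w => h (f w)) (h' * a) (h' * b) P := by
  unfold Gr at *
  refine (hh.comp_hasFDerivAt P hf).congr_fderiv ?_
  ext u
  simp
  ring

private theorem Gr.congr {f : ℂ → ℝ} {a b a' b' : ℝ} {P : ℂ} (hf : Gr f a b P) (ha : a = a')
    (hb : b = b') : Gr f a' b' P := by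
  subst ha
  subst hb
  exact hf

private theorem Gr.sfun (e : ℝ) {P : ℂ} (hP : P ∈ HP) :
    Gr (sfun e) (1 - sfun e P / P.re) (P.im / P.re) P := by
  have hx : 0 < P.re := hP
  have hinv : HasDerivAt (fun t : ℝ => t⁻¹) (-(P.re ^ 2)⁻¹) P.re := hasDerivAt_inv hx.ne'
  have h1 : Gr (fun w => (w.re)⁻¹) (-(P.re ^ 2)⁻¹ * 1) (-(P.re ^ 2)⁻¹ * 0) P :=
    Gr.comp hinv (Gr.re P)
  have h2 := ((Gr.re P).mul (Gr.re P)).add ((Gr.im P).mul (Gr.im P))
  have h3 := h2.mul h1
  have h4 : Gr (fun w => e * (w.re)⁻¹) _ _ P :=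
    Gr.comp (h := fun t => e * t) (h' := e) (by simpa using (hasDerivAt_id _).const_mul e) h1
  have h5 := h3.add h4
  have h6 : Gr (fun w => (1 / 2 : ℝ) * ((w.re * w.re + w.im * w.im) * (w.re)⁻¹ + e * (w.re)⁻¹)) _ _ P :=
    Gr.comp (h := fun t => (1 / 2 : ℝ) * t) (h' := (1 / 2 : ℝ))
      (by simpa using (hasDerivAt_id _).const_mul (1 / 2 : ℝ)) h5
  have hfun : Vale.Agent.P209.sfun e =
      fun w => (1 / 2 : ℝ) * ((w.re * w.re + w.im * w.im) * (w.re)⁻¹ + e * (w.re)⁻¹) := by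
    funext w
    unfold Vale.Agent.P209.sfun
    by_cases hw : w.re = 0
    · simp [hw]
    · field_simp
  rw [hfun]
  refine h6.congr ?_ ?_
  · field_simp
    ring
  · field_simp
    ring

private theorem Qmap_aux (w : ℂ) (σ φ : ℝ) : (w - (σ : ℂ)) * Complex.exp ((φ : ℂ) * Complex.I) =
    (((w.re - σ) * Real.cos φ - w.im * Real.sin φ : ℝ) : ℂ) +
      (((w.re - σ) * Real.sin φ + w.im * Real.cos φ : ℝ) : ℂ) * Complex.I := by
  apply Complex.ext
  · rw [Complex.mul_re, Complex.exp_ofReal_mul_I_re, Complex.exp_ofReal_mul_I_im]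
    simp only [Complex.add_re, Complex.ofReal_re, Complex.mul_re, Complex.I_re, Complex.I_im,
      Complex.ofReal_im, Complex.sub_re, Complex.sub_im]
    ring
  · rw [Complex.mul_im, Complex.exp_ofReal_mul_I_re, Complex.exp_ofReal_mul_I_im]
    simp only [Complex.add_im, Complex.ofReal_re, Complex.mul_im, Complex.I_re, Complex.I_im,
      Complex.ofReal_im, Complex.sub_re, Complex.sub_im]
    ring

/-- `Q_e` is area preserving. With `x = Re P`, `y = Im P`, `s = sfun e P`, `φ = y / s`: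
`∂s/∂x = 1 - s / x`, `∂s/∂y = y / x`,
`Re Q = (x - s) cos φ - y sin φ`, `Im Q = (x - s) sin φ + y cos φ`. -/
theorem Qmap_apAt {e : ℝ} (he : 0 ≤ e) {P : ℂ} (hP : P ∈ HP) : APAt (Qmap e) P := by
  have hx : 0 < P.re := hP
  have hs : 0 < sfun e P := sfun_pos he hP
  set x := P.re with hxdef
  set y := P.im with hydef
  set s := sfun e P with hsdef
  have gs : Gr (sfun e) (1 - s / x) (y / x) P := Gr.sfun e hP
  have hinv : HasDerivAt (fun t : ℝ => t⁻¹) (-(s ^ 2)⁻¹) s := hasDerivAt_inv hs.ne'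
  have gsi : Gr (fun w => (sfun e w)⁻¹) _ _ P := Gr.comp hinv gs
  have gφ : Gr (fun w => w.im * (sfun e w)⁻¹) _ _ P := (Gr.im P).mul gsi
  have gcos : Gr (fun w => Real.cos (w.im * (sfun e w)⁻¹)) _ _ P :=
    Gr.comp (Real.hasDerivAt_cos _) gφ
  have gsin : Gr (fun w => Real.sin (w.im * (sfun e w)⁻¹)) _ _ P :=
    Gr.comp (Real.hasDerivAt_sin _) gφ
  have gu : Gr (fun w => w.re - sfun e w) _ _ P := (Gr.re P).sub gs
  have gA := (gu.mul gcos).sub ((Gr.im P).mul gsin)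
  have gB := (gu.mul gsin).add ((Gr.im P).mul gcos)
  have hfun : Qmap e = fun w =>
      (((w.re - sfun e w) * Real.cos (w.im * (sfun e w)⁻¹) -
        w.im * Real.sin (w.im * (sfun e w)⁻¹) : ℝ) : ℂ) +
      (((w.re - sfun e w) * Real.sin (w.im * (sfun e w)⁻¹) +
        w.im * Real.cos (w.im * (sfun e w)⁻¹) : ℝ) : ℂ) * Complex.I := by
    funext w
    unfold Qmap
    rw [div_eq_mul_inv]
    exact Qmap_aux w _ _
  rw [hfun]
  refine apAt_of_grads gA gB ?_
  have hcs : Real.cos (y * s⁻¹) ^ 2 + Real.sin (y * s⁻¹) ^ 2 = 1 := Real.cos_sq_add_sin_sq _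
  simp only [← hxdef, ← hydef, ← hsdef]
  set C := Real.cos (y * s⁻¹) with hC
  set S := Real.sin (y * s⁻¹) with hS
  set φ₁ : ℝ := 0 * s⁻¹ + y * (-(s ^ 2)⁻¹ * (1 - s / x)) with hφ₁
  set φ₂ : ℝ := 1 * s⁻¹ + y * (-(s ^ 2)⁻¹ * (y / x)) with hφ₂
  have hD : (1 - (1 - s / x) - y * φ₁) * (1 + (x - s) * φ₂) -
      (0 - y / x - y * φ₂) * ((x - s) * φ₁) = 1 := by
    rw [hφ₁, hφ₂]
    field_simp
    ring
  linear_combination ((1 - (1 - s / x) - y * φ₁) * (1 + (x - s) * φ₂) -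
      (0 - y / x - y * φ₂) * ((x - s) * φ₁)) * hcs + hD

end Vale.Agent.P209
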