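import Mathlib

/-!
# P209: rounding a capacity to `T / (p 2 ^ a)` with `P ≤ p < 2 P`
-/

namespace Vale.Agent.P209

/-- Put `y = T / x > P`. Let `a` be the largest natural number with `P 2 ^ a < y` (so
`y ≤ P 2 ^ (a + 1)`), and let `p` be the largest natural number with `p < y / 2 ^ a`
(`p = ⌈y / 2 ^ a⌉₊ - 1`). Then `P ≤ p < 2 P`, `p 2 ^ a < y ≤ (p + 1) 2 ^ a ≤ (1 + 1 / P) p 2 ^ a`. -/
theorem exists_round (P : ℕ) (hP : 1 ≤ P) (x T : ℝ) (hx : 0 < x) (hxT : (P : ℝ) * x < T) :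
    ∃ p a : ℕ, P ≤ p ∧ p < 2 * P ∧ ((p * 2 ^ a : ℕ) : ℝ) * x < T ∧
      T ≤ (1 + 1 / (P : ℝ)) * (((p * 2 ^ a : ℕ) : ℝ) * x) := by
  classical
  have hP' : (1 : ℝ) ≤ (P : ℝ) := by exact_mod_cast hP
  have hPpos : (0 : ℝ) < (P : ℝ) := by linarith
  -- the first `n` with `T ≤ P 2 ^ n x`
  have hex : ∃ n : ℕ, T ≤ (P : ℝ) * 2 ^ n * x := by
    obtain ⟨n, hn⟩ := exists_nat_ge (T / x)
    refine ⟨n, ?_⟩
    have h1 : (n : ℝ) ≤ 2 ^ n := by exact_mod_cast (Nat.lt_two_pow_self (n := n)).le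
    have h2 : T ≤ (n : ℝ) * x := by rwa [div_le_iff₀ hx] at hn
    have h3 : (n : ℝ) * x ≤ (P : ℝ) * 2 ^ n * x := by
      apply mul_le_mul_of_nonneg_right _ hx.le
      have : (0 : ℝ) ≤ 2 ^ n := by positivity
      nlinarith
    linarith
  have hfind := Nat.find_spec hex
  have hmin : ∀ m, m < Nat.find hex → ¬ T ≤ (P : ℝ) * 2 ^ m * x := fun m hm => Nat.find_min hex hm
  obtain ⟨n0, hn0⟩ : ∃ n0, n0 = Nat.find hex := ⟨_, rfl⟩
  rw [← hn0] at hfind hmin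
  have hn0pos : n0 ≠ 0 := by
    intro h0
    rw [h0] at hfind
    simp only [pow_zero, mul_one] at hfind
    linarith
  obtain ⟨a, ha⟩ : ∃ a, n0 = a + 1 := ⟨n0 - 1, by omega⟩
  have hlow : (P : ℝ) * 2 ^ a * x < T := not_le.1 (hmin a (by omega))
  rw [ha] at hfind
  obtain ⟨c, hc⟩ : ∃ c : ℝ, c = 2 ^ a * x := ⟨_, rfl⟩
  have hcpos : 0 < c := by rw [hc]; positivity
  have hlow' : (P : ℝ) * c < T := by rw [hc]; linarith
  have hup' : T ≤ 2 * (P : ℝ) * c := by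
    rw [hc]
    have : (P : ℝ) * 2 ^ (a + 1) * x = 2 * (P : ℝ) * (2 ^ a * x) := by rw [pow_succ]; ring
    linarith
  obtain ⟨m, hm⟩ : ∃ m : ℕ, m = ⌈T / c⌉₊ := ⟨_, rfl⟩
  have hz0 : 0 ≤ T / c := by
    apply div_nonneg _ hcpos.le
    have : 0 ≤ (P : ℝ) * c := by positivity
    linarith
  have h1 : T / c ≤ (m : ℝ) := by rw [hm]; exact Nat.le_ceil _
  have h2 : (m : ℝ) < T / c + 1 := by rw [hm]; exact Nat.ceil_lt_add_one hz0
  have h3 : (P : ℝ) < T / c := by rw [lt_div_iff₀ hcpos]; exact hlow'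
  have h4 : P < m := by
    have : (P : ℝ) < (m : ℝ) := lt_of_lt_of_le h3 h1
    exact_mod_cast this
  have h5 : m ≤ 2 * P := by
    rw [hm, Nat.ceil_le, div_le_iff₀ hcpos]
    push_cast
    exact hup'
  obtain ⟨p, hp⟩ : ∃ p, m = p + 1 := ⟨m - 1, by omega⟩
  have hpm : (m : ℝ) = (p : ℝ) + 1 := by rw [hp]; push_cast; ring
  have hPp : P ≤ p := by omega
  have hPp' : (P : ℝ) ≤ (p : ℝ) := by exact_mod_cast hPp
  have hcast : ((p * 2 ^ a : ℕ) : ℝ) * x = (p : ℝ) * c := by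
    rw [hc]; push_cast; ring
  refine ⟨p, a, hPp, by omega, ?_, ?_⟩
  · rw [hcast]
    have : (p : ℝ) < T / c := by linarith
    rwa [lt_div_iff₀ hcpos] at this
  · rw [hcast]
    have h6 : T ≤ ((p : ℝ) + 1) * c := by
      rw [← hpm]
      rwa [div_le_iff₀ hcpos] at h1
    have h7 : (1 : ℝ) ≤ (p : ℝ) / (P : ℝ) := by rw [le_div_iff₀ hPpos]; linarith
    have h8 : (1 + 1 / (P : ℝ)) * ((p : ℝ) * c) = ((p : ℝ) + (p : ℝ) / (P : ℝ)) * c := by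
      field_simp
    rw [h8]
    have h9 : ((p : ℝ) + 1) * c ≤ ((p : ℝ) + (p : ℝ) / (P : ℝ)) * c :=
      mul_le_mul_of_nonneg_right (by linarith) hcpos.le
    linarith

end Vale.Agent.P209
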