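import Vale.Agent.P209.Toric.Dust
import Vale.Agent.P209.Toric.Round

/-!
# P209: a quantitative packing theorem: one ball of arbitrary size and many small balls
-/

namespace Vale.Agent.P209

open scoped ContDiff Topology

/-- finitely many strict inequalities leave room -/
theorem exists_between_of_finite {κ : Type} [Fintype κ] (f : κ → ℝ) (c B : ℝ) (hc : c < B)
    (h : ∀ x, f x < B) : ∃ T, c < T ∧ T < B ∧ ∀ x, f x < T := by
  rcases isEmpty_or_nonempty κ with he | hne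
  · exact ⟨(c + B) / 2, by linarith, by linarith, fun x => (he.false x).elim⟩
  · obtain ⟨x0, hx0⟩ := Finite.exists_max f
    have h0 := h x0
    refine ⟨(max c (f x0) + B) / 2, ?_, ?_, fun x => ?_⟩
    · have := le_max_left c (f x0)
      linarith
    · have : max c (f x0) < B := max_lt hc h0
      linarith
    · have h1 := le_max_right c (f x0)
      have h2 : max c (f x0) < B := max_lt hc h0
      have h3 := hx0 x
      linarith

/-- Grid of mesh `R / L`; the ball of capacity `a < M R / L` sits in the first `M` layers, the small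
balls (`L P r x < R`) are rounded up by a factor at most `1 + 1 / P` and fill the other cells.

Proof: for every `x`, `exists_round P hP (r x) (R / L)` gives `q x = p x * 2 ^ a x` with
`q x * r x < R / L ≤ (1 + 1 / P) * (q x * r x)`. Choose `T < R / L` (`exists_between_of_finite`) with
`0 < T`, `q x * r x < T` for all `x` and `a < M * T` (if `M = 0` then `a < 0` by `ha`).
`packsI_layers n M L` with `ι = Fin (L ^ n - M ^ n)`, `ρ = T` and central capacity `M * T`. Then
`packsI_dust` with `big = fun _ => a`, `big' = fun _ => M * T`. Counting: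
`1 / q x ≤ (1 + 1 / P) * r x * L / R`, so
`∑ 1 / (q x) ^ n ≤ (L / R) ^ n * (1 + 1 / P) ^ n * ∑ r x ^ n ≤ L ^ n - M ^ n - (P - 1)`. -/
theorem packsI_quant_big (n P L M : ℕ) (hn : 1 ≤ n) (hP : 1 ≤ P) (hL : 1 ≤ L) (hML : M ≤ L)
    {κ : Type} [Fintype κ] (R a : ℝ) (hR : 0 < R) (ha : (L : ℝ) * a < M * R) (r : κ → ℝ)
    (hr : ∀ x, 0 < r x) (hsmall : ∀ x, ((L * P : ℕ) : ℝ) * r x < R)
    (hvol : (1 + 1 / (P : ℝ)) ^ n * ∑ x, r x ^ n + ((P : ℝ) - 1) * (R / L) ^ n
      ≤ R ^ n - (M * R / L) ^ n) :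
    PacksI n (Sum.elim (fun _ : Unit => a) r) R := by
  have hLpos : (0 : ℝ) < (L : ℝ) := by exact_mod_cast hL
  have hPpos : (0 : ℝ) < (P : ℝ) := by exact_mod_cast hP
  have hRL : 0 < R / (L : ℝ) := div_pos hR hLpos
  have hx : ∀ x, (P : ℝ) * r x < R / (L : ℝ) := by
    intro x
    rw [lt_div_iff₀ hLpos]
    have := hsmall x
    push_cast at this
    nlinarith
  choose p e hp1 hp2 hfit hup using fun x => exists_round P hP (r x) (R / (L : ℝ)) (hr x) (hx x)
  have hc : max 0 (a / (M : ℝ)) < R / (L : ℝ) := by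
    refine max_lt hRL ?_
    rcases Nat.eq_zero_or_pos M with hM | hM
    · subst hM
      simpa using hRL
    · have hMpos : (0 : ℝ) < (M : ℝ) := by exact_mod_cast hM
      rw [div_lt_div_iff₀ hMpos hLpos]
      linarith
  obtain ⟨T, hT1, hT2, hT3⟩ := exists_between_of_finite
    (fun x => ((p x * 2 ^ e x : ℕ) : ℝ) * r x) _ _ hc hfit
  have hT : 0 < T := lt_of_le_of_lt (le_max_left _ _) hT1
  have haT : a < (M : ℝ) * T := by
    rcases Nat.eq_zero_or_pos M with hM | hM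
    · subst hM
      simp only [Nat.cast_zero, zero_mul] at ha ⊢
      nlinarith
    · have hMpos : (0 : ℝ) < (M : ℝ) := by exact_mod_cast hM
      have : a / (M : ℝ) < T := lt_of_le_of_lt (le_max_right _ _) hT1
      rw [div_lt_iff₀ hMpos] at this
      linarith
  have hpow : M ^ n ≤ L ^ n := Nat.pow_le_pow_left hML n
  have hcells : PacksI n (Sum.elim (fun _ : Unit => (M : ℝ) * T)
      (fun _ : Fin (L ^ n - M ^ n) => T)) R := by
    refine packsI_layers n M L hn ?_ R _ T hT le_rfl ?_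
    · rw [Fintype.card_fin]
      omega
    · rw [lt_div_iff₀ hLpos] at hT2
      linarith
  refine packsI_dust n P hn hP (fun _ : Unit => a) (fun _ : Unit => (M : ℝ) * T) (fun _ => haT) T R
    hcells r hr p e hp1 hp2 hT3 ?_
  rw [Fintype.card_fin, Nat.cast_sub hpow]
  push_cast
  set D : ℝ := (R / (L : ℝ)) ^ n with hD
  have hDpos : 0 < D := pow_pos hRL n
  have hterm : ∀ x, (1 : ℝ) / ((p x : ℝ) * 2 ^ e x) ^ n
      ≤ (1 + 1 / (P : ℝ)) ^ n * r x ^ n / D := by
    intro x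
    have hq : (0 : ℝ) < (p x : ℝ) * 2 ^ e x := by
      have : 0 < p x := lt_of_lt_of_le hP (hp1 x)
      have h1 : (0 : ℝ) < (p x : ℝ) := by exact_mod_cast this
      positivity
    have h2 := hup x
    push_cast at h2
    have h3 : D ≤ ((1 + 1 / (P : ℝ)) * (((p x : ℝ) * 2 ^ e x) * r x)) ^ n :=
      pow_le_pow_left₀ hRL.le h2 n
    rw [div_le_div_iff₀ (pow_pos hq n) hDpos, one_mul]
    calc D ≤ ((1 + 1 / (P : ℝ)) * (((p x : ℝ) * 2 ^ e x) * r x)) ^ n := h3
      _ = (1 + 1 / (P : ℝ)) ^ n * r x ^ n * ((p x : ℝ) * 2 ^ e x) ^ n := by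
        rw [mul_pow, mul_pow]
        ring
  have hsum : ∑ x, (1 : ℝ) / ((p x : ℝ) * 2 ^ e x) ^ n
      ≤ (1 + 1 / (P : ℝ)) ^ n * (∑ x, r x ^ n) / D := by
    calc ∑ x, (1 : ℝ) / ((p x : ℝ) * 2 ^ e x) ^ n
        ≤ ∑ x, (1 + 1 / (P : ℝ)) ^ n * r x ^ n / D := Finset.sum_le_sum fun x _ => hterm x
      _ = (1 + 1 / (P : ℝ)) ^ n * (∑ x, r x ^ n) / D := by
        rw [Finset.mul_sum, Finset.sum_div]
  have hrhs : R ^ n - ((M : ℝ) * R / (L : ℝ)) ^ n = D * ((L : ℝ) ^ n - (M : ℝ) ^ n) := by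
    rw [hD, div_pow, div_pow, mul_pow]
    have : (L : ℝ) ^ n ≠ 0 := pow_ne_zero _ hLpos.ne'
    field_simp
  rw [hrhs] at hvol
  have h4 : (1 + 1 / (P : ℝ)) ^ n * (∑ x, r x ^ n) / D + ((P : ℝ) - 1)
      ≤ (L : ℝ) ^ n - (M : ℝ) ^ n := by
    have : (1 + 1 / (P : ℝ)) ^ n * (∑ x, r x ^ n) / D + ((P : ℝ) - 1)
        = ((1 + 1 / (P : ℝ)) ^ n * (∑ x, r x ^ n) + ((P : ℝ) - 1) * D) / D := by
      field_simp
    rw [this, div_le_iff₀ hDpos]
    linarith
  linarith

/-- The case without a large ball: `packsI_quant_big` with `M = 0`, `a = -1`, then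
`PacksI.reindex` along `Sum.inr`. -/
theorem packsI_quant (n P L : ℕ) (hn : 1 ≤ n) (hP : 1 ≤ P) (hL : 1 ≤ L)
    {κ : Type} [Fintype κ] (R : ℝ) (hR : 0 < R) (r : κ → ℝ)
    (hr : ∀ x, 0 < r x) (hsmall : ∀ x, ((L * P : ℕ) : ℝ) * r x < R)
    (hvol : (1 + 1 / (P : ℝ)) ^ n * ∑ x, r x ^ n + ((P : ℝ) - 1) * (R / L) ^ n ≤ R ^ n) :
    PacksI n r R := by
  have h := packsI_quant_big n P L 0 hn hP hL (Nat.zero_le _) R (-1) hR
    (by
      have : (0 : ℝ) < (L : ℝ) := by exact_mod_cast hL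
      simp only [Nat.cast_zero, zero_mul]
      linarith) r hr hsmall
    (by
      have h0 : ((0 : ℕ) * R / (L : ℝ)) ^ n = 0 := by
        simp only [Nat.cast_zero, zero_mul, zero_div]
        exact zero_pow (by omega)
      rw [h0, sub_zero]
      exact hvol)
  exact h.reindex Sum.inr Sum.inr_injective

end Vale.Agent.P209
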