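import Vale.Agent.P209.Toric.BigCells
import Vale.Agent.P209.Toric.Quant

/-!
# P209: quantitative theorem: up to `2 ^ n` balls of arbitrary sizes and many small balls
-/

namespace Vale.Agent.P209

open scoped ContDiff Topology

/-- Same scheme as `packsI_quant_big` (file `Quant.lean`, solved: read its proof).
For every `x`, `exists_round P hP (r x) μ` gives `q x = p' x * 2 ^ a' x` with
`q x * r x < μ ≤ (1 + 1 / P) * (q x * r x)`. Put `a₁' = (a₁ + sh + (p + s) μ) / 2`,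
`a₂' j = (a₂ j + m₀ j μ) / 2`. Choose `T < μ` (`exists_between_of_finite` on the index type `κ ⊕ β`)
with `0 < T`, `q x * r x < T` and `a₂' j ≤ m₀ j * T` (if `m₀ j = 0` this holds since `a₂' j < 0`;
otherwise ask `a₂' j / m₀ j < T`). From `hvol` (all terms nonnegative, `μ ^ n > 0`) one gets
`(p + s) ^ n + ∑ m₀ j ^ n ≤ L ^ n` in `ℕ`; take `ι = Fin (L ^ n - (p + s) ^ n - ∑ m₀ j ^ n)`,
`packsI_big_cells` for `a₁', a₂'`, then `packsI_dust` with `big = Sum.elim (fun _ => a₁) a₂`,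
`big' = Sum.elim (fun _ => a₁') a₂'`. Counting: `1 / q x ≤ (1 + 1 / P) * r x / μ`. -/
theorem packsI_quant_multi (n P p s L : ℕ) (hn : 1 ≤ n) (hP : 1 ≤ P) (hs : 1 ≤ s)
    (hL : p + 2 * s ≤ L) {β κ : Type} [Fintype β] [Fintype κ] (hβ : Fintype.card β + 1 ≤ 2 ^ n)
    (m₀ : β → ℕ) (hm₀ : ∀ j, m₀ j ≤ s)
    (μ sh R a₁ : ℝ) (a₂ : β → ℝ) (hμ : 0 < μ) (hsh : 0 ≤ sh)
    (ha₁ : a₁ < sh + ((p + s : ℕ) : ℝ) * μ) (ha₂ : ∀ j, a₂ j < (m₀ j : ℝ) * μ)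
    (hR : sh + (L : ℝ) * μ ≤ R)
    (r : κ → ℝ) (hr : ∀ x, 0 < r x) (hsmall : ∀ x, (P : ℝ) * r x < μ)
    (hvol : (1 + 1 / (P : ℝ)) ^ n * ∑ x, r x ^ n + ((P : ℝ) - 1) * μ ^ n
      ≤ (L : ℝ) ^ n * μ ^ n - ((p + s : ℕ) : ℝ) ^ n * μ ^ n - (∑ j, (m₀ j : ℝ) ^ n) * μ ^ n) :
    PacksI n (Sum.elim (Sum.elim (fun _ : Unit => a₁) a₂) r) R := by
  have hPpos : (0 : ℝ) < (P : ℝ) := by exact_mod_cast hP
  have hP1r : (1 : ℝ) ≤ (P : ℝ) := by exact_mod_cast hP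
  choose p' e hp1 hp2 hfit hup using fun x => exists_round P hP (r x) μ (hr x) (hsmall x)
  obtain ⟨a₁', ha₁'def⟩ : ∃ a₁' : ℝ, a₁' = (a₁ + (sh + ((p + s : ℕ) : ℝ) * μ)) / 2 := ⟨_, rfl⟩
  have ha₁1 : a₁ < a₁' := by rw [ha₁'def]; linarith
  have ha₁2 : a₁' < sh + ((p + s : ℕ) : ℝ) * μ := by rw [ha₁'def]; linarith
  obtain ⟨a₂', ha₂'def⟩ : ∃ a₂' : β → ℝ, a₂' = fun j => (a₂ j + (m₀ j : ℝ) * μ) / 2 := ⟨_, rfl⟩
  have ha₂1 : ∀ j, a₂ j < a₂' j := by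
    intro j; rw [ha₂'def]; have := ha₂ j; simp only; linarith
  have ha₂2 : ∀ j, a₂' j < (m₀ j : ℝ) * μ := by
    intro j; rw [ha₂'def]; have := ha₂ j; simp only; linarith
  have hf : ∀ y : κ ⊕ β, Sum.elim (fun x => ((p' x * 2 ^ e x : ℕ) : ℝ) * r x)
      (fun j => a₂' j / (m₀ j : ℝ)) y < μ := by
    rintro (x | j)
    · exact hfit x
    · simp only [Sum.elim_inr]
      rcases Nat.eq_zero_or_pos (m₀ j) with hM | hM
      · rw [hM]; simpa using hμ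
      · have hMpos : (0 : ℝ) < (m₀ j : ℝ) := by exact_mod_cast hM
        rw [div_lt_iff₀ hMpos]
        have := ha₂2 j
        linarith
  obtain ⟨T, hT0, hT, hT3⟩ := exists_between_of_finite _ 0 μ hμ hf
  have hfitT : ∀ x, ((p' x * 2 ^ e x : ℕ) : ℝ) * r x < T := fun x => hT3 (Sum.inl x)
  have ha₂T : ∀ j, a₂' j ≤ (m₀ j : ℝ) * T := by
    intro j
    rcases Nat.eq_zero_or_pos (m₀ j) with hM | hM
    · have := ha₂2 j
      rw [hM] at this ⊢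
      simp only [Nat.cast_zero, zero_mul] at this ⊢
      exact this.le
    · have hMpos : (0 : ℝ) < (m₀ j : ℝ) := by exact_mod_cast hM
      have h1 : a₂' j / (m₀ j : ℝ) < T := hT3 (Sum.inr j)
      rw [div_lt_iff₀ hMpos] at h1
      linarith
  set D : ℝ := μ ^ n with hD
  have hDpos : 0 < D := pow_pos hμ n
  have hSnn : 0 ≤ ∑ x, r x ^ n := Finset.sum_nonneg fun x _ => (pow_pos (hr x) n).le
  have hrhs : (L : ℝ) ^ n * D - ((p + s : ℕ) : ℝ) ^ n * D - (∑ j, (m₀ j : ℝ) ^ n) * D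
      = D * ((L : ℝ) ^ n - ((p + s : ℕ) : ℝ) ^ n - ∑ j, (m₀ j : ℝ) ^ n) := by ring
  rw [hrhs] at hvol
  have hnn : 0 ≤ (L : ℝ) ^ n - ((p + s : ℕ) : ℝ) ^ n - ∑ j, (m₀ j : ℝ) ^ n := by
    have h1 : 0 ≤ (1 + 1 / (P : ℝ)) ^ n * ∑ x, r x ^ n := by positivity
    have h2 : 0 ≤ ((P : ℝ) - 1) * D := mul_nonneg (by linarith) hDpos.le
    have h3 : 0 ≤ D * ((L : ℝ) ^ n - ((p + s : ℕ) : ℝ) ^ n - ∑ j, (m₀ j : ℝ) ^ n) := by linarith
    exact nonneg_of_mul_nonneg_right h3 hDpos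
  have hnat : (p + s) ^ n + ∑ j, m₀ j ^ n ≤ L ^ n := by
    have h1 : (((p + s) ^ n + ∑ j, m₀ j ^ n : ℕ) : ℝ) ≤ ((L ^ n : ℕ) : ℝ) := by
      push_cast
      push_cast at hnn
      linarith
    exact_mod_cast h1
  have hcells : PacksI n (Sum.elim (Sum.elim (fun _ : Unit => a₁') a₂')
      (fun _ : Fin (L ^ n - ((p + s) ^ n + ∑ j, m₀ j ^ n)) => T)) R := by
    refine packsI_big_cells n p s L hn hs hL hβ m₀ hm₀ ?_ μ sh T R a₁' a₂' hsh hT0 hT ha₁2 ha₂T hR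
    rw [Fintype.card_fin]
    omega
  have hbig : ∀ b : Unit ⊕ β, Sum.elim (fun _ : Unit => a₁) a₂ b
      < Sum.elim (fun _ : Unit => a₁') a₂' b := by
    rintro (u | j)
    · exact ha₁1
    · exact ha₂1 j
  refine packsI_dust n P hn hP (Sum.elim (fun _ : Unit => a₁) a₂)
    (Sum.elim (fun _ : Unit => a₁') a₂') hbig T R hcells r hr p' e hp1 hp2 hfitT ?_
  rw [Fintype.card_fin, Nat.cast_sub hnat]
  push_cast
  have hterm : ∀ x, (1 : ℝ) / ((p' x : ℝ) * 2 ^ e x) ^ n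
      ≤ (1 + 1 / (P : ℝ)) ^ n * r x ^ n / D := by
    intro x
    have hq : (0 : ℝ) < (p' x : ℝ) * 2 ^ e x := by
      have : 0 < p' x := lt_of_lt_of_le hP (hp1 x)
      have h1 : (0 : ℝ) < (p' x : ℝ) := by exact_mod_cast this
      positivity
    have h2 := hup x
    push_cast at h2
    have h3 : D ≤ ((1 + 1 / (P : ℝ)) * (((p' x : ℝ) * 2 ^ e x) * r x)) ^ n :=
      pow_le_pow_left₀ hμ.le h2 n
    rw [div_le_div_iff₀ (pow_pos hq n) hDpos, one_mul]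
    calc D ≤ ((1 + 1 / (P : ℝ)) * (((p' x : ℝ) * 2 ^ e x) * r x)) ^ n := h3
      _ = (1 + 1 / (P : ℝ)) ^ n * r x ^ n * ((p' x : ℝ) * 2 ^ e x) ^ n := by
        rw [mul_pow, mul_pow]
        ring
  have hsum : ∑ x, (1 : ℝ) / ((p' x : ℝ) * 2 ^ e x) ^ n
      ≤ (1 + 1 / (P : ℝ)) ^ n * (∑ x, r x ^ n) / D := by
    calc ∑ x, (1 : ℝ) / ((p' x : ℝ) * 2 ^ e x) ^ n
        ≤ ∑ x, (1 + 1 / (P : ℝ)) ^ n * r x ^ n / D := Finset.sum_le_sum fun x _ => hterm x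
      _ = (1 + 1 / (P : ℝ)) ^ n * (∑ x, r x ^ n) / D := by
        rw [Finset.mul_sum, Finset.sum_div]
  have h4 : (1 + 1 / (P : ℝ)) ^ n * (∑ x, r x ^ n) / D + ((P : ℝ) - 1)
      ≤ (L : ℝ) ^ n - ((p + s : ℕ) : ℝ) ^ n - ∑ j, (m₀ j : ℝ) ^ n := by
    have : (1 + 1 / (P : ℝ)) ^ n * (∑ x, r x ^ n) / D + ((P : ℝ) - 1)
        = ((1 + 1 / (P : ℝ)) ^ n * (∑ x, r x ^ n) + ((P : ℝ) - 1) * D) / D := by
      field_simp
    rw [this, div_le_iff₀ hDpos]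
    linarith
  push_cast at h4
  linarith

end Vale.Agent.P209
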