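import Vale.Agent.P209.Toric.Basic

/-!
# P209: the fan map `Σ` from the right half plane to the strip `(0,∞) × (-1/2,1/2)`

`Σ(P) = (π |P|^4 / (4 x^2), (arctan (y / x) + x y / |P|^2) / π)`: action-angle coordinates for the
pencil of circles tangent to the imaginary axis at `0`.
-/

namespace Vale.Agent.P209

open scoped ContDiff Topology

/-- first component -/
noncomputable def SgX (P : ℂ) : ℝ := Real.pi * (P.re ^ 2 + P.im ^ 2) ^ 2 / (4 * P.re ^ 2)

/-- second component -/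
noncomputable def SgY (P : ℂ) : ℝ :=
  (Real.arctan (P.im / P.re) + P.re * P.im / (P.re ^ 2 + P.im ^ 2)) / Real.pi

/-- the fan map -/
noncomputable def Sg (P : ℂ) : ℂ := ((SgX P : ℝ) : ℂ) + ((SgY P : ℝ) : ℂ) * Complex.I

private theorem re_contDiff : ContDiff ℝ ∞ (fun P : ℂ => P.re) := Complex.reCLM.contDiff

private theorem im_contDiff : ContDiff ℝ ∞ (fun P : ℂ => P.im) := Complex.imCLM.contDiff

private theorem SgX_contDiffOn : ContDiffOn ℝ ∞ SgX HP := by
  unfold SgX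
  refine ContDiffOn.div ?_ ?_ ?_
  · exact (contDiff_const.mul (((re_contDiff.pow 2).add (im_contDiff.pow 2)).pow 2)).contDiffOn
  · exact (contDiff_const.mul (re_contDiff.pow 2)).contDiffOn
  · intro P hP
    have : 0 < P.re := hP
    positivity

private theorem SgY_contDiffOn : ContDiffOn ℝ ∞ SgY HP := by
  unfold SgY
  refine ContDiffOn.div_const ?_ _
  refine ContDiffOn.add ?_ ?_
  · refine Real.contDiff_arctan.comp_contDiffOn ?_
    refine ContDiffOn.div im_contDiff.contDiffOn re_contDiff.contDiffOn ?_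
    intro P hP
    have : 0 < P.re := hP
    exact this.ne'
  · refine ContDiffOn.div (re_contDiff.mul im_contDiff).contDiffOn
      ((re_contDiff.pow 2).add (im_contDiff.pow 2)).contDiffOn ?_
    intro P hP
    have : 0 < P.re := hP
    positivity

theorem Sg_contDiffOn : ContDiffOn ℝ ∞ Sg HP := by
  unfold Sg
  have h1 : ContDiffOn ℝ ∞ (fun P => ((SgX P : ℝ) : ℂ)) HP :=
    Complex.ofRealCLM.contDiff.comp_contDiffOn SgX_contDiffOn
  have h2 : ContDiffOn ℝ ∞ (fun P => ((SgY P : ℝ) : ℂ)) HP :=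
    Complex.ofRealCLM.contDiff.comp_contDiffOn SgY_contDiffOn
  exact h1.add (h2.mul contDiffOn_const)

private theorem hasFDerivAt_div_aux {c d : ℂ → ℝ} {c' d' : ℂ →L[ℝ] ℝ} {P : ℂ}
    (hc : HasFDerivAt c c' P) (hd : HasFDerivAt d d' P) (hne : d P ≠ 0) :
    HasFDerivAt (fun w => c w / d w) ((d P)⁻¹ • c' - (c P / (d P) ^ 2) • d') P := by
  have hinv := (hasDerivAt_inv hne).comp_hasFDerivAt P hd
  have hm := hc.mul hinv
  have e : (fun w => c w / d w) = fun w => c w * (d w)⁻¹ := by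
    funext w; rw [div_eq_mul_inv]
  rw [e]
  refine hm.congr_fderiv ?_
  ext u
  simp only [Function.comp, add_apply, smul_apply,
    sub_apply, smul_eq_mul]
  field_simp
  ring

private theorem SgX_hasFDerivAt {P : ℂ} (hP : 0 < P.re) :
    HasFDerivAt SgX
      ((Real.pi * (P.re ^ 2 + P.im ^ 2) * (P.re ^ 2 - P.im ^ 2) / (2 * P.re ^ 3)) • Complex.reCLM
        + (Real.pi * P.im * (P.re ^ 2 + P.im ^ 2) / P.re ^ 2) • Complex.imCLM) P := by
  have hx : HasFDerivAt (fun P : ℂ => P.re) Complex.reCLM P := Complex.reCLM.hasFDerivAt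
  have hy : HasFDerivAt (fun P : ℂ => P.im) Complex.imCLM P := Complex.imCLM.hasFDerivAt
  have hr2 := (hx.pow 2).add (hy.pow 2)
  have hnum := (hr2.pow 2).const_mul Real.pi
  have hden := (hx.pow 2).const_mul (4 : ℝ)
  have hne : (4 : ℝ) * P.re ^ 2 ≠ 0 := by positivity
  have h := hasFDerivAt_div_aux hnum hden hne
  unfold SgX
  refine h.congr_fderiv ?_
  ext u
  simp only [add_apply, smul_apply,
    sub_apply, smul_eq_mul, Complex.reCLM_apply, Complex.imCLM_apply,
    nsmul_eq_mul, Pi.add_apply, Pi.mul_apply]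
  have hx0 : P.re ≠ 0 := hP.ne'
  field_simp
  push_cast
  ring

private theorem SgY_hasFDerivAt {P : ℂ} (hP : 0 < P.re) :
    HasFDerivAt SgY
      ((-(2 * P.re ^ 2 * P.im) / (Real.pi * (P.re ^ 2 + P.im ^ 2) ^ 2)) • Complex.reCLM
        + (2 * P.re ^ 3 / (Real.pi * (P.re ^ 2 + P.im ^ 2) ^ 2)) • Complex.imCLM) P := by
  have hx : HasFDerivAt (fun P : ℂ => P.re) Complex.reCLM P := Complex.reCLM.hasFDerivAt
  have hy : HasFDerivAt (fun P : ℂ => P.im) Complex.imCLM P := Complex.imCLM.hasFDerivAt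
  have hr2 := (hx.pow 2).add (hy.pow 2)
  have hx0 : P.re ≠ 0 := hP.ne'
  have hr0 : P.re ^ 2 + P.im ^ 2 ≠ 0 := by positivity
  have h1 := (hasFDerivAt_div_aux hy hx hx0).arctan
  have h2 := hasFDerivAt_div_aux (hx.mul hy) hr2 hr0
  have h := (h1.add h2).mul_const (Real.pi)⁻¹
  have e : SgY = fun P : ℂ =>
      (Real.arctan (P.im / P.re) + P.re * P.im / (P.re ^ 2 + P.im ^ 2)) * (Real.pi)⁻¹ := by
    funext w; unfold SgY; rw [div_eq_mul_inv]
  rw [e]
  refine h.congr_fderiv ?_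
  ext u
  simp only [add_apply, smul_apply,
    sub_apply, smul_eq_mul, Complex.reCLM_apply, Complex.imCLM_apply,
    nsmul_eq_mul, Pi.add_apply, Pi.mul_apply]
  have hpi : Real.pi ≠ 0 := Real.pi_ne_zero
  have h3 : 1 + (P.im / P.re) ^ 2 = (P.re ^ 2 + P.im ^ 2) / P.re ^ 2 := by
    field_simp
  rw [h3]
  field_simp
  push_cast
  ring

/-- With `r2 = x^2 + y^2`: `X_x = π r2 (x^2 - y^2) / (2 x^3)`, `X_y = π y r2 / x^2`,
`Y_x = - 2 x^2 y / (π r2^2)`, `Y_y = 2 x^3 / (π r2^2)`; use `apAt_of_grads`. -/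
theorem Sg_apAt {P : ℂ} (hP : P ∈ HP) : APAt Sg P := by
  have hx : 0 < P.re := hP
  refine apAt_of_grads (SgX_hasFDerivAt hx) (SgY_hasFDerivAt hx) ?_
  have hx0 : P.re ≠ 0 := hx.ne'
  have hr0 : P.re ^ 2 + P.im ^ 2 ≠ 0 := by positivity
  have hpi : Real.pi ≠ 0 := Real.pi_ne_zero
  field_simp
  ring

end Vale.Agent.P209
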