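import Vale.Agent.P209.Toric.Sg
import Vale.Agent.P209.Toric.QBij

/-!
# P209: injectivity and range of the fan map, comparison with `Q_e`
-/

namespace Vale.Agent.P209

open scoped ContDiff Topology

theorem SgX_pos {P : ℂ} (hP : P ∈ HP) : 0 < SgX P := by
  have hx : 0 < P.re := hP
  unfold SgX
  have := Real.pi_pos
  positivity

/-- `g(m) = arctan m + m / (1 + m^2)` is strictly increasing (`g' = 2 / (1 + m^2)^2`) -/
theorem strictMono_arctan_add : StrictMono (fun m : ℝ => Real.arctan m + m / (1 + m ^ 2)) := by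
  apply strictMono_of_deriv_pos
  intro m
  have hne : (1 + m ^ 2) ≠ 0 := by positivity
  have h1 : HasDerivAt Real.arctan (1 / (1 + m ^ 2)) m := Real.hasDerivAt_arctan m
  have h2 : HasDerivAt (fun m : ℝ => 1 + m ^ 2) (2 * m) m := by
    have := ((hasDerivAt_id m).pow 2).const_add 1
    simpa using this
  have h3 : HasDerivAt (fun m : ℝ => m / (1 + m ^ 2))
      ((1 * (1 + m ^ 2) - m * (2 * m)) / (1 + m ^ 2) ^ 2) m := (hasDerivAt_id m).div h2 hne
  have h4 := (h1.add h3).deriv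
  have h5 : deriv (fun m : ℝ => Real.arctan m + m / (1 + m ^ 2)) m
      = 1 / (1 + m ^ 2) + (1 * (1 + m ^ 2) - m * (2 * m)) / (1 + m ^ 2) ^ 2 := h4
  rw [h5]
  have h6 : 1 / (1 + m ^ 2) + (1 * (1 + m ^ 2) - m * (2 * m)) / (1 + m ^ 2) ^ 2
      = 2 / (1 + m ^ 2) ^ 2 := by
    field_simp
    ring
  rw [h6]
  positivity

private theorem div_eq_sin_mul_cos (m : ℝ) :
    m / (1 + m ^ 2) = Real.sin (2 * Real.arctan m) / 2 := by
  rw [Real.sin_two_mul, Real.sin_arctan, Real.cos_arctan]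
  have h0 : (0 : ℝ) < 1 + m ^ 2 := by positivity
  have hs : Real.sqrt (1 + m ^ 2) * Real.sqrt (1 + m ^ 2) = 1 + m ^ 2 :=
    Real.mul_self_sqrt h0.le
  have hs0 : Real.sqrt (1 + m ^ 2) ≠ 0 := (Real.sqrt_pos.mpr h0).ne'
  have : 2 * (m / Real.sqrt (1 + m ^ 2)) * (1 / Real.sqrt (1 + m ^ 2)) / 2
      = m / (Real.sqrt (1 + m ^ 2) * Real.sqrt (1 + m ^ 2)) := by
    field_simp
  rw [this, hs]

/-- with `φ = arctan m`: `m / (1 + m^2) = sin φ cos φ = sin (2 φ) / 2` and `sin (π - 2 φ) < π - 2 φ` -/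
theorem abs_arctan_add_lt (m : ℝ) : |Real.arctan m + m / (1 + m ^ 2)| < Real.pi / 2 := by
  rw [div_eq_sin_mul_cos]
  set φ := Real.arctan m with hφ
  have h1 : φ < Real.pi / 2 := Real.arctan_lt_pi_div_two m
  have h2 : -(Real.pi / 2) < φ := Real.neg_pi_div_two_lt_arctan m
  have a1 : Real.sin (Real.pi - 2 * φ) < Real.pi - 2 * φ := Real.sin_lt (by linarith)
  have a2 : Real.sin (Real.pi + 2 * φ) < Real.pi + 2 * φ := Real.sin_lt (by linarith)
  rw [Real.sin_pi_sub] at a1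
  rw [add_comm Real.pi, Real.sin_add_pi] at a2
  rw [abs_lt]
  constructor <;> linarith

private theorem slope_eq {P : ℂ} (hP : P ∈ HP) :
    P.re * P.im / (P.re ^ 2 + P.im ^ 2) = (P.im / P.re) / (1 + (P.im / P.re) ^ 2) := by
  have hx : 0 < P.re := hP
  have h0 : 0 < P.re ^ 2 + P.im ^ 2 := by positivity
  field_simp

private theorem SgY_eq {P : ℂ} (hP : P ∈ HP) :
    SgY P = (Real.arctan (P.im / P.re) + (P.im / P.re) / (1 + (P.im / P.re) ^ 2)) / Real.pi := by
  unfold SgY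
  rw [slope_eq hP]

theorem abs_SgY_lt {P : ℂ} (hP : P ∈ HP) : |SgY P| < 1 / 2 := by
  rw [SgY_eq hP, abs_div, abs_of_pos Real.pi_pos, div_lt_iff₀ Real.pi_pos]
  have := abs_arctan_add_lt (P.im / P.re)
  linarith

private theorem SgX_eq {P : ℂ} (hP : P ∈ HP) :
    SgX P = Real.pi * P.re ^ 2 * (1 + (P.im / P.re) ^ 2) ^ 2 / 4 := by
  have hx : 0 < P.re := hP
  unfold SgX
  field_simp

/-- `SgY` determines the slope `y / x`, then `SgX = π x^2 (1 + m^2)^2 / 4` determines `x > 0` -/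
theorem Sg_injOn : Set.InjOn Sg HP := by
  intro P hP P' hP' h
  have hx : 0 < P.re := hP
  have hx' : 0 < P'.re := hP'
  have hX : SgX P = SgX P' := by
    have := congrArg Complex.re h
    simpa [Sg] using this
  have hY : SgY P = SgY P' := by
    have := congrArg Complex.im h
    simpa [Sg] using this
  rw [SgY_eq hP, SgY_eq hP', div_left_inj' Real.pi_pos.ne'] at hY
  have hm : P.im / P.re = P'.im / P'.re := strictMono_arctan_add.injective hY
  rw [SgX_eq hP, SgX_eq hP', hm] at hX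
  have hpos : 0 < (1 + (P'.im / P'.re) ^ 2) ^ 2 := by positivity
  have hsq : P.re ^ 2 = P'.re ^ 2 := by
    have h1 : Real.pi * P.re ^ 2 * (1 + (P'.im / P'.re) ^ 2) ^ 2
        = Real.pi * P'.re ^ 2 * (1 + (P'.im / P'.re) ^ 2) ^ 2 := by linarith
    have h2 := mul_right_cancel₀ hpos.ne' h1
    exact mul_left_cancel₀ Real.pi_pos.ne' h2
  have hre : P.re = P'.re := by
    have := (sq_eq_sq₀ hx.le hx'.le).mp hsq
    exact this
  have him : P.im = P'.im := by
    rw [hre] at hm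
    exact (div_left_inj' hx'.ne').mp hm
  exact Complex.ext hre him

/-- the control: `X(Σ P) = π (|P|^2 / (2x))^2 < π s_e(P)^2 = π |Q_e P|^2 + π e` -/
theorem SgX_lt {e : ℝ} (he : 0 < e) {P : ℂ} (hP : P ∈ HP) :
    SgX P < Real.pi * ‖Qmap e P‖ ^ 2 + Real.pi * e := by
  have hx : 0 < P.re := hP
  rw [Qmap_norm_sq he.le hP]
  have e1 : Real.pi * (sfun e P ^ 2 - e) + Real.pi * e = Real.pi * sfun e P ^ 2 := by ring
  rw [e1]
  unfold SgX sfun
  have e2 : Real.pi * ((P.re ^ 2 + P.im ^ 2 + e) / (2 * P.re)) ^ 2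
      = Real.pi * (P.re ^ 2 + P.im ^ 2 + e) ^ 2 / (4 * P.re ^ 2) := by
    field_simp
    ring
  rw [e2]
  have h0 : 0 < P.re ^ 2 + P.im ^ 2 := by positivity
  have h1 : (P.re ^ 2 + P.im ^ 2) ^ 2 < (P.re ^ 2 + P.im ^ 2 + e) ^ 2 := by
    nlinarith
  have := Real.pi_pos
  gcongr

end Vale.Agent.P209
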