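import Vale.Agent.P209.Toric.QInv
import Vale.Agent.P209.Toric.SgInj

/-!
# P209: an explicit form of Traynor's trick

`tray e = Σ ∘ Q_e⁻¹ : ℂ → (0,∞) × (-1/2,1/2)` is a smooth injective area preserving map with
`X(tray e z) < π |z|^2 + π e`.
-/

namespace Vale.Agent.P209

open scoped ContDiff Topology

noncomputable def tray (e : ℝ) (z : ℂ) : ℂ := Sg (qinv e z)

private theorem Sg_re (P : ℂ) : (Sg P).re = SgX P := by
  simp [Sg]

private theorem Sg_im (P : ℂ) : (Sg P).im = SgY P := by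
  simp [Sg]

theorem tray_contDiff {e : ℝ} (he : 0 < e) : ContDiff ℝ ∞ (tray e) := by
  have h : ContDiff ℝ ∞ (Sg ∘ qinv e) :=
    Sg_contDiffOn.comp_contDiff (qinv_contDiff he) (fun z => qinv_mem he z)
  exact h

theorem tray_apAt {e : ℝ} (he : 0 < e) (z : ℂ) : APAt (tray e) z :=
  APAt.comp (g := Sg) (h := qinv e) (Sg_apAt (qinv_mem he z)) (qinv_apAt he z)

theorem tray_injective {e : ℝ} (he : 0 < e) : Function.Injective (tray e) := by
  intro a b hab
  exact qinv_injective he (Sg_injOn (qinv_mem he a) (qinv_mem he b) hab)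

theorem tray_re_pos {e : ℝ} (he : 0 < e) (z : ℂ) : 0 < (tray e z).re := by
  unfold tray
  rw [Sg_re]
  exact SgX_pos (qinv_mem he z)

theorem tray_re_lt {e : ℝ} (he : 0 < e) (z : ℂ) :
    (tray e z).re < Real.pi * ‖z‖ ^ 2 + Real.pi * e := by
  unfold tray
  rw [Sg_re]
  have h := SgX_lt he (qinv_mem he z)
  rwa [Qmap_qinv he z] at h

theorem tray_im_lt {e : ℝ} (he : 0 < e) (z : ℂ) : |(tray e z).im| < 1 / 2 := by
  unfold tray
  rw [Sg_im]
  exact abs_SgY_lt (qinv_mem he z)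

end Vale.Agent.P209
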