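import Vale.Agent.P209.Toric.Operad
import Vale.Agent.P209.Toric.First
import Vale.Agent.P209.Toric.Count3

/-!
# P209: a packing on two scales
-/

namespace Vale.Agent.P209

open scoped ContDiff Topology

/-- A ball at the centre (capacity `a ≤ sh + (p + s) μ`), up to `2 ^ n - 1` containers (capacity
`T' < s μ`) and fine cells (capacity `T < μ`).

Write `n = n' + 1`. Choose `e > 0` with `T + n π e ≤ μ` and `T' + n π e ≤ s μ`. The central ball is
embedded by the identity, the container `j` by `emb e (s μ) (sh + p μ) (C j)` with codes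
`C j : Fin n → {0, 1}`, not identically `0` (`exists_codes n 2`), the cell `x` by `emb e μ sh (c x)` with
the codes of `exists_codes_two_scale`. Everything as in `packs_core` (file `Main.lean`):
`isSympEmb_emb`, `cBall_subset_Udom`, `emb_ne` for two containers or two cells. Bounds:
* container: `sh + (p + s) μ < cap < sh + (p + 2 s) μ` (`lt_cap_emb`, `cap_emb_lt` with `m = 2`) and
  `sh + p μ < π |z_0|^2` (`lt_first_emb` with `m = 0`);
* cell: `cap < sh + L μ`; `sh + (p + s) μ < cap` (`lt_cap_emb` with `m = c x i + 1`); moreover either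
  `π |z_0|^2 < sh + p μ` (`first_emb_lt`) or `sh + (p + 2 s) μ < cap`.
So a container and a cell have disjoint images. -/
theorem packsI_two_scale (n p s L : ℕ) (hn : 1 ≤ n) (hs : 1 ≤ s) (hL : p + 2 * s ≤ L)
    {ι₂ ι₃ : Type} [Fintype ι₂] [Fintype ι₃] (hc2 : Fintype.card ι₂ + 1 ≤ 2 ^ n)
    (hc3 : Fintype.card ι₃ + (p + s) ^ n + (2 * s) ^ n ≤ L ^ n + s ^ n)
    (μ sh a T' T R : ℝ) (hμ : 0 < μ) (hsh : 0 ≤ sh) (ha : a ≤ sh + ((p + s : ℕ) : ℝ) * μ)
    (hT' : T' < (s : ℝ) * μ) (hT : T < μ) (hR : sh + (L : ℝ) * μ ≤ R) :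
    PacksI n (Sum.elim (fun _ : Unit => a)
      (Sum.elim (fun _ : ι₂ => T') (fun _ : ι₃ => T))) R := by
  obtain ⟨C, hCinj, hC1, hC2⟩ := exists_codes n 2 ι₂ (by
    simp only [Nat.add_one_sub_one, one_pow]
    omega)
  obtain ⟨c, hcinj, hc1, hc2, hc3'⟩ := exists_codes_two_scale n p s L hL ι₃ hc3
  obtain ⟨n, rfl⟩ : ∃ n', n = n' + 1 := ⟨n - 1, by omega⟩
  have hn0 : (0 : ℝ) < ((n + 1 : ℕ) : ℝ) := by positivity
  set d : ℝ := min (μ - T) ((s : ℝ) * μ - T') with hd
  have hd0 : 0 < d := lt_min (by linarith) (by linarith)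
  set e : ℝ := d / (((n + 1 : ℕ) : ℝ) * Real.pi) with he'
  have he : 0 < e := div_pos hd0 (mul_pos hn0 Real.pi_pos)
  have hne : ((n + 1 : ℕ) : ℝ) * (Real.pi * e) = d := by
    rw [he']
    field_simp
  have hleT : T + ((n + 1 : ℕ) : ℝ) * (Real.pi * e) ≤ μ := by
    rw [hne]
    have := min_le_left (μ - T) ((s : ℝ) * μ - T')
    linarith
  have hleT' : T' + ((n + 1 : ℕ) : ℝ) * (Real.pi * e) ≤ (s : ℝ) * μ := by
    rw [hne]
    have := min_le_right (μ - T) ((s : ℝ) * μ - T')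
    linarith
  set ρ₂ : ℝ := (s : ℝ) * μ with hρ₂
  set sh₂ : ℝ := sh + (p : ℝ) * μ with hsh₂
  have hsh₂0 : 0 ≤ sh₂ := by positivity
  have hsubT : cBall (n + 1) T ⊆ Udom e μ := cBall_subset_Udom he hleT (by omega)
  have hsubT' : cBall (n + 1) T' ⊆ Udom e ρ₂ := cBall_subset_Udom he hleT' (by omega)
  have hps : ((p + s : ℕ) : ℝ) = (p : ℝ) + (s : ℝ) := by push_cast; ring
  have hs0 : (0 : ℝ) < (s : ℝ) := by exact_mod_cast hs
  have hLr : (p : ℝ) + 2 * (s : ℝ) ≤ (L : ℝ) := by exact_mod_cast hL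
  -- containers
  have capC_lo : ∀ j, ∀ z ∈ cBall (n + 1) T',
      sh + ((p + s : ℕ) : ℝ) * μ < cap (emb e ρ₂ sh₂ (C j) z) := by
    intro j z hz
    have h3 := lt_cap_emb (m := 2) he hsh₂0 (C j) (hC2 j) (hsubT' hz)
    have h4 : (((2 : ℕ) : ℝ) - 1) * ρ₂ + sh₂ = sh + ((p + s : ℕ) : ℝ) * μ := by
      rw [hps, hρ₂, hsh₂]
      push_cast
      ring
    linarith
  have capC_hi : ∀ j, ∀ z ∈ cBall (n + 1) T',
      cap (emb e ρ₂ sh₂ (C j) z) < sh + ((p : ℝ) + 2 * (s : ℝ)) * μ := by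
    intro j z hz
    have h3 := cap_emb_lt (m := 2) he hsh₂0 (C j) (hC1 j) (hsubT' hz)
    have h4 : ((2 : ℕ) : ℝ) * ρ₂ + sh₂ = sh + ((p : ℝ) + 2 * (s : ℝ)) * μ := by
      rw [hρ₂, hsh₂]
      push_cast
      ring
    linarith
  have firstC : ∀ j, ∀ z ∈ cBall (n + 1) T',
      sh + (p : ℝ) * μ < Real.pi * ‖emb e ρ₂ sh₂ (C j) z 0‖ ^ 2 := by
    intro j z hz
    have h3 := lt_first_emb (m := 0) he hsh₂0 (C j) (fun _ => Nat.zero_le _) (hsubT' hz)
    simp only [Nat.cast_zero, zero_mul, zero_add] at h3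
    exact h3
  -- cells
  have capc_hi : ∀ x, ∀ z ∈ cBall (n + 1) T, cap (emb e μ sh (c x) z) < sh + (L : ℝ) * μ := by
    intro x z hz
    have h3 := cap_emb_lt (m := L) he hsh (c x) (hc1 x) (hsubT hz)
    linarith
  have capc_ge : ∀ x (m : ℕ), (∃ i, m ≤ c x i) → ∀ z ∈ cBall (n + 1) T,
      sh + (m : ℝ) * μ < cap (emb e μ sh (c x) z) := by
    intro x m hm z hz
    obtain ⟨l, hl⟩ := hm
    have h3 := lt_cap_emb (m := c x l + 1) he hsh (c x) ⟨l, rfl⟩ (hsubT hz)
    have h4 : (((c x l + 1 : ℕ) : ℝ) - 1) = (c x l : ℝ) := by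
      push_cast
      ring
    rw [h4] at h3
    have h5 : (m : ℝ) ≤ (c x l : ℝ) := by exact_mod_cast hl
    have h6 : (m : ℝ) * μ ≤ (c x l : ℝ) * μ := mul_le_mul_of_nonneg_right h5 hμ.le
    linarith
  have hCc : ∀ j x, ∀ z ∈ cBall (n + 1) T', ∀ z' ∈ cBall (n + 1) T,
      emb e ρ₂ sh₂ (C j) z ≠ emb e μ sh (c x) z' := by
    intro j x z hz z' hz' h
    rcases hc3' x with h1 | h1
    · have h3 := first_emb_lt (m := p) he hsh (c x) h1 (hsubT hz')
      have h4 := firstC j z hz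
      rw [h] at h4
      linarith
    · have h3 := capc_ge x (p + 2 * s) h1 z' hz'
      have h4 := capC_hi j z hz
      rw [h] at h4
      have h5 : ((p + 2 * s : ℕ) : ℝ) = (p : ℝ) + 2 * (s : ℝ) := by push_cast; ring
      rw [h5] at h3
      linarith
  have haR : a < R := by
    have h1 : ((p + s : ℕ) : ℝ) * μ < (L : ℝ) * μ := by
      apply mul_lt_mul_of_pos_right _ hμ
      rw [hps]
      linarith
    linarith
  refine ⟨Sum.elim (fun _ => fun z => z)
    (Sum.elim (fun j => emb e ρ₂ sh₂ (C j)) (fun x => emb e μ sh (c x))), ?_, ?_, ?_⟩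
  · rintro (u | j | x)
    · exact isSympEmb_id _
    · exact isSympEmb_emb (by omega) he hsh₂0 hleT' (C j)
    · exact isSympEmb_emb (by omega) he hsh hleT (c x)
  · rintro (u | j | x)
    · rintro _ ⟨z, hz, rfl⟩
      have hz' : cap z ≤ a := hz
      show cap z < R
      linarith
    · rintro _ ⟨z, hz, rfl⟩
      have h3 := capC_hi j z hz
      show cap (emb e ρ₂ sh₂ (C j) z) < R
      have h4 : ((p : ℝ) + 2 * (s : ℝ)) * μ ≤ (L : ℝ) * μ := mul_le_mul_of_nonneg_right hLr hμ.le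
      linarith
    · rintro _ ⟨z, hz, rfl⟩
      have h3 := capc_hi x z hz
      show cap (emb e μ sh (c x) z) < R
      linarith
  · rintro (u | j | x) (v | j' | x') hij
    · exact absurd rfl hij
    · rw [Set.disjoint_left]
      rintro _ ⟨z, hz, rfl⟩ ⟨z', hz', h⟩
      have h3 := capC_lo j' z' hz'
      have hz2 : cap z ≤ a := hz
      simp only [Sum.elim_inl, Sum.elim_inr] at h
      rw [h] at h3
      linarith
    · rw [Set.disjoint_left]
      rintro _ ⟨z, hz, rfl⟩ ⟨z', hz', h⟩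
      have h3 := capc_ge x' (p + s) (hc2 x') z' hz'
      have hz2 : cap z ≤ a := hz
      simp only [Sum.elim_inl, Sum.elim_inr] at h
      rw [h] at h3
      linarith
    · rw [Set.disjoint_left]
      rintro _ ⟨z, hz, rfl⟩ ⟨z', hz', h⟩
      have h3 := capC_lo j z hz
      have hz2 : cap z' ≤ a := hz'
      simp only [Sum.elim_inl, Sum.elim_inr] at h
      rw [← h] at h3
      linarith
    · rw [Set.disjoint_left]
      rintro _ ⟨z, hz, rfl⟩ ⟨z', hz', h⟩
      have hcc : C j' ≠ C j := fun hc => hij (congrArg (fun t => Sum.inr (Sum.inl t)) (hCinj hc).symm)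
      exact emb_ne he hsh₂0 hcc (hsubT' hz') (hsubT' hz) h
    · rw [Set.disjoint_left]
      rintro _ ⟨z, hz, rfl⟩ ⟨z', hz', h⟩
      exact hCc j x' z hz z' hz' h.symm
    · rw [Set.disjoint_left]
      rintro _ ⟨z, hz, rfl⟩ ⟨z', hz', h⟩
      have h3 := capc_ge x (p + s) (hc2 x) z hz
      have hz2 : cap z' ≤ a := hz'
      simp only [Sum.elim_inl, Sum.elim_inr] at h
      rw [← h] at h3
      linarith
    · rw [Set.disjoint_left]
      rintro _ ⟨z, hz, rfl⟩ ⟨z', hz', h⟩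
      exact hCc j' x z' hz' z hz h
    · rw [Set.disjoint_left]
      rintro _ ⟨z, hz, rfl⟩ ⟨z', hz', h⟩
      have hcc : c x' ≠ c x := fun hc => hij (congrArg (fun t => Sum.inr (Sum.inr t)) (hcinj hc).symm)
      exact emb_ne he hsh hcc (hsubT hz') (hsubT hz) h

end Vale.Agent.P209
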